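import Mathlib

/-!
Bin packing with the Gilmore-Gomory configuration relaxation (definitions only).
An instance is a family of rational item sizes `a : Fin n → ℚ`, bins have capacity 1.
-/

namespace Vale.Agent.Lib.Helper3.BinPacking

open Finset

/-- `f` assigns each item to one of `k` bins and every bin has total size at most `1`. -/
def IsPacking {n : ℕ} (a : Fin n → ℚ) (k : ℕ) (f : Fin n → Fin k) : Prop :=
  ∀ b : Fin k, ∑ i ∈ univ.filter (fun i => f i = b), a i ≤ 1

/-- The least number of bins into which the items can be partitioned. -/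
noncomputable def opt {n : ℕ} (a : Fin n → ℚ) : ℕ :=
  sInf {k : ℕ | ∃ f : Fin n → Fin k, IsPacking a k f}

/-- The set of distinct sizes of the instance. -/
def sizes {n : ℕ} (a : Fin n → ℚ) : Finset ℚ := univ.image a

/-- The number of items of size `σ`. -/
def mult {n : ℕ} (a : Fin n → ℚ) (σ : ℚ) : ℕ := (univ.filter (fun i => a i = σ)).card

/-- A configuration: a vector of natural numbers indexed by the distinct sizes
(extended by zero to all rationals) whose total size is at most `1`.  A size may
occur more often than its multiplicity. -/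
def IsConfig {n : ℕ} (a : Fin n → ℚ) (c : ℚ → ℕ) : Prop :=
  (∀ σ, σ ∉ sizes a → c σ = 0) ∧ ∑ σ ∈ sizes a, σ * (c σ : ℚ) ≤ 1

/-- A feasible solution of the configuration linear program, given as a finite
family of configurations `cfg j` with weights `w j ≥ 0`: every size is covered
at least as often as its multiplicity. -/
def IsFracCover {n : ℕ} (a : Fin n → ℚ) (m : ℕ) (cfg : Fin m → ℚ → ℕ) (w : Fin m → ℝ) : Prop :=
  (∀ j, 0 ≤ w j) ∧ (∀ j, IsConfig a (cfg j)) ∧
    ∀ σ ∈ sizes a, (mult a σ : ℝ) ≤ ∑ j, (cfg j σ : ℝ) * w j

/-- The optimal value of the configuration linear program. -/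
noncomputable def lp {n : ℕ} (a : Fin n → ℚ) : ℝ :=
  sInf {v : ℝ | ∃ (m : ℕ) (cfg : Fin m → ℚ → ℕ) (w : Fin m → ℝ),
    IsFracCover a m cfg w ∧ v = ∑ j, w j}

/-- Any feasible fractional solution bounds the linear programming value from above. -/
theorem lp_le_of_cover {n : ℕ} (a : Fin n → ℚ) (m : ℕ) (cfg : Fin m → ℚ → ℕ) (w : Fin m → ℝ)
    (h : IsFracCover a m cfg w) : lp a ≤ ∑ j, w j := by
  apply csInf_le
  · refine ⟨0, ?_⟩
    rintro v ⟨m', cfg', w', h', rfl⟩
    exact Finset.sum_nonneg (fun j _ => h'.1 j)
  · exact ⟨m, cfg, w, h, rfl⟩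

/-- A packing into `k` bins can be viewed as a packing into `k + 1` bins. -/
theorem packing_succ {n : ℕ} (a : Fin n → ℚ) (k : ℕ)
    (h : ∃ f : Fin n → Fin k, IsPacking a k f) :
    ∃ f : Fin n → Fin (k + 1), IsPacking a (k + 1) f := by
  obtain ⟨f, hf⟩ := h
  refine ⟨fun i => (f i).castSucc, ?_⟩
  intro b
  by_cases hb : (b : ℕ) < k
  · have : univ.filter (fun i => (f i).castSucc = b) = univ.filter (fun i => f i = ⟨b, hb⟩) := by
      ext i
      simp only [mem_filter, mem_univ, true_and]
      constructor
      · intro hi
        apply Fin.ext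
        have := congrArg Fin.val hi
        simpa using this
      · intro hi
        apply Fin.ext
        have := congrArg Fin.val hi
        simpa using this
    rw [this]
    exact hf ⟨b, hb⟩
  · have : univ.filter (fun i => (f i).castSucc = b) = ∅ := by
      ext i
      simp only [mem_filter, mem_univ, true_and]
      constructor
      · intro hi
        exfalso
        apply hb
        have := congrArg Fin.val hi
        have h2 : ((f i).castSucc : ℕ) = (f i : ℕ) := rfl
        omega
      · intro hi
        simp at hi
    rw [this]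
    simp

/-- If no packing into `k` bins exists, no packing into fewer bins exists. -/
theorem no_packing_le {n : ℕ} (a : Fin n → ℚ) (k : ℕ)
    (h : ¬ ∃ f : Fin n → Fin k, IsPacking a k f) (j : ℕ) (hj : j ≤ k) :
    ¬ ∃ f : Fin n → Fin j, IsPacking a j f := by
  induction k, hj using Nat.le_induction with
  | base => exact h
  | succ k _ ih =>
    apply ih
    intro hk
    exact h (packing_succ a k hk)

/-- Lower bound for `opt`: if there is no packing into `k` bins then `k + 1 ≤ opt`
(sizes at most `1`). -/
theorem succ_le_opt {n : ℕ} (a : Fin n → ℚ) (ha1 : ∀ i, a i ≤ 1) (k : ℕ)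
    (h : ¬ ∃ f : Fin n → Fin k, IsPacking a k f) : k + 1 ≤ opt a := by
  unfold opt
  apply le_csInf
  · refine ⟨n, fun i => i, ?_⟩
    intro b
    have : univ.filter (fun i : Fin n => i = b) = {b} := by
      ext i; simp
    rw [this]
    simpa using ha1 b
  · intro j hj
    by_contra hlt
    have hjk : j ≤ k := by omega
    exact no_packing_le a k h j hjk hj

end Vale.Agent.Lib.Helper3.BinPacking
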