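import Vale.Agent.Lib.Helper3.P302Any236Data

/-!
Kernel evaluation of the third table check on some blocks and keys.
-/

namespace Vale.Agent.Lib.Helper3.BinPacking

theorem ca236_b0_ok : ca236_b0.all chka236 = true := by decide +kernel

theorem ca236_b6_ok : ca236_b6.all chka236 = true := by decide +kernel

theorem ca236_b14_ok : ca236_b14.all chka236 = true := by decide +kernel

theorem ca236_b20_ok : ca236_b20.all chka236 = true := by decide +kernel

theorem ca236_b28_ok : ca236_b28.all chka236 = true := by decide +kernel

theorem ca236_b34_ok : ca236_b34.all chka236 = true := by decide +kernel

theorem ca236_b42_ok : ca236_b42.all chka236 = true := by decide +kernel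

theorem ca236_b49_ok : ca236_b49.all chka236 = true := by decide +kernel

theorem ca236_b56_ok : ca236_b56.all chka236 = true := by decide +kernel

theorem ca236_b64_ok : ca236_b64.all chka236 = true := by decide +kernel

theorem ca236_b70_ok : ca236_b70.all chka236 = true := by decide +kernel

theorem ca236_b78_ok : ca236_b78.all chka236 = true := by decide +kernel

theorem ca236_b84_ok : ca236_b84.all chka236 = true := by decide +kernel

theorem ca236_b92_ok : ca236_b92.all chka236 = true := by decide +kernel

theorem ca236_b98_ok : ca236_b98.all chka236 = true := by decide +kernel

theorem ca236_b106_ok : ca236_b106.all chka236 = true := by decide +kernel

theorem ca236_b113_ok : ca236_b113.all chka236 = true := by decide +kernel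

theorem ca236_b120_ok : ca236_b120.all chka236 = true := by decide +kernel

theorem ca236_b3_ok : ca236_b3.all chka236 = true := by decide +kernel

theorem ca236_b11_ok : ca236_b11.all chka236 = true := by decide +kernel

theorem ca236_b21_ok : ca236_b21.all chka236 = true := by decide +kernel

theorem ca236_b29_ok : ca236_b29.all chka236 = true := by decide +kernel

theorem ca236_b39_ok : ca236_b39.all chka236 = true := by decide +kernel

theorem ca236_b47_ok : ca236_b47.all chka236 = true := by decide +kernel

theorem ca236_b57_ok : ca236_b57.all chka236 = true := by decide +kernel

theorem ca236_b67_ok : ca236_b67.all chka236 = true := by decide +kernel

theorem ca236_b75_ok : ca236_b75.all chka236 = true := by decide +kernel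

theorem ca236_b85_ok : ca236_b85.all chka236 = true := by decide +kernel

theorem ca236_b93_ok : ca236_b93.all chka236 = true := by decide +kernel

theorem ca236_b103_ok : ca236_b103.all chka236 = true := by decide +kernel

theorem ca236_b111_ok : ca236_b111.all chka236 = true := by decide +kernel

theorem ca236_b121_ok : ca236_b121.all chka236 = true := by decide +kernel

theorem ca236_k0_ok : chka236 2625786880202974567461814272 = true := by decide +kernel

theorem ca236_k4_ok : chka236 38681753887152180481522401280 = true := by decide +kernel

theorem ca236_k8_ok : chka236 474127389379375869920259604480 = true := by decide +kernel

theorem ca236_k12_ok : chka236 1978846982792486986119022379008 = true := by decide +kernel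

theorem ca236_k16_ok : chka236 15687176168379605877782411739136 = true := by decide +kernel

theorem ca236_k20_ok : chka236 5354556135362897293789504347308032 = true := by decide +kernel

theorem ca236_k24_ok : chka236 165017684535308879152904395462541312 = true := by decide +kernel

theorem ca236_k28_ok : chka236 2657888084100928354761150275229057024 = true := by decide +kernel

theorem ca236_k32_ok : chka236 63801970242014986471051976083414974464 = true := by decide +kernel

theorem ca236_k36_ok : chka236 446620606583731732409947226339985588224 = true := by decide +kernel

theorem ca236_k40_ok : chka236 5444517546216461756839656954365575430144 = true := by decide +kernel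

theorem ca236_k44_ok : chka236 2460922077572226967767125126606600546549760 = true := by decide +kernel

theorem ca236_k48_ok : chka236 66771567166694229054637218937025350644793344 = true := by decide +kernel

theorem ca236_k52_ok : chka236 1427095246205579300626654377591571114832691200 = true := by decide +kernel

theorem ca236_k56_ok : chka236 17483718901433559722779018157824915529564946432 = true := by decide +kernel

theorem ca236_k60_ok : chka236 194105642651867577943803568533150057686284369920 = true := by decide +kernel

theorem ca236_k64_ok : chka236 49691055669250699218925284312353622667210784768000 = true := by decide +kernel

theorem ca236_k68_ok : chka236 1452732627506917500694462723719985321536927500861440 = true := by decide +kernel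

theorem ca236_k72_ok : chka236 23923320301469549868076117026732836748746876927344640 = true := by decide +kernel

theorem ca236_k76_ok : chka236 383101962691912251045813701515086551659388859091779584 = true := by decide +kernel

theorem ca236_k80_ok : chka236 6129959510188176804438155951486329632088151555458465792 = true := by decide +kernel

theorem ca236_k84_ok : chka236 122599599424221988741580216061479753201008539856160161792 = true := by decide +kernel

theorem ca236_k88_ok : chka236 2402952990539694081935053120127466807318786707506522488832 = true := by decide +kernel

theorem ca236_k92_ok : chka236 15496594891697848487748770120099708472157293767443232063488 = true := by decide +kernel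

theorem ca236_k96_ok : chka236 9742061893320128545473145184818298277790855649808181563752448 = true := by decide +kernel

theorem ca236_k100_ok : chka236 202574627204398961610508596265757810580455214903743321799923712 = true := by decide +kernel

theorem ca236_k104_ok : chka236 3689931484129706420213230454538394626041608624473738048060551168 = true := by decide +kernel

theorem ca236_k108_ok : chka236 92135801440144531186042824016995984268863661402278655703048289792 = true := by decide +kernel

theorem ca236_k112_ok : chka236 842495320339624507976577580290440318871281034073779547297920597984 = true := by decide +kernel

theorem ca236_k116_ok : chka236 16849961042685994965200920032519945976954106436377379560914831867872 = true := by decide +kernel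

theorem ca236_k120_ok : chka236 350479304262551250942185782818312060245538973709722951580157680091128 = true := by decide +kernel

theorem ca236_k124_ok : chka236 2129835785097962499519703916332588730876171806858502232224392373469178 = true := by decide +kernel

end Vale.Agent.Lib.Helper3.BinPacking
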