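import Vale.Agent.Lib.Helper3.P302Any236Core
import Vale.Agent.Lib.Helper3.P302LP236
import Vale.Agent.Lib.Helper8.P302Glue

/-!
Assembly for the instance with 236 items: all sizes lie in `(1/4, 1/2]`, the optimum is at
least 80, the linear programming value is at most `272173 / 3456`, hence the gap is at least
`4307 / 3456`.
-/

namespace Vale.Agent.Lib.Helper3.BinPacking

theorem wts236_sorted : wts236.Pairwise (fun x y => x ≤ y) := by decide +kernel

theorem wts236_big : ∀ w, w ∈ wts236 → cap236 < 4 * w := by decide +kernel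

theorem wts236_half : ∀ w, w ∈ wts236 → 2 * w ≤ cap236 := by decide +kernel

theorem wts236_length : wts236.length = 236 := by decide +kernel

theorem inst236_range (i : Fin 236) : 1 / 4 < inst236 i ∧ inst236 i ≤ 1 / 2 := by
  have hi : (i : ℕ) < wts236.length := by
    rw [wts236_length]
    exact i.2
  have hmem : wts236.getD (i : ℕ) 0 ∈ wts236 := by
    rw [List.getD_eq_getElem _ _ hi]
    exact List.getElem_mem hi
  have h1 := wts236_big _ hmem
  have h2 := wts236_half _ hmem
  have hcap : (0 : ℚ) < (cap236 : ℚ) := by
    have : 0 < cap236 := by decide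
    exact_mod_cast this
  have h1' : (cap236 : ℚ) < 4 * (wts236.getD (i : ℕ) 0 : ℚ) := by exact_mod_cast h1
  have h2' : 2 * (wts236.getD (i : ℕ) 0 : ℚ) ≤ (cap236 : ℚ) := by exact_mod_cast h2
  unfold inst236
  constructor
  · rw [lt_div_iff₀ hcap]
    linarith
  · rw [div_le_iff₀ hcap]
    linarith

/-- The optimum of the instance with 236 items is at least 80. -/
theorem opt_inst236_ge : 80 ≤ opt inst236 := by
  apply succ_le_opt inst236 (fun i => le_trans (inst236_range i).2 (by norm_num)) 79
  intro hpack
  apply not_packable_any236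
  exact Vale.Agent.Lib.Helper8.P302Glue.packable_of_packing 236 78 cap236 wts236
    wts236_length (by norm_num) wts236_sorted wts236_big (by decide) inst236
    (fun i => rfl) hpack

/-- The gap statement for the instance with 236 items. -/
theorem gap236 : ∃ a : Fin 236 → ℚ, (∀ i, 1 / 4 < a i ∧ a i ≤ 1 / 2) ∧
    (4307 / 3456 : ℝ) ≤ (opt a : ℝ) - lp a := by
  refine ⟨inst236, inst236_range, ?_⟩
  have h1 : (80 : ℝ) ≤ (opt inst236 : ℝ) := by exact_mod_cast opt_inst236_ge
  have h2 := lp_inst236_le
  linarith

end Vale.Agent.Lib.Helper3.BinPacking
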