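import Vale.Agent.Lib.Helper3.P302Any236Data

/-!
Kernel evaluation of the third table check on some blocks and keys.
-/

namespace Vale.Agent.Lib.Helper3.BinPacking

theorem ca236_b1_ok : ca236_b1.all chka236 = true := by decide +kernel

theorem ca236_b8_ok : ca236_b8.all chka236 = true := by decide +kernel

theorem ca236_b16_ok : ca236_b16.all chka236 = true := by decide +kernel

theorem ca236_b22_ok : ca236_b22.all chka236 = true := by decide +kernel

theorem ca236_b30_ok : ca236_b30.all chka236 = true := by decide +kernel

theorem ca236_b36_ok : ca236_b36.all chka236 = true := by decide +kernel

theorem ca236_b44_ok : ca236_b44.all chka236 = true := by decide +kernel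

theorem ca236_b50_ok : ca236_b50.all chka236 = true := by decide +kernel

theorem ca236_b58_ok : ca236_b58.all chka236 = true := by decide +kernel

theorem ca236_b65_ok : ca236_b65.all chka236 = true := by decide +kernel

theorem ca236_b72_ok : ca236_b72.all chka236 = true := by decide +kernel

theorem ca236_b80_ok : ca236_b80.all chka236 = true := by decide +kernel

theorem ca236_b86_ok : ca236_b86.all chka236 = true := by decide +kernel

theorem ca236_b94_ok : ca236_b94.all chka236 = true := by decide +kernel

theorem ca236_b100_ok : ca236_b100.all chka236 = true := by decide +kernel

theorem ca236_b108_ok : ca236_b108.all chka236 = true := by decide +kernel

theorem ca236_b114_ok : ca236_b114.all chka236 = true := by decide +kernel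

theorem ca236_b122_ok : ca236_b122.all chka236 = true := by decide +kernel

theorem ca236_b5_ok : ca236_b5.all chka236 = true := by decide +kernel

theorem ca236_b13_ok : ca236_b13.all chka236 = true := by decide +kernel

theorem ca236_b23_ok : ca236_b23.all chka236 = true := by decide +kernel

theorem ca236_b31_ok : ca236_b31.all chka236 = true := by decide +kernel

theorem ca236_b41_ok : ca236_b41.all chka236 = true := by decide +kernel

theorem ca236_b51_ok : ca236_b51.all chka236 = true := by decide +kernel

theorem ca236_b59_ok : ca236_b59.all chka236 = true := by decide +kernel

theorem ca236_b69_ok : ca236_b69.all chka236 = true := by decide +kernel

theorem ca236_b77_ok : ca236_b77.all chka236 = true := by decide +kernel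

theorem ca236_b87_ok : ca236_b87.all chka236 = true := by decide +kernel

theorem ca236_b95_ok : ca236_b95.all chka236 = true := by decide +kernel

theorem ca236_b105_ok : ca236_b105.all chka236 = true := by decide +kernel

theorem ca236_b115_ok : ca236_b115.all chka236 = true := by decide +kernel

theorem ca236_b123_ok : ca236_b123.all chka236 = true := by decide +kernel

theorem ca236_k1_ok : chka236 5257316158049118623503482880 = true := by decide +kernel

theorem ca236_k5_ok : chka236 58178610595657455103691980800 = true := by decide +kernel

theorem ca236_k9_ok : chka236 672816614568951952212922204160 = true := by decide +kernel

theorem ca236_k13_ok : chka236 2296378753984914478459294580736 = true := by decide +kernel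

theorem ca236_k17_ok : chka236 40247906554885100256085504163840 = true := by decide +kernel

theorem ca236_k21_ok : chka236 15739149852433437994566035064225792 = true := by decide +kernel

theorem ca236_k25_ok : chka236 372709558876702865126153768262434816 = true := by decide +kernel

theorem ca236_k29_ok : chka236 9303460155556606394269057986768928768 = true := by decide +kernel

theorem ca236_k33_ok : chka236 106337590625685952092830822220024512512 = true := by decide +kernel

theorem ca236_k37_ok : chka236 1424932411481429814867149222706319196160 = true := by decide +kernel

theorem ca236_k41_ok : chka236 108890357414700308308279838912318762123264 = true := by decide +kernel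

theorem ca236_k45_ok : chka236 5493518531571630554152719653793479216070656 = true := by decide +kernel

theorem ca236_k49_ok : chka236 111351279492272535276046999532216238441758720 = true := by decide +kernel

theorem ca236_k53_ok : chka236 2854342938911539181684940347068087848979660800 = true := by decide +kernel

theorem ca236_k57_ok : chka236 37108440010354956907515435205659843152094167040 = true := by decide +kernel

theorem ca236_k61_ok : chka236 228359543720667649209079108487992686695696826368 = true := by decide +kernel

theorem ca236_k65_ok : chka236 166611186655722932675220070929656264239689683173376 = true := by decide +kernel

theorem ca236_k69_ok : chka236 2971232828693725632708091264912203378960251014348800 = true := by decide +kernel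

theorem ca236_k73_ok : chka236 47870024629136394182843493010789134025809348823875584 = true := by decide +kernel

theorem ca236_k77_ok : chka236 814047642983488940021943229713973344250236249250463744 = true := by decide +kernel

theorem ca236_k81_ok : chka236 12259943865904188234225921365614815440987636729227771904 = true := by decide +kernel

theorem ca236_k85_ok : chka236 416838765192997209509926618329611607200051746137236832256 = true := by decide +kernel

theorem ca236_k89_ok : chka236 2770751920347507407941056406643541011387284096830587011072 = true := by decide +kernel

theorem ca236_k93_ok : chka236 16477392043698023906421723890290645680538418883508553383936 = true := by decide +kernel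

theorem ca236_k97_ok : chka236 25911875963676218193114138739001246965670523274747534468972544 = true := by decide +kernel

theorem ca236_k101_ok : chka236 408563997752848277556543861977740591691270111169275078374356992 = true := by decide +kernel

theorem ca236_k105_ok : chka236 6980940598772118504523168819653095636007080355740897774757769216 = true := by decide +kernel

theorem ca236_k109_ok : chka236 111882257862510068439471339698207275619307122340630059761439669248 = true := by decide +kernel

theorem ca236_k113_ok : chka236 2948738140701935256328171492784925825569303212954148429647574761408 = true := by decide +kernel

theorem ca236_k117_ok : chka236 57289883855553532110434424861483053584444377484043477402457708986352 = true := by decide +kernel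

theorem ca236_k121_ok : chka236 390919224263277210634186305448841506255994690343533810301813095464952 = true := by decide +kernel

theorem ca236_k125_ok : chka236 3235193597647669708971556397129412542324713426921564207058243976757246 = true := by decide +kernel

end Vale.Agent.Lib.Helper3.BinPacking
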