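import Vale.Agent.Lib.Helper3.P302Any236Data

/-!
Kernel evaluation of the third table check on some blocks and keys.
-/

namespace Vale.Agent.Lib.Helper3.BinPacking

theorem ca236_b2_ok : ca236_b2.all chka236 = true := by decide +kernel

theorem ca236_b10_ok : ca236_b10.all chka236 = true := by decide +kernel

theorem ca236_b17_ok : ca236_b17.all chka236 = true := by decide +kernel

theorem ca236_b24_ok : ca236_b24.all chka236 = true := by decide +kernel

theorem ca236_b32_ok : ca236_b32.all chka236 = true := by decide +kernel

theorem ca236_b38_ok : ca236_b38.all chka236 = true := by decide +kernel

theorem ca236_b46_ok : ca236_b46.all chka236 = true := by decide +kernel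

theorem ca236_b52_ok : ca236_b52.all chka236 = true := by decide +kernel

theorem ca236_b60_ok : ca236_b60.all chka236 = true := by decide +kernel

theorem ca236_b66_ok : ca236_b66.all chka236 = true := by decide +kernel

theorem ca236_b74_ok : ca236_b74.all chka236 = true := by decide +kernel

theorem ca236_b81_ok : ca236_b81.all chka236 = true := by decide +kernel

theorem ca236_b88_ok : ca236_b88.all chka236 = true := by decide +kernel

theorem ca236_b96_ok : ca236_b96.all chka236 = true := by decide +kernel

theorem ca236_b102_ok : ca236_b102.all chka236 = true := by decide +kernel

theorem ca236_b110_ok : ca236_b110.all chka236 = true := by decide +kernel

theorem ca236_b116_ok : ca236_b116.all chka236 = true := by decide +kernel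

theorem ca236_b124_ok : ca236_b124.all chka236 = true := by decide +kernel

theorem ca236_b7_ok : ca236_b7.all chka236 = true := by decide +kernel

theorem ca236_b15_ok : ca236_b15.all chka236 = true := by decide +kernel

theorem ca236_b25_ok : ca236_b25.all chka236 = true := by decide +kernel

theorem ca236_b35_ok : ca236_b35.all chka236 = true := by decide +kernel

theorem ca236_b43_ok : ca236_b43.all chka236 = true := by decide +kernel

theorem ca236_b53_ok : ca236_b53.all chka236 = true := by decide +kernel

theorem ca236_b61_ok : ca236_b61.all chka236 = true := by decide +kernel

theorem ca236_b71_ok : ca236_b71.all chka236 = true := by decide +kernel

theorem ca236_b79_ok : ca236_b79.all chka236 = true := by decide +kernel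

theorem ca236_b89_ok : ca236_b89.all chka236 = true := by decide +kernel

theorem ca236_b99_ok : ca236_b99.all chka236 = true := by decide +kernel

theorem ca236_b107_ok : ca236_b107.all chka236 = true := by decide +kernel

theorem ca236_b117_ok : ca236_b117.all chka236 = true := by decide +kernel

theorem ca236_b125_ok : ca236_b125.all chka236 = true := by decide +kernel

theorem ca236_k2_ok : chka236 9279827928157482416529735680 = true := by decide +kernel

theorem ca236_k6_ok : chka236 157213832627953808574202773504 = true := by decide +kernel

theorem ca236_k10_ok : chka236 791040039436433220294435405824 = true := by decide +kernel

theorem ca236_k14_ok : chka236 5544733417069752319794596544512 = true := by decide +kernel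

theorem ca236_k18_ok : chka236 730166745731164987356921693470720 = true := by decide +kernel

theorem ca236_k22_ok : chka236 40402559930473011456486465133871104 = true := by decide +kernel

theorem ca236_k26_ok : chka236 664046090423554544828978932505116672 = true := by decide +kernel

theorem ca236_k30_ok : chka236 13291144142911354012980479167609962496 = true := by decide +kernel

theorem ca236_k34_ok : chka236 276479098604708842989402902416462970880 = true := by decide +kernel

theorem ca236_k38_ok : chka236 1680144186672133662464752235874183282688 = true := by decide +kernel

theorem ca236_k42_ok : chka236 370227215209981048248151537982866701942784 = true := by decide +kernel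

theorem ca236_k46_ok : chka236 11085038384816491385782891177779546562756608 = true := by decide +kernel

theorem ca236_k50_ok : chka236 356648587640367919802109072542890051634200576 = true := by decide +kernel

theorem ca236_k54_ok : chka236 6422571061033853584638963550541434057813655552 = true := by decide +kernel

theorem ca236_k58_ok : chka236 54235368766683509600091543527126551520492912640 = true := by decide +kernel

theorem ca236_k62_ok : chka236 405338301172349640340429892011702359468695093248 = true := by decide +kernel

theorem ca236_k66_ok : chka236 352221894596747603287088044684624207735986673680384 = true := by decide +kernel

theorem ca236_k70_ok : chka236 5942465657387451265416182529824406757919954420367360 = true := by decide +kernel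

theorem ca236_k74_ok : chka236 95758318028739424652164532081987221589366261625651200 = true := by decide +kernel

theorem ca236_k78_ok : chka236 1532450234315131600367882712920494978845129530442514432 = true := by decide +kernel

theorem ca236_k82_ok : chka236 24519906731329661770189779379132456193654530033600954368 = true := by decide +kernel

theorem ca236_k86_ok : chka236 588478246770455476344323548722543410453671272346216824832 = true := by decide +kernel

theorem ca236_k90_ok : chka236 4119347996309489603296401790535813092971774524352165314560 = true := by decide +kernel

theorem ca236_k94_ok : chka236 40801161268321411866285407905220353042935046230806689218560 = true := by decide +kernel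

theorem ca236_k98_ok : chka236 51622884671820062601785532216459848606025771175272219833794560 = true := by decide +kernel

theorem ca236_k102_ok : chka236 819638836199851227418622039724764249948981164516335770555653120 = true := by decide +kernel

theorem ca236_k106_ok : chka236 13161023449736662730473112281535664359982157794455296170221649664 = true := by decide +kernel

theorem ca236_k110_ok : chka236 210618557319448402182302773009494585278030732539871537035488558976 = true := by decide +kernel

theorem ca236_k114_ok : chka236 4212485640724621496703187824988971013396044357760737764699306491840 = true := by decide +kernel

theorem ca236_k118_ok : chka236 80879835180637786607030218635172614997423625701012736094932323926000 = true := by decide +kernel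

theorem ca236_k122_ok : chka236 566158878403225391429017041285450151805217430351149028320382979014648 = true := by decide +kernel

theorem ca236_k126_ok : chka236 6901746344380156721046270448964082313939365068387082064488334970650623 = true := by decide +kernel

end Vale.Agent.Lib.Helper3.BinPacking
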