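import Vale.Agent.Lib.Helper3.P302Any236Data

/-!
Kernel evaluation of the third table check on some blocks and keys.
-/

namespace Vale.Agent.Lib.Helper3.BinPacking

theorem ca236_b4_ok : ca236_b4.all chka236 = true := by decide +kernel

theorem ca236_b12_ok : ca236_b12.all chka236 = true := by decide +kernel

theorem ca236_b18_ok : ca236_b18.all chka236 = true := by decide +kernel

theorem ca236_b26_ok : ca236_b26.all chka236 = true := by decide +kernel

theorem ca236_b33_ok : ca236_b33.all chka236 = true := by decide +kernel

theorem ca236_b40_ok : ca236_b40.all chka236 = true := by decide +kernel

theorem ca236_b48_ok : ca236_b48.all chka236 = true := by decide +kernel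

theorem ca236_b54_ok : ca236_b54.all chka236 = true := by decide +kernel

theorem ca236_b62_ok : ca236_b62.all chka236 = true := by decide +kernel

theorem ca236_b68_ok : ca236_b68.all chka236 = true := by decide +kernel

theorem ca236_b76_ok : ca236_b76.all chka236 = true := by decide +kernel

theorem ca236_b82_ok : ca236_b82.all chka236 = true := by decide +kernel

theorem ca236_b90_ok : ca236_b90.all chka236 = true := by decide +kernel

theorem ca236_b97_ok : ca236_b97.all chka236 = true := by decide +kernel

theorem ca236_b104_ok : ca236_b104.all chka236 = true := by decide +kernel

theorem ca236_b112_ok : ca236_b112.all chka236 = true := by decide +kernel

theorem ca236_b118_ok : ca236_b118.all chka236 = true := by decide +kernel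

theorem ca236_b126_ok : ca236_b126.all chka236 = true := by decide +kernel

theorem ca236_b9_ok : ca236_b9.all chka236 = true := by decide +kernel

theorem ca236_b19_ok : ca236_b19.all chka236 = true := by decide +kernel

theorem ca236_b27_ok : ca236_b27.all chka236 = true := by decide +kernel

theorem ca236_b37_ok : ca236_b37.all chka236 = true := by decide +kernel

theorem ca236_b45_ok : ca236_b45.all chka236 = true := by decide +kernel

theorem ca236_b55_ok : ca236_b55.all chka236 = true := by decide +kernel

theorem ca236_b63_ok : ca236_b63.all chka236 = true := by decide +kernel

theorem ca236_b73_ok : ca236_b73.all chka236 = true := by decide +kernel

theorem ca236_b83_ok : ca236_b83.all chka236 = true := by decide +kernel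

theorem ca236_b91_ok : ca236_b91.all chka236 = true := by decide +kernel

theorem ca236_b101_ok : ca236_b101.all chka236 = true := by decide +kernel

theorem ca236_b109_ok : ca236_b109.all chka236 = true := by decide +kernel

theorem ca236_b119_ok : ca236_b119.all chka236 = true := by decide +kernel

theorem ca236_b127_ok : ca236_b127.all chka236 = true := by decide +kernel

theorem ca236_k3_ok : chka236 17636754329834784329656434688 = true := by decide +kernel

theorem ca236_k7_ok : chka236 355903964511894601838746402816 = true := by decide +kernel

theorem ca236_k11_ok : chka236 1028724526979226233075067256832 = true := by decide +kernel

theorem ca236_k15_ok : chka236 7130534616839057417679665102848 = true := by decide +kernel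

theorem ca236_k19_ok : chka236 2028240960363991062460026144686080 = true := by decide +kernel

theorem ca236_k23_ok : chka236 60035932426807892990471662362165248 = true := by decide +kernel

theorem ca236_k27_ok : chka236 1328741217954427124856066399069536256 = true := by decide +kernel

theorem ca236_k31_ok : chka236 45193183949218237173126691742258561024 = true := by decide +kernel

theorem ca236_k35_ok : chka236 308380570503546823939094271863191240704 = true := by decide +kernel

theorem ca236_k39_ok : chka236 2552117427388484817400936762398526668800 = true := by decide +kernel

theorem ca236_k43_ok : chka236 1230461038786113483883562572029024551305216 = true := by decide +kernel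

theorem ca236_k47_ok : chka236 22219077430469597910304508358350119089733632 = true := by decide +kernel

theorem ca236_k51_ok : chka236 445884235541714822460744429572117864990638080 = true := by decide +kernel

theorem ca236_k55_ok : chka236 8563442600092793406226392504715685558480797696 = true := by decide +kernel

theorem ca236_k59_ok : chka236 154142707256100701274171561388591215465331687424 = true := by decide +kernel

theorem ca236_k63_ok : chka236 730750818665451459101842416358114487130690420736 = true := by decide +kernel

theorem ca236_k67_ok : chka236 726366313753458750347231361859992660768736480854016 = true := by decide +kernel

theorem ca236_k71_ok : chka236 11882008311500240724995957689983380949801664275021824 = true := by decide +kernel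

theorem ca236_k75_ok : chka236 191541481585313474653938526806130619990066141797023744 = true := by decide +kernel

theorem ca236_k79_ok : chka236 3064970620708855084075839202712960339275201996092604416 = true := by decide +kernel

theorem ca236_k83_ok : chka236 85819706443440656140979887409872332794158800923753709568 = true := by decide +kernel

theorem ca236_k87_ok : chka236 980797105232123024084060387673022561460068487625218981888 = true := by decide +kernel

theorem ca236_k91_ok : chka236 13142681740927843201310349086396833566118910475769214926848 = true := by decide +kernel

theorem ca236_k95_ok : chka236 200867255532373784442745261542645325315275374222849103364096 = true := by decide +kernel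

theorem ca236_k99_ok : chka236 100031893255122144652487140248237372007007136362978853996490752 = true := by decide +kernel

theorem ca236_k103_ok : chka236 1642491548488220435388328003634210825103006735020237126782172160 = true := by decide +kernel

theorem ca236_k107_ok : chka236 32897637376581113668463933444931366089485170239469780622498364416 = true := by decide +kernel

theorem ca236_k111_ok : chka236 473899286490841368927097842218670666075268471041244315171266789120 = true := by decide +kernel

theorem ca236_k115_ok : chka236 11794971042595250003700854703703765225647141857151022220707904946144 = true := by decide +kernel

theorem ca236_k119_ok : chka236 134799728514939066196364248809211876344697914546093881057139544424432 = true := by decide +kernel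

theorem ca236_k123_ok : chka236 1806316425092154821983699735288353162792526073788015362451149050478584 = true := by decide +kernel

end Vale.Agent.Lib.Helper3.BinPacking
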