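import Vale.Agent.Lib.Helper3.P302Any236A
import Vale.Agent.Lib.Helper3.P302Any236B
import Vale.Agent.Lib.Helper3.P302Any236C
import Vale.Agent.Lib.Helper3.P302Any236D

/-!
The first 234 items of the instance with 236 items cannot be split into triples of total
weight at most `cap236`.
-/

namespace Vale.Agent.Lib.Helper3.BinPacking

open Finset

theorem ca236_ok : ca236.all chka236 = true := by
  simp only [ca236, NatTree.all,
    ca236_b0_ok, ca236_b1_ok, ca236_b2_ok, ca236_b3_ok, ca236_b4_ok, ca236_b5_ok,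
    ca236_b6_ok, ca236_b7_ok, ca236_b8_ok, ca236_b9_ok, ca236_b10_ok, ca236_b11_ok,
    ca236_b12_ok, ca236_b13_ok, ca236_b14_ok, ca236_b15_ok, ca236_b16_ok, ca236_b17_ok,
    ca236_b18_ok, ca236_b19_ok, ca236_b20_ok, ca236_b21_ok, ca236_b22_ok, ca236_b23_ok,
    ca236_b24_ok, ca236_b25_ok, ca236_b26_ok, ca236_b27_ok, ca236_b28_ok, ca236_b29_ok,
    ca236_b30_ok, ca236_b31_ok, ca236_b32_ok, ca236_b33_ok, ca236_b34_ok, ca236_b35_ok,
    ca236_b36_ok, ca236_b37_ok, ca236_b38_ok, ca236_b39_ok, ca236_b40_ok, ca236_b41_ok,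
    ca236_b42_ok, ca236_b43_ok, ca236_b44_ok, ca236_b45_ok, ca236_b46_ok, ca236_b47_ok,
    ca236_b48_ok, ca236_b49_ok, ca236_b50_ok, ca236_b51_ok, ca236_b52_ok, ca236_b53_ok,
    ca236_b54_ok, ca236_b55_ok, ca236_b56_ok, ca236_b57_ok, ca236_b58_ok, ca236_b59_ok,
    ca236_b60_ok, ca236_b61_ok, ca236_b62_ok, ca236_b63_ok, ca236_b64_ok, ca236_b65_ok,
    ca236_b66_ok, ca236_b67_ok, ca236_b68_ok, ca236_b69_ok, ca236_b70_ok, ca236_b71_ok,
    ca236_b72_ok, ca236_b73_ok, ca236_b74_ok, ca236_b75_ok, ca236_b76_ok, ca236_b77_ok,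
    ca236_b78_ok, ca236_b79_ok, ca236_b80_ok, ca236_b81_ok, ca236_b82_ok, ca236_b83_ok,
    ca236_b84_ok, ca236_b85_ok, ca236_b86_ok, ca236_b87_ok, ca236_b88_ok, ca236_b89_ok,
    ca236_b90_ok, ca236_b91_ok, ca236_b92_ok, ca236_b93_ok, ca236_b94_ok, ca236_b95_ok,
    ca236_b96_ok, ca236_b97_ok, ca236_b98_ok, ca236_b99_ok, ca236_b100_ok, ca236_b101_ok,
    ca236_b102_ok, ca236_b103_ok, ca236_b104_ok, ca236_b105_ok, ca236_b106_ok, ca236_b107_ok,
    ca236_b108_ok, ca236_b109_ok, ca236_b110_ok, ca236_b111_ok, ca236_b112_ok, ca236_b113_ok,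
    ca236_b114_ok, ca236_b115_ok, ca236_b116_ok, ca236_b117_ok, ca236_b118_ok, ca236_b119_ok,
    ca236_b120_ok, ca236_b121_ok, ca236_b122_ok, ca236_b123_ok, ca236_b124_ok, ca236_b125_ok,
    ca236_b126_ok, ca236_b127_ok, ca236_k0_ok, ca236_k1_ok, ca236_k2_ok, ca236_k3_ok,
    ca236_k4_ok, ca236_k5_ok, ca236_k6_ok, ca236_k7_ok, ca236_k8_ok, ca236_k9_ok,
    ca236_k10_ok, ca236_k11_ok, ca236_k12_ok, ca236_k13_ok, ca236_k14_ok, ca236_k15_ok,
    ca236_k16_ok, ca236_k17_ok, ca236_k18_ok, ca236_k19_ok, ca236_k20_ok, ca236_k21_ok,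
    ca236_k22_ok, ca236_k23_ok, ca236_k24_ok, ca236_k25_ok, ca236_k26_ok, ca236_k27_ok,
    ca236_k28_ok, ca236_k29_ok, ca236_k30_ok, ca236_k31_ok, ca236_k32_ok, ca236_k33_ok,
    ca236_k34_ok, ca236_k35_ok, ca236_k36_ok, ca236_k37_ok, ca236_k38_ok, ca236_k39_ok,
    ca236_k40_ok, ca236_k41_ok, ca236_k42_ok, ca236_k43_ok, ca236_k44_ok, ca236_k45_ok,
    ca236_k46_ok, ca236_k47_ok, ca236_k48_ok, ca236_k49_ok, ca236_k50_ok, ca236_k51_ok,
    ca236_k52_ok, ca236_k53_ok, ca236_k54_ok, ca236_k55_ok, ca236_k56_ok, ca236_k57_ok,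
    ca236_k58_ok, ca236_k59_ok, ca236_k60_ok, ca236_k61_ok, ca236_k62_ok, ca236_k63_ok,
    ca236_k64_ok, ca236_k65_ok, ca236_k66_ok, ca236_k67_ok, ca236_k68_ok, ca236_k69_ok,
    ca236_k70_ok, ca236_k71_ok, ca236_k72_ok, ca236_k73_ok, ca236_k74_ok, ca236_k75_ok,
    ca236_k76_ok, ca236_k77_ok, ca236_k78_ok, ca236_k79_ok, ca236_k80_ok, ca236_k81_ok,
    ca236_k82_ok, ca236_k83_ok, ca236_k84_ok, ca236_k85_ok, ca236_k86_ok, ca236_k87_ok,
    ca236_k88_ok, ca236_k89_ok, ca236_k90_ok, ca236_k91_ok, ca236_k92_ok, ca236_k93_ok,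
    ca236_k94_ok, ca236_k95_ok, ca236_k96_ok, ca236_k97_ok, ca236_k98_ok, ca236_k99_ok,
    ca236_k100_ok, ca236_k101_ok, ca236_k102_ok, ca236_k103_ok, ca236_k104_ok, ca236_k105_ok,
    ca236_k106_ok, ca236_k107_ok, ca236_k108_ok, ca236_k109_ok, ca236_k110_ok, ca236_k111_ok,
    ca236_k112_ok, ca236_k113_ok, ca236_k114_ok, ca236_k115_ok, ca236_k116_ok, ca236_k117_ok,
    ca236_k118_ok, ca236_k119_ok, ca236_k120_ok, ca236_k121_ok, ca236_k122_ok, ca236_k123_ok,
    ca236_k124_ok, ca236_k125_ok, ca236_k126_ok,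
    Bool.and_true]

theorem rwa236_eq : rwa236 = desc (fun i => wts236.getD i 0) 234 := by decide +kernel

theorem awa236_eq : awa236 = ascFrom (fun i => wts236.getD i 0) 0 234 := by decide +kernel

theorem wta236_mono : ∀ j, j < 234 → ∀ i, i ≤ j → wts236.getD i 0 ≤ wts236.getD j 0 := by
  decide +kernel

/-- The 234 smallest items of the instance with 236 items cannot be split into 78 triples of
total weight at most the capacity. -/
theorem not_packable_any236 :
    ¬ Packable (fun i => wts236.getD i 0) cap236 (Finset.range 234) := by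
  have hall : ca236.all (checkF ca236 cap236 234
      (ascFrom (fun i => wts236.getD i 0) 0 234)
      (desc (fun i => wts236.getD i 0) 234)) = true := by
    rw [← rwa236_eq, ← awa236_eq]; exact ca236_ok
  have hroot : ca236.Mem 27606985387162255149739023449108101809804435888681546220650096895197183 :=
    NatTree.mem_of_contains ca236 _ (by decide +kernel)
  have h := checkF_sound (fun i => wts236.getD i 0) cap236 234
    (fun i j hij hj => wta236_mono j hj i hij) ca236 hall _ hroot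
  have hb : bits 234 27606985387162255149739023449108101809804435888681546220650096895197183 = Finset.range 234 := by
    ext j
    rw [mem_bits, Finset.mem_range]
    have h2 : (27606985387162255149739023449108101809804435888681546220650096895197183 : ℕ) = 2 ^ 234 - 1 := by decide +kernel
    rw [h2, Nat.testBit_two_pow_sub_one]
    simp
  rw [hb] at h
  exact h

end Vale.Agent.Lib.Helper3.BinPacking
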