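import Vale.Agent.Lib.Helper3.P302Any299Data

/-!
Kernel evaluation of the third table check on some blocks and keys.
-/

namespace Vale.Agent.Lib.Helper3.BinPacking

theorem ca299_b0_ok : ca299_b0.all chka299 = true := by decide +kernel

theorem ca299_b64_ok : ca299_b64.all chka299 = true := by decide +kernel

theorem ca299_b1_ok : ca299_b1.all chka299 = true := by decide +kernel

theorem ca299_b10_ok : ca299_b10.all chka299 = true := by decide +kernel

theorem ca299_b19_ok : ca299_b19.all chka299 = true := by decide +kernel

theorem ca299_b28_ok : ca299_b28.all chka299 = true := by decide +kernel

theorem ca299_b37_ok : ca299_b37.all chka299 = true := by decide +kernel

theorem ca299_b46_ok : ca299_b46.all chka299 = true := by decide +kernel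

theorem ca299_b55_ok : ca299_b55.all chka299 = true := by decide +kernel

theorem ca299_b65_ok : ca299_b65.all chka299 = true := by decide +kernel

theorem ca299_b74_ok : ca299_b74.all chka299 = true := by decide +kernel

theorem ca299_b83_ok : ca299_b83.all chka299 = true := by decide +kernel

theorem ca299_b92_ok : ca299_b92.all chka299 = true := by decide +kernel

theorem ca299_b101_ok : ca299_b101.all chka299 = true := by decide +kernel

theorem ca299_b110_ok : ca299_b110.all chka299 = true := by decide +kernel

theorem ca299_b119_ok : ca299_b119.all chka299 = true := by decide +kernel

theorem ca299_k0_ok : chka299 15881126719659257941950697756950528 = true := by decide +kernel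

theorem ca299_k8_ok : chka299 8302467385761824125003108076440518656 = true := by decide +kernel

theorem ca299_k16_ok : chka299 691794051950266793680693088366977441857536 = true := by decide +kernel

theorem ca299_k24_ok : chka299 1694856635088327355041685545045520020582432768 = true := by decide +kernel

theorem ca299_k32_ok : chka299 40967717771431872425897040344591927745298936365056 = true := by decide +kernel

theorem ca299_k40_ok : chka299 11971182747340509098364479397345426597491328791085056 = true := by decide +kernel

theorem ca299_k48_ok : chka299 2681865826357520504405621481558388797727607138413445120 = true := by decide +kernel

theorem ca299_k56_ok : chka299 406111317781397433465873367868450000969437961079423500288 = true := by decide +kernel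

theorem ca299_k64_ok : chka299 24932648092955895993955755588980851004758555789874929275502592 = true := by decide +kernel

theorem ca299_k72_ok : chka299 26327683736831702700272149101973369204405975504063972621884063744 = true := by decide +kernel

theorem ca299_k80_ok : chka299 94359812581775031034932861144273976572810035546609315445212662726656 = true := by decide +kernel

theorem ca299_k88_ok : chka299 103526195201506939114339683811380577579067005263254066414666575928885248 = true := by decide +kernel

theorem ca299_k96_ok : chka299 57784733253577059499021744761797150060137860847317118025367130813274865270784 = true := by decide +kernel

theorem ca299_k104_ok : chka299 29640972660746872076417997198773346633550972040829171262763857467700441658621952 = true := by decide +kernel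

theorem ca299_k112_ok : chka299 30354201328832228119689187365578091619112281105144452567957765061448385673983688448 = true := by decide +kernel

theorem ca299_k120_ok : chka299 155413511377835702943394876120354017046298939391176898729138664790389020435053549715440 = true := by decide +kernel

end Vale.Agent.Lib.Helper3.BinPacking
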