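import Vale.Agent.Lib.Helper3.P302Any299Core
import Vale.Agent.Lib.Helper3.P302LP299
import Vale.Agent.Lib.Helper8.P302Glue

/-!
Assembly for the instance with 299 items: all sizes lie in `(1/4, 1/2]`, the optimum is at
least 101, the linear programming value is at most `48479 / 486`, hence the gap is at least
`607 / 486`.
-/

namespace Vale.Agent.Lib.Helper3.BinPacking

theorem wts299_sorted : wts299.Pairwise (fun x y => x ≤ y) := by decide +kernel

theorem wts299_big : ∀ w, w ∈ wts299 → cap299 < 4 * w := by decide +kernel

theorem wts299_half : ∀ w, w ∈ wts299 → 2 * w ≤ cap299 := by decide +kernel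

theorem wts299_length : wts299.length = 299 := by decide +kernel

theorem inst299_range (i : Fin 299) : 1 / 4 < inst299 i ∧ inst299 i ≤ 1 / 2 := by
  have hi : (i : ℕ) < wts299.length := by
    rw [wts299_length]
    exact i.2
  have hmem : wts299.getD (i : ℕ) 0 ∈ wts299 := by
    rw [List.getD_eq_getElem _ _ hi]
    exact List.getElem_mem hi
  have h1 := wts299_big _ hmem
  have h2 := wts299_half _ hmem
  have hcap : (0 : ℚ) < (cap299 : ℚ) := by
    have : 0 < cap299 := by decide
    exact_mod_cast this
  have h1' : (cap299 : ℚ) < 4 * (wts299.getD (i : ℕ) 0 : ℚ) := by exact_mod_cast h1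
  have h2' : 2 * (wts299.getD (i : ℕ) 0 : ℚ) ≤ (cap299 : ℚ) := by exact_mod_cast h2
  unfold inst299
  constructor
  · rw [lt_div_iff₀ hcap]
    linarith
  · rw [div_le_iff₀ hcap]
    linarith

/-- The optimum of the instance with 299 items is at least 101. -/
theorem opt_inst299_ge : 101 ≤ opt inst299 := by
  apply succ_le_opt inst299 (fun i => le_trans (inst299_range i).2 (by norm_num)) 100
  intro hpack
  apply not_packable_any299
  exact Vale.Agent.Lib.Helper8.P302Glue.packable_of_packing 299 99 cap299 wts299
    wts299_length (by norm_num) wts299_sorted wts299_big (by decide) inst299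
    (fun i => rfl) hpack

/-- The gap statement for the instance with 299 items. -/
theorem gap299 : ∃ a : Fin 299 → ℚ, (∀ i, 1 / 4 < a i ∧ a i ≤ 1 / 2) ∧
    (607 / 486 : ℝ) ≤ (opt a : ℝ) - lp a := by
  refine ⟨inst299, inst299_range, ?_⟩
  have h1 : (101 : ℝ) ≤ (opt inst299 : ℝ) := by exact_mod_cast opt_inst299_ge
  have h2 := lp_inst299_le
  linarith

end Vale.Agent.Lib.Helper3.BinPacking
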