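import Vale.Agent.Lib.Helper3.P302Any299Data

/-!
Kernel evaluation of the third table check on some blocks and keys.
-/

namespace Vale.Agent.Lib.Helper3.BinPacking

theorem ca299_b8_ok : ca299_b8.all chka299 = true := by decide +kernel

theorem ca299_b72_ok : ca299_b72.all chka299 = true := by decide +kernel

theorem ca299_b2_ok : ca299_b2.all chka299 = true := by decide +kernel

theorem ca299_b11_ok : ca299_b11.all chka299 = true := by decide +kernel

theorem ca299_b20_ok : ca299_b20.all chka299 = true := by decide +kernel

theorem ca299_b29_ok : ca299_b29.all chka299 = true := by decide +kernel

theorem ca299_b38_ok : ca299_b38.all chka299 = true := by decide +kernel

theorem ca299_b47_ok : ca299_b47.all chka299 = true := by decide +kernel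

theorem ca299_b57_ok : ca299_b57.all chka299 = true := by decide +kernel

theorem ca299_b66_ok : ca299_b66.all chka299 = true := by decide +kernel

theorem ca299_b75_ok : ca299_b75.all chka299 = true := by decide +kernel

theorem ca299_b84_ok : ca299_b84.all chka299 = true := by decide +kernel

theorem ca299_b93_ok : ca299_b93.all chka299 = true := by decide +kernel

theorem ca299_b102_ok : ca299_b102.all chka299 = true := by decide +kernel

theorem ca299_b111_ok : ca299_b111.all chka299 = true := by decide +kernel

theorem ca299_b121_ok : ca299_b121.all chka299 = true := by decide +kernel

theorem ca299_k1_ok : chka299 37627831222899561853301828333076480 = true := by decide +kernel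

theorem ca299_k9_ok : chka299 22760432566333954281284392317240737792 = true := by decide +kernel

theorem ca299_k17_ok : chka299 2086611473959190305824462480106573730414592 = true := by decide +kernel

theorem ca299_k25_ok : chka299 5976599713206206998216543453394005429730672640 = true := by decide +kernel

theorem ca299_k33_ok : chka299 90635937477599276286725392194623580127700327596032 = true := by decide +kernel

theorem ca299_k41_ok : chka299 20949347157205828792396393852610517348171126528802816 = true := by decide +kernel

theorem ca299_k49_ok : chka299 3831237436335010981583665558056082409557595628582731776 = true := by decide +kernel

theorem ca299_k57_ok : chka299 422968768639578358574633752779373212100968601225172877312 = true := by decide +kernel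

theorem ca299_k65_ok : chka299 51032837108693714609984968010678327962912149754731691939725312 = true := by decide +kernel

theorem ca299_k73_ok : chka299 52655756653970999374751656022890977284129749354228272033226031104 = true := by decide +kernel

theorem ca299_k81_ok : chka299 215679572960579014234135274866009679996637170414183217715122565808128 = true := by decide +kernel

theorem ca299_k89_ok : chka299 441711766194294781512525814509065511064557006230931826462311876151738368 = true := by decide +kernel

theorem ca299_k97_ok : chka299 115569466507154118998043489523594300120275721694634236050734261626549193932800 = true := by decide +kernel

theorem ca299_k105_ok : chka299 59285438378140811018655580576705662017007735017322465624207921350860840676352000 = true := by decide +kernel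

theorem ca299_k113_ok : chka299 121416805539718489705611559319391149070799775930668265175034667927237530260898578176 = true := by decide +kernel

theorem ca299_k121_ok : chka299 310827022755904629699340498972213029362695944026443025332664911283250092888677205147632 = true := by decide +kernel

end Vale.Agent.Lib.Helper3.BinPacking
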