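import Vale.Agent.Lib.Helper3.P302Any299A

/-!
Kernel evaluation of the third table check on some blocks and keys.
-/

namespace Vale.Agent.Lib.Helper3.BinPacking

theorem ca299_b16_ok : ca299_b16.all chka299 = true := by decide +kernel

theorem ca299_b80_ok : ca299_b80.all chka299 = true := by decide +kernel

theorem ca299_b3_ok : ca299_b3.all chka299 = true := by decide +kernel

theorem ca299_b12_ok : ca299_b12.all chka299 = true := by decide +kernel

theorem ca299_b21_ok : ca299_b21.all chka299 = true := by decide +kernel

theorem ca299_b30_ok : ca299_b30.all chka299 = true := by decide +kernel

theorem ca299_b39_ok : ca299_b39.all chka299 = true := by decide +kernel

theorem ca299_b49_ok : ca299_b49.all chka299 = true := by decide +kernel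

theorem ca299_b58_ok : ca299_b58.all chka299 = true := by decide +kernel

theorem ca299_b67_ok : ca299_b67.all chka299 = true := by decide +kernel

theorem ca299_b76_ok : ca299_b76.all chka299 = true := by decide +kernel

theorem ca299_b85_ok : ca299_b85.all chka299 = true := by decide +kernel

theorem ca299_b94_ok : ca299_b94.all chka299 = true := by decide +kernel

theorem ca299_b103_ok : ca299_b103.all chka299 = true := by decide +kernel

theorem ca299_b113_ok : ca299_b113.all chka299 = true := by decide +kernel

theorem ca299_b122_ok : ca299_b122.all chka299 = true := by decide +kernel

theorem ca299_k2_ok : chka299 78207703781080612925339104255672320 = true := by decide +kernel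

theorem ca299_k10_ok : chka299 30655320573561459804579712734171496448 = true := by decide +kernel

theorem ca299_k18_ok : chka299 5572804323064208128106448292743810763456512 = true := by decide +kernel

theorem ca299_k26_ok : chka299 7136237102400331717204483624795311335400275968 = true := by decide +kernel

theorem ca299_k34_ok : chka299 134549494486776249907126734790046720658001572659200 = true := by decide +kernel

theorem ca299_k42_ok : chka299 29928721873114563140407445734544469060524948037042176 = true := by decide +kernel

theorem ca299_k50_ok : chka299 13026211412281162797185206822800240533192412070468911104 = true := by decide +kernel

theorem ca299_k58_ok : chka299 514918501182875542409316006796121953006800784318686822400 = true := by decide +kernel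

theorem ca299_k66_ok : chka299 109296895416552885459908765436891887637174212990282044660514816 = true := by decide +kernel

theorem ca299_k74_ok : chka299 157966880781605404150047610249728692977071449716638534704771891200 = true := by decide +kernel

theorem ca299_k82_ok : chka299 539198932589760587646938610080097882687822918518528761383456591577088 = true := by decide +kernel

theorem ca299_k90_ok : chka299 227923271356411578516245377595836488541745422696954845597687199966479515648 = true := by decide +kernel

theorem ca299_k98_ok : chka299 231472867109551352634378222274829011840042837845777964084553506825144559861760 = true := by decide +kernel

theorem ca299_k106_ok : chka299 118570988067646703075523924901153870837881967166130434412410204362912362246696960 = true := by decide +kernel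

theorem ca299_k114_ok : chka299 258010711799950487777781414785841039599743355291431370359849120305560250250231282688 = true := by decide +kernel

theorem ca299_k122_ok : chka299 870315663716914602124145528137386474475709113673459207453186885288054527027777252622324 = true := by decide +kernel

end Vale.Agent.Lib.Helper3.BinPacking
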