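import Vale.Agent.Lib.Helper3.P302Any299F

/-!
Kernel evaluation of the third table check on some blocks and keys.
-/

namespace Vale.Agent.Lib.Helper3.BinPacking

theorem ca299_b56_ok : ca299_b56.all chka299 = true := by decide +kernel

theorem ca299_b120_ok : ca299_b120.all chka299 = true := by decide +kernel

theorem ca299_b9_ok : ca299_b9.all chka299 = true := by decide +kernel

theorem ca299_b18_ok : ca299_b18.all chka299 = true := by decide +kernel

theorem ca299_b27_ok : ca299_b27.all chka299 = true := by decide +kernel

theorem ca299_b36_ok : ca299_b36.all chka299 = true := by decide +kernel

theorem ca299_b45_ok : ca299_b45.all chka299 = true := by decide +kernel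

theorem ca299_b54_ok : ca299_b54.all chka299 = true := by decide +kernel

theorem ca299_b63_ok : ca299_b63.all chka299 = true := by decide +kernel

theorem ca299_b73_ok : ca299_b73.all chka299 = true := by decide +kernel

theorem ca299_b82_ok : ca299_b82.all chka299 = true := by decide +kernel

theorem ca299_b91_ok : ca299_b91.all chka299 = true := by decide +kernel

theorem ca299_b100_ok : ca299_b100.all chka299 = true := by decide +kernel

theorem ca299_b109_ok : ca299_b109.all chka299 = true := by decide +kernel

theorem ca299_b118_ok : ca299_b118.all chka299 = true := by decide +kernel

theorem ca299_b127_ok : ca299_b127.all chka299 = true := by decide +kernel

theorem ca299_k7_ok : chka299 4070741643104138923062549078016524288 = true := by decide +kernel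

theorem ca299_k15_ok : chka299 171672454111612274905672545571252549451776 = true := by decide +kernel

theorem ca299_k23_ok : chka299 1092735153598532849560008470579420590921220096 = true := by decide +kernel

theorem ca299_k31_ok : chka299 20483858885715936212948520224094421231625889120256 = true := by decide +kernel

theorem ca299_k39_ok : chka299 5235144536845460843721792935931856829608386612953088 = true := by decide +kernel

theorem ca299_k47_ok : chka299 766247062518088847023072508665191257902671731523321856 = true := by decide +kernel

theorem ca299_k55_ok : chka299 124132138170730031194756082485062921295026242023218741248 = true := by decide +kernel

theorem ca299_k63_ok : chka299 11261120513283705290321406225234553550487625658502016149749760 = true := by decide +kernel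

theorem ca299_k71_ok : chka299 13162442074728860120325739169945309292592196926777014919698055168 = true := by decide +kernel

theorem ca299_k79_ok : chka299 26959945888790024606718600371381742195886508825848461901647545630720 = true := by decide +kernel

theorem ca299_k87_ok : chka299 58664843947368274496013770706579912138134796944146553779088568562483200 = true := by decide +kernel

theorem ca299_k95_ok : chka299 28046930306292072847805264526793088520245479379003575341222376839317979922432 = true := by decide +kernel

theorem ca299_k103_ok : chka299 14820936876374954526213042340249362760997022028808288914216249743431550711595008 = true := by decide +kernel

theorem ca299_k111_ok : chka299 11382825091605976821209102396136490904906549552390220200927622975425917167538796544 = true := by decide +kernel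

theorem ca299_k119_ok : chka299 38853377844291958688227161710942882647754529048048527454029920206054763322741039824864 = true := by decide +kernel

end Vale.Agent.Lib.Helper3.BinPacking
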