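import Vale.Agent.Lib.Helper3.P302Any299G
import Vale.Agent.Lib.Helper3.P302Any299H

/-!
The first 297 items of the instance with 299 items cannot be split into triples of total
weight at most `cap299`.
-/

namespace Vale.Agent.Lib.Helper3.BinPacking

open Finset

theorem ca299_ok : ca299.all chka299 = true := by
  simp only [ca299, NatTree.all,
    ca299_b0_ok, ca299_b1_ok, ca299_b2_ok, ca299_b3_ok, ca299_b4_ok, ca299_b5_ok,
    ca299_b6_ok, ca299_b7_ok, ca299_b8_ok, ca299_b9_ok, ca299_b10_ok, ca299_b11_ok,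
    ca299_b12_ok, ca299_b13_ok, ca299_b14_ok, ca299_b15_ok, ca299_b16_ok, ca299_b17_ok,
    ca299_b18_ok, ca299_b19_ok, ca299_b20_ok, ca299_b21_ok, ca299_b22_ok, ca299_b23_ok,
    ca299_b24_ok, ca299_b25_ok, ca299_b26_ok, ca299_b27_ok, ca299_b28_ok, ca299_b29_ok,
    ca299_b30_ok, ca299_b31_ok, ca299_b32_ok, ca299_b33_ok, ca299_b34_ok, ca299_b35_ok,
    ca299_b36_ok, ca299_b37_ok, ca299_b38_ok, ca299_b39_ok, ca299_b40_ok, ca299_b41_ok,
    ca299_b42_ok, ca299_b43_ok, ca299_b44_ok, ca299_b45_ok, ca299_b46_ok, ca299_b47_ok,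
    ca299_b48_ok, ca299_b49_ok, ca299_b50_ok, ca299_b51_ok, ca299_b52_ok, ca299_b53_ok,
    ca299_b54_ok, ca299_b55_ok, ca299_b56_ok, ca299_b57_ok, ca299_b58_ok, ca299_b59_ok,
    ca299_b60_ok, ca299_b61_ok, ca299_b62_ok, ca299_b63_ok, ca299_b64_ok, ca299_b65_ok,
    ca299_b66_ok, ca299_b67_ok, ca299_b68_ok, ca299_b69_ok, ca299_b70_ok, ca299_b71_ok,
    ca299_b72_ok, ca299_b73_ok, ca299_b74_ok, ca299_b75_ok, ca299_b76_ok, ca299_b77_ok,
    ca299_b78_ok, ca299_b79_ok, ca299_b80_ok, ca299_b81_ok, ca299_b82_ok, ca299_b83_ok,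
    ca299_b84_ok, ca299_b85_ok, ca299_b86_ok, ca299_b87_ok, ca299_b88_ok, ca299_b89_ok,
    ca299_b90_ok, ca299_b91_ok, ca299_b92_ok, ca299_b93_ok, ca299_b94_ok, ca299_b95_ok,
    ca299_b96_ok, ca299_b97_ok, ca299_b98_ok, ca299_b99_ok, ca299_b100_ok, ca299_b101_ok,
    ca299_b102_ok, ca299_b103_ok, ca299_b104_ok, ca299_b105_ok, ca299_b106_ok, ca299_b107_ok,
    ca299_b108_ok, ca299_b109_ok, ca299_b110_ok, ca299_b111_ok, ca299_b112_ok, ca299_b113_ok,
    ca299_b114_ok, ca299_b115_ok, ca299_b116_ok, ca299_b117_ok, ca299_b118_ok, ca299_b119_ok,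
    ca299_b120_ok, ca299_b121_ok, ca299_b122_ok, ca299_b123_ok, ca299_b124_ok, ca299_b125_ok,
    ca299_b126_ok, ca299_b127_ok, ca299_k0_ok, ca299_k1_ok, ca299_k2_ok, ca299_k3_ok,
    ca299_k4_ok, ca299_k5_ok, ca299_k6_ok, ca299_k7_ok, ca299_k8_ok, ca299_k9_ok,
    ca299_k10_ok, ca299_k11_ok, ca299_k12_ok, ca299_k13_ok, ca299_k14_ok, ca299_k15_ok,
    ca299_k16_ok, ca299_k17_ok, ca299_k18_ok, ca299_k19_ok, ca299_k20_ok, ca299_k21_ok,
    ca299_k22_ok, ca299_k23_ok, ca299_k24_ok, ca299_k25_ok, ca299_k26_ok, ca299_k27_ok,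
    ca299_k28_ok, ca299_k29_ok, ca299_k30_ok, ca299_k31_ok, ca299_k32_ok, ca299_k33_ok,
    ca299_k34_ok, ca299_k35_ok, ca299_k36_ok, ca299_k37_ok, ca299_k38_ok, ca299_k39_ok,
    ca299_k40_ok, ca299_k41_ok, ca299_k42_ok, ca299_k43_ok, ca299_k44_ok, ca299_k45_ok,
    ca299_k46_ok, ca299_k47_ok, ca299_k48_ok, ca299_k49_ok, ca299_k50_ok, ca299_k51_ok,
    ca299_k52_ok, ca299_k53_ok, ca299_k54_ok, ca299_k55_ok, ca299_k56_ok, ca299_k57_ok,
    ca299_k58_ok, ca299_k59_ok, ca299_k60_ok, ca299_k61_ok, ca299_k62_ok, ca299_k63_ok,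
    ca299_k64_ok, ca299_k65_ok, ca299_k66_ok, ca299_k67_ok, ca299_k68_ok, ca299_k69_ok,
    ca299_k70_ok, ca299_k71_ok, ca299_k72_ok, ca299_k73_ok, ca299_k74_ok, ca299_k75_ok,
    ca299_k76_ok, ca299_k77_ok, ca299_k78_ok, ca299_k79_ok, ca299_k80_ok, ca299_k81_ok,
    ca299_k82_ok, ca299_k83_ok, ca299_k84_ok, ca299_k85_ok, ca299_k86_ok, ca299_k87_ok,
    ca299_k88_ok, ca299_k89_ok, ca299_k90_ok, ca299_k91_ok, ca299_k92_ok, ca299_k93_ok,
    ca299_k94_ok, ca299_k95_ok, ca299_k96_ok, ca299_k97_ok, ca299_k98_ok, ca299_k99_ok,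
    ca299_k100_ok, ca299_k101_ok, ca299_k102_ok, ca299_k103_ok, ca299_k104_ok, ca299_k105_ok,
    ca299_k106_ok, ca299_k107_ok, ca299_k108_ok, ca299_k109_ok, ca299_k110_ok, ca299_k111_ok,
    ca299_k112_ok, ca299_k113_ok, ca299_k114_ok, ca299_k115_ok, ca299_k116_ok, ca299_k117_ok,
    ca299_k118_ok, ca299_k119_ok, ca299_k120_ok, ca299_k121_ok, ca299_k122_ok, ca299_k123_ok,
    ca299_k124_ok, ca299_k125_ok, ca299_k126_ok,
    Bool.and_true]

theorem rwa299_eq : rwa299 = desc (fun i => wts299.getD i 0) 297 := by decide +kernel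

theorem awa299_eq : awa299 = ascFrom (fun i => wts299.getD i 0) 0 297 := by decide +kernel

theorem wta299_mono : ∀ j, j < 297 → ∀ i, i ≤ j → wts299.getD i 0 ≤ wts299.getD j 0 := by
  decide +kernel

/-- The 297 smallest items of the instance with 299 items cannot be split into 99 triples of
total weight at most the capacity. -/
theorem not_packable_any299 :
    ¬ Packable (fun i => wts299.getD i 0) cap299 (Finset.range 297) := by
  have hall : ca299.all (checkF ca299 cap299 297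
      (ascFrom (fun i => wts299.getD i 0) 0 297)
      (desc (fun i => wts299.getD i 0) 297)) = true := by
    rw [← rwa299_eq, ← awa299_eq]; exact ca299_ok
  have hroot : ca299.Mem 254629497041810760783555711051172270131433549208242031329517556169297662470417088272924671 :=
    NatTree.mem_of_contains ca299 _ (by decide +kernel)
  have h := checkF_sound (fun i => wts299.getD i 0) cap299 297
    (fun i j hij hj => wta299_mono j hj i hij) ca299 hall _ hroot
  have hb : bits 297 254629497041810760783555711051172270131433549208242031329517556169297662470417088272924671 = Finset.range 297 := by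
    ext j
    rw [mem_bits, Finset.mem_range]
    have h2 : (254629497041810760783555711051172270131433549208242031329517556169297662470417088272924671 : ℕ) = 2 ^ 297 - 1 := by decide +kernel
    rw [h2, Nat.testBit_two_pow_sub_one]
    simp
  rw [hb] at h
  exact h

end Vale.Agent.Lib.Helper3.BinPacking
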