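import Vale.Agent.Lib.Helper3.P302Any299B

/-!
Kernel evaluation of the third table check on some blocks and keys.
-/

namespace Vale.Agent.Lib.Helper3.BinPacking

theorem ca299_b24_ok : ca299_b24.all chka299 = true := by decide +kernel

theorem ca299_b88_ok : ca299_b88.all chka299 = true := by decide +kernel

theorem ca299_b4_ok : ca299_b4.all chka299 = true := by decide +kernel

theorem ca299_b13_ok : ca299_b13.all chka299 = true := by decide +kernel

theorem ca299_b22_ok : ca299_b22.all chka299 = true := by decide +kernel

theorem ca299_b31_ok : ca299_b31.all chka299 = true := by decide +kernel

theorem ca299_b41_ok : ca299_b41.all chka299 = true := by decide +kernel

theorem ca299_b50_ok : ca299_b50.all chka299 = true := by decide +kernel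

theorem ca299_b59_ok : ca299_b59.all chka299 = true := by decide +kernel

theorem ca299_b68_ok : ca299_b68.all chka299 = true := by decide +kernel

theorem ca299_b77_ok : ca299_b77.all chka299 = true := by decide +kernel

theorem ca299_b86_ok : ca299_b86.all chka299 = true := by decide +kernel

theorem ca299_b95_ok : ca299_b95.all chka299 = true := by decide +kernel

theorem ca299_b105_ok : ca299_b105.all chka299 = true := by decide +kernel

theorem ca299_b114_ok : ca299_b114.all chka299 = true := by decide +kernel

theorem ca299_b123_ok : ca299_b123.all chka299 = true := by decide +kernel

theorem ca299_k3_ok : chka299 241425799833041603330474183430766592 = true := by decide +kernel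

theorem ca299_k11_ok : chka299 73772153746255790317595207447173136384 = true := by decide +kernel

theorem ca299_k19_ok : chka299 13933201795944745386844900654948941614284800 = true := by decide +kernel

theorem ca299_k27_ok : chka299 18554220005177478450043595253532392290984656896 = true := by decide +kernel

theorem ca299_k35_ok : chka299 368344084533554126103522442986523693689688987533312 = true := by decide +kernel

theorem ca299_k43_ok : chka299 47889766319221903019918291222309259977680701836230656 = true := by decide +kernel

theorem ca299_k51_ok : chka299 18389945120232881302578678509849171267191732764583919616 = true := by decide +kernel

theorem ca299_k59_ok : chka299 1201476503490793750953855474959460467267995911056940597248 = true := by decide +kernel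

theorem ca299_k67_ok : chka299 404998603967148642882685133585358637166923973241846240915750912 = true := by decide +kernel

theorem ca299_k75_ok : chka299 421248771216819417430783989079948067192596167153794577046425305088 = true := by decide +kernel

theorem ca299_k83_ok : chka299 2156795732593690568385412792245932565413220918206553714930482059149312 = true := by decide +kernel

theorem ca299_k91_ok : chka299 906392544231311161076231617881117198619499239097192525516383981262845509632 = true := by decide +kernel

theorem ca299_k99_ok : chka299 519258683867719370621235302493336322616539242452775655602358846497887764873216 = true := by decide +kernel

theorem ca299_k107_ok : chka299 414997946734538207422070322789412082857676553024868374951747339065197997133381632 = true := by decide +kernel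

theorem ca299_k115_ok : chka299 485667222944237479116438071777340335363426384007989652861351298594004077518954430400 = true := by decide +kernel

theorem ca299_k123_ok : chka299 1305473495575583924833991698325629707413652820732088109247405402207056383285822301929464 = true := by decide +kernel

end Vale.Agent.Lib.Helper3.BinPacking
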