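import Vale.Agent.Lib.Helper3.P302Any299C

/-!
Kernel evaluation of the third table check on some blocks and keys.
-/

namespace Vale.Agent.Lib.Helper3.BinPacking

theorem ca299_b32_ok : ca299_b32.all chka299 = true := by decide +kernel

theorem ca299_b96_ok : ca299_b96.all chka299 = true := by decide +kernel

theorem ca299_b5_ok : ca299_b5.all chka299 = true := by decide +kernel

theorem ca299_b14_ok : ca299_b14.all chka299 = true := by decide +kernel

theorem ca299_b23_ok : ca299_b23.all chka299 = true := by decide +kernel

theorem ca299_b33_ok : ca299_b33.all chka299 = true := by decide +kernel

theorem ca299_b42_ok : ca299_b42.all chka299 = true := by decide +kernel

theorem ca299_b51_ok : ca299_b51.all chka299 = true := by decide +kernel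

theorem ca299_b60_ok : ca299_b60.all chka299 = true := by decide +kernel

theorem ca299_b69_ok : ca299_b69.all chka299 = true := by decide +kernel

theorem ca299_b78_ok : ca299_b78.all chka299 = true := by decide +kernel

theorem ca299_b87_ok : ca299_b87.all chka299 = true := by decide +kernel

theorem ca299_b97_ok : ca299_b97.all chka299 = true := by decide +kernel

theorem ca299_b106_ok : ca299_b106.all chka299 = true := by decide +kernel

theorem ca299_b115_ok : ca299_b115.all chka299 = true := by decide +kernel

theorem ca299_b124_ok : ca299_b124.all chka299 = true := by decide +kernel

theorem ca299_k4_ok : chka299 1407760297347817426820266914100543488 = true := by decide +kernel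

theorem ca299_k12_ok : chka299 2892400118823025179281542642070433300480 = true := by decide +kernel

theorem ca299_k20_ok : chka299 47384319593740680099148478063921483873255424 = true := by decide +kernel

theorem ca299_k28_ok : chka299 1507173563497493634397549860957138309409404878848 = true := by decide +kernel

theorem ca299_k36_ok : chka299 746873008602257981918276814546814880656146288345088 = true := by decide +kernel

theorem ca299_k44_ok : chka299 143670041126465916158893023975650933016240102007898112 = true := by decide +kernel

theorem ca299_k52_ok : chka299 30649909538503844502626887114781834624705366316474695680 = true := by decide +kernel

theorem ca299_k60_ok : chka299 3138550867327964972585168982052911881812908866779884814336 = true := by decide +kernel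

theorem ca299_k68_ok : chka299 822363098353009046870126772334436377173569586770498641163452416 = true := by decide +kernel

theorem ca299_k76_ok : chka299 1684995875782096328444912199629259592936353097511991051601471078400 = true := by decide +kernel

theorem ca299_k84_ok : chka299 4313591466041066972783414168373532492382684469003027753419591389282304 = true := by decide +kernel

theorem ca299_k92_ok : chka299 3167956787147643102942852418832052898878678627097984791912039918917400920064 = true := by decide +kernel

theorem ca299_k100_ok : chka299 1156115174672958445450875720041119815809524158113798757819375558541409978417152 = true := by decide +kernel

theorem ca299_k108_ok : chka299 948568344486092754421889465450308651689766178372533797328402207183243028128067584 = true := by decide +kernel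

theorem ca299_k116_ok : chka299 1942668892003106340757385481296023421548799106057876550245484421015581903841273053120 = true := by decide +kernel

theorem ca299_k124_ok : chka299 4227247509483080447496862406188202143003832706666505949210131266454368428234455077879804 = true := by decide +kernel

end Vale.Agent.Lib.Helper3.BinPacking
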