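import Vale.Agent.Lib.Helper3.P302Any299D

/-!
Kernel evaluation of the third table check on some blocks and keys.
-/

namespace Vale.Agent.Lib.Helper3.BinPacking

theorem ca299_b40_ok : ca299_b40.all chka299 = true := by decide +kernel

theorem ca299_b104_ok : ca299_b104.all chka299 = true := by decide +kernel

theorem ca299_b6_ok : ca299_b6.all chka299 = true := by decide +kernel

theorem ca299_b15_ok : ca299_b15.all chka299 = true := by decide +kernel

theorem ca299_b25_ok : ca299_b25.all chka299 = true := by decide +kernel

theorem ca299_b34_ok : ca299_b34.all chka299 = true := by decide +kernel

theorem ca299_b43_ok : ca299_b43.all chka299 = true := by decide +kernel

theorem ca299_b52_ok : ca299_b52.all chka299 = true := by decide +kernel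

theorem ca299_b61_ok : ca299_b61.all chka299 = true := by decide +kernel

theorem ca299_b70_ok : ca299_b70.all chka299 = true := by decide +kernel

theorem ca299_b79_ok : ca299_b79.all chka299 = true := by decide +kernel

theorem ca299_b89_ok : ca299_b89.all chka299 = true := by decide +kernel

theorem ca299_b98_ok : ca299_b98.all chka299 = true := by decide +kernel

theorem ca299_b107_ok : ca299_b107.all chka299 = true := by decide +kernel

theorem ca299_b116_ok : ca299_b116.all chka299 = true := by decide +kernel

theorem ca299_b125_ok : ca299_b125.all chka299 = true := by decide +kernel

theorem ca299_k5_ok : chka299 1656323603885444075795868284929179648 = true := by decide +kernel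

theorem ca299_k13_ok : chka299 11569600475307110740102505804114885083136 = true := by decide +kernel

theorem ca299_k21_ok : chka299 189554292493308766427579826110461192970436608 = true := by decide +kernel

theorem ca299_k29_ok : chka299 4407340875076004112707986950878512426539146018816 = true := by decide +kernel

theorem ca299_k37_ok : chka299 1119601598047804816776410312041042836834984621244416 = true := by decide +kernel

theorem ca299_k45_ok : chka299 191561257529343608434050470416372785610113952006537216 = true := by decide +kernel

theorem ca299_k53_ok : chka299 75092280863021587727288977616253027419226590113343471616 = true := by decide +kernel

theorem ca299_k61_ok : chka299 816023225600268499298652625016996634093306198773125231935488 = true := by decide +kernel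

theorem ca299_k69_ok : chka299 1645115377013612067947611363613111629664937519560271373120045056 = true := by decide +kernel

theorem ca299_k77_ok : chka299 3580616334901307030285660454625860050510496385825089332361063038976 = true := by decide +kernel

theorem ca299_k85_ok : chka299 12078056106180451233647514513435186126390182062694712627977435436023808 = true := by decide +kernel

theorem ca299_k93_ok : chka299 7012616000105407404116107780448643589319283586699331644784655012930142601216 = true := by decide +kernel

theorem ca299_k101_ok : chka299 3240372780944649963075153450197502157168383882095328910529612070683846312198144 = true := by decide +kernel

theorem ca299_k109_ok : chka299 1897137477869399932392382089842951385092649673716627549620669215663654933673016320 = true := by decide +kernel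

theorem ca299_k117_ok : chka299 6799341122567429018056040248354820688154816203688225353375015445362842616855099604928 = true := by decide +kernel

theorem ca299_k125_ok : chka299 5221893982302660799195886016019162156394747979935264694026646722716519908684327016202236 = true := by decide +kernel

end Vale.Agent.Lib.Helper3.BinPacking
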