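import Vale.Agent.Lib.Helper3.P302Any299E

/-!
Kernel evaluation of the third table check on some blocks and keys.
-/

namespace Vale.Agent.Lib.Helper3.BinPacking

theorem ca299_b48_ok : ca299_b48.all chka299 = true := by decide +kernel

theorem ca299_b112_ok : ca299_b112.all chka299 = true := by decide +kernel

theorem ca299_b7_ok : ca299_b7.all chka299 = true := by decide +kernel

theorem ca299_b17_ok : ca299_b17.all chka299 = true := by decide +kernel

theorem ca299_b26_ok : ca299_b26.all chka299 = true := by decide +kernel

theorem ca299_b35_ok : ca299_b35.all chka299 = true := by decide +kernel

theorem ca299_b44_ok : ca299_b44.all chka299 = true := by decide +kernel

theorem ca299_b53_ok : ca299_b53.all chka299 = true := by decide +kernel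

theorem ca299_b62_ok : ca299_b62.all chka299 = true := by decide +kernel

theorem ca299_b71_ok : ca299_b71.all chka299 = true := by decide +kernel

theorem ca299_b81_ok : ca299_b81.all chka299 = true := by decide +kernel

theorem ca299_b90_ok : ca299_b90.all chka299 = true := by decide +kernel

theorem ca299_b99_ok : ca299_b99.all chka299 = true := by decide +kernel

theorem ca299_b108_ok : ca299_b108.all chka299 = true := by decide +kernel

theorem ca299_b117_ok : ca299_b117.all chka299 = true := by decide +kernel

theorem ca299_b126_ok : ca299_b126.all chka299 = true := by decide +kernel

theorem ca299_k6_ok : chka299 2824590397055780292215229959003701248 = true := by decide +kernel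

theorem ca299_k14_ok : chka299 41174166397428660347350527480344742985728 = true := by decide +kernel

theorem ca299_k22_ok : chka299 379110626680819066844453549284113090468642816 = true := by decide +kernel

theorem ca299_k30_ok : chka299 10253347424399615785522726395080440094034361319424 = true := by decide +kernel

theorem ca299_k38_ok : chka299 1867890436361227110896696946391779742898822083248128 = true := by decide +kernel

theorem ca299_k46_ok : chka299 383123245809505882319560042675313046242111065233031168 = true := by decide +kernel

theorem ca299_k54_ok : chka299 86585997510859606498158012707610536184930854104142446592 = true := by decide +kernel

theorem ca299_k62_ok : chka299 3226430291988753912611595763528740537876610689447314484887552 = true := by decide +kernel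

theorem ca299_k70_ok : chka299 5756077182942644713714363557923737272900195533143279950700216320 = true := by decide +kernel

theorem ca299_k78_ok : chka299 6739986271330250619305865650100174006326301891186741252511242387456 = true := by decide +kernel

theorem ca299_k86_ok : chka299 18117084159973712244834580015702387604984531732645532794530332216918016 = true := by decide +kernel

theorem ca299_k94_ok : chka299 14023465153146036423902632263396544260122739689501787670611188419659257872384 = true := by decide +kernel

theorem ca299_k102_ok : chka299 7409790852338134752716125975533146471247691174329692657237685235737579503943680 = true := by decide +kernel

theorem ca299_k110_ok : chka299 3794274731349222637929954322607120175834647837342800196037730749883322302650644480 = true := by decide +kernel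

theorem ca299_k118_ok : chka299 15541351137694521202274657041824403510592450845919984684511335283549573090959968698352 = true := by decide +kernel

theorem ca299_k126_ok : chka299 15914343565113073605536604351175810218554555222078240618996622225919449094453794590162943 = true := by decide +kernel

end Vale.Agent.Lib.Helper3.BinPacking
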