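import Vale.Agent.Lib.Helper3.P302Any416Data

/-!
Kernel evaluation of the third table check on some blocks and keys.
-/

namespace Vale.Agent.Lib.Helper3.BinPacking

theorem ca416_b0_ok : ca416_b0.all chka416 = true := by decide +kernel

theorem ca416_b13_ok : ca416_b13.all chka416 = true := by decide +kernel

theorem ca416_b27_ok : ca416_b27.all chka416 = true := by decide +kernel

theorem ca416_b41_ok : ca416_b41.all chka416 = true := by decide +kernel

theorem ca416_b54_ok : ca416_b54.all chka416 = true := by decide +kernel

theorem ca416_b68_ok : ca416_b68.all chka416 = true := by decide +kernel

theorem ca416_b82_ok : ca416_b82.all chka416 = true := by decide +kernel

theorem ca416_b96_ok : ca416_b96.all chka416 = true := by decide +kernel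

theorem ca416_b109_ok : ca416_b109.all chka416 = true := by decide +kernel

theorem ca416_b124_ok : ca416_b124.all chka416 = true := by decide +kernel

theorem ca416_b138_ok : ca416_b138.all chka416 = true := by decide +kernel

theorem ca416_b152_ok : ca416_b152.all chka416 = true := by decide +kernel

theorem ca416_b165_ok : ca416_b165.all chka416 = true := by decide +kernel

theorem ca416_b179_ok : ca416_b179.all chka416 = true := by decide +kernel

theorem ca416_b194_ok : ca416_b194.all chka416 = true := by decide +kernel

theorem ca416_b208_ok : ca416_b208.all chka416 = true := by decide +kernel

theorem ca416_b221_ok : ca416_b221.all chka416 = true := by decide +kernel

theorem ca416_b235_ok : ca416_b235.all chka416 = true := by decide +kernel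

theorem ca416_b249_ok : ca416_b249.all chka416 = true := by decide +kernel

theorem ca416_b119_ok : ca416_b119.all chka416 = true := by decide +kernel

theorem ca416_b199_ok : ca416_b199.all chka416 = true := by decide +kernel

theorem ca416_k3_ok : chka416 82758588105462733039718930253195084744666120192 = true := by decide +kernel

theorem ca416_k11_ok : chka416 8948842249255795068393233208833238982325862137856 = true := by decide +kernel

theorem ca416_k19_ok : chka416 24693531664337661329282184387390635593691443838844928 = true := by decide +kernel

theorem ca416_k27_ok : chka416 24517309642920123562057391216330265491109862392071192576 = true := by decide +kernel

theorem ca416_k39_ok : chka416 1632046451200536998597305083880493795072128302584766438309888 = true := by decide +kernel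

theorem ca416_k51_ok : chka416 922432654218543511607196927309315179292491322107992541111517184 = true := by decide +kernel

theorem ca416_k63_ok : chka416 223787113291267528929692488238204387052400139523590317793024671744 = true := by decide +kernel

theorem ca416_k75_ok : chka416 95202311065773930177796543697802153784141472358051631676945063739392 = true := by decide +kernel

theorem ca416_k87_ok : chka416 6639479985612522363512235139510498485257966791671859048275681706908844032 = true := by decide +kernel

theorem ca416_k99_ok : chka416 14473597049883716994119127040734251860131601016627742752649759541618041421824 = true := by decide +kernel

theorem ca416_k111_ok : chka416 103749711100818764097489692925874638514178750156476423545600209926859184339419136 = true := by decide +kernel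

theorem ca416_k123_ok : chka416 197302309366289110969837578339667292627581931165895658016030073580837461750504751104 = true := by decide +kernel

theorem ca416_k135_ok : chka416 127191389046249046595774469694502841615144981769841204805159287996630117826920655181840384 = true := by decide +kernel

theorem ca416_k147_ok : chka416 130370179125932453187384520672369119013843405401785640229853389268592384471584872895231295488 = true := by decide +kernel

theorem ca416_k159_ok : chka416 533996758486789621973420242528844704317502328301991855367516963557594579371192524249000088436736 = true := by decide +kernel

theorem ca416_k171_ok : chka416 3690985598071216062245063964516730886319064003497897442058144769945520577404362259481400670026727424 = true := by decide +kernel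

theorem ca416_k183_ok : chka416 9174554400145830497495922941778489874255790368047433157334080354822932452321734272516419431812722210111488 = true := by decide +kernel

theorem ca416_k195_ok : chka416 2347396393402023736584727825702256126016353796825110038807805902109790804624531996099900334327585860692738048 = true := by decide +kernel

theorem ca416_k207_ok : chka416 319399498318561514465908802981815103778263099616953708443730218264538315733658627621295230106994806531811180544 = true := by decide +kernel

theorem ca416_k219_ok : chka416 153914086633554038858819716705987199018044625694893406509472898377260196714310587040866867542301341309430000484352 = true := by decide +kernel

theorem ca416_k231_ok : chka416 157608024785506804953552015116889256427910908976031424427255973494249812432033242053747094909523819702814041071156224 = true := by decide +kernel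

theorem ca416_k243_ok : chka416 1613906173804317725751222168666863998419120734279941965264261649128996913886220560201796558064825876616499286145283129312 = true := by decide +kernel

end Vale.Agent.Lib.Helper3.BinPacking
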