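import Vale.Agent.Lib.Helper3.P302Any416Core
import Vale.Agent.Lib.Helper3.P302LP416
import Vale.Agent.Lib.Helper8.P302Glue

/-!
Assembly for the instance with 416 items: all sizes lie in `(1/4, 1/2]`, the optimum is at
least 140, the linear programming value is at most `12137875 / 87480`, hence the gap is at least
`21865 / 17496`.
-/

namespace Vale.Agent.Lib.Helper3.BinPacking

theorem wts416_big : ∀ w, w ∈ wts416 → cap416 < 4 * w := by decide +kernel

theorem wts416_half : ∀ w, w ∈ wts416 → 2 * w ≤ cap416 := by decide +kernel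

theorem inst416_range (i : Fin 416) : 1 / 4 < inst416 i ∧ inst416 i ≤ 1 / 2 := by
  have hi : (i : ℕ) < wts416.length := by
    rw [wts416_length]
    exact i.2
  have hmem : wts416.getD (i : ℕ) 0 ∈ wts416 := by
    rw [List.getD_eq_getElem _ _ hi]
    exact List.getElem_mem hi
  have h1 := wts416_big _ hmem
  have h2 := wts416_half _ hmem
  have hcap : (0 : ℚ) < (cap416 : ℚ) := by
    have : 0 < cap416 := by decide
    exact_mod_cast this
  have h1' : (cap416 : ℚ) < 4 * (wts416.getD (i : ℕ) 0 : ℚ) := by exact_mod_cast h1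
  have h2' : 2 * (wts416.getD (i : ℕ) 0 : ℚ) ≤ (cap416 : ℚ) := by exact_mod_cast h2
  unfold inst416
  constructor
  · rw [lt_div_iff₀ hcap]
    linarith
  · rw [div_le_iff₀ hcap]
    linarith

/-- The optimum of the instance with 416 items is at least 140. -/
theorem opt_inst416_ge : 140 ≤ opt inst416 := by
  apply succ_le_opt inst416 (fun i => le_trans (inst416_range i).2 (by norm_num)) 139
  intro hpack
  apply not_packable_any416
  exact Vale.Agent.Lib.Helper8.P302Glue.packable_of_packing 416 138 cap416 wts416
    wts416_length (by norm_num) wts416_sorted wts416_big (by decide) inst416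
    (fun i => rfl) hpack

/-- The gap statement for the instance with 416 items. -/
theorem gap416 : ∃ a : Fin 416 → ℚ, (∀ i, 1 / 4 < a i ∧ a i ≤ 1 / 2) ∧
    (21865 / 17496 : ℝ) ≤ (opt a : ℝ) - lp a := by
  refine ⟨inst416, inst416_range, ?_⟩
  have h1 : (140 : ℝ) ≤ (opt inst416 : ℝ) := by exact_mod_cast opt_inst416_ge
  have h2 := lp_inst416_le
  linarith

end Vale.Agent.Lib.Helper3.BinPacking
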