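import Vale.Agent.Lib.Helper3.P302Any416Data

/-!
Kernel evaluation of the third table check on some blocks and keys.
-/

namespace Vale.Agent.Lib.Helper3.BinPacking

theorem ca416_b1_ok : ca416_b1.all chka416 = true := by decide +kernel

theorem ca416_b14_ok : ca416_b14.all chka416 = true := by decide +kernel

theorem ca416_b28_ok : ca416_b28.all chka416 = true := by decide +kernel

theorem ca416_b42_ok : ca416_b42.all chka416 = true := by decide +kernel

theorem ca416_b56_ok : ca416_b56.all chka416 = true := by decide +kernel

theorem ca416_b69_ok : ca416_b69.all chka416 = true := by decide +kernel

theorem ca416_b83_ok : ca416_b83.all chka416 = true := by decide +kernel

theorem ca416_b97_ok : ca416_b97.all chka416 = true := by decide +kernel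

theorem ca416_b110_ok : ca416_b110.all chka416 = true := by decide +kernel

theorem ca416_b125_ok : ca416_b125.all chka416 = true := by decide +kernel

theorem ca416_b139_ok : ca416_b139.all chka416 = true := by decide +kernel

theorem ca416_b153_ok : ca416_b153.all chka416 = true := by decide +kernel

theorem ca416_b166_ok : ca416_b166.all chka416 = true := by decide +kernel

theorem ca416_b180_ok : ca416_b180.all chka416 = true := by decide +kernel

theorem ca416_b195_ok : ca416_b195.all chka416 = true := by decide +kernel

theorem ca416_b209_ok : ca416_b209.all chka416 = true := by decide +kernel

theorem ca416_b222_ok : ca416_b222.all chka416 = true := by decide +kernel

theorem ca416_b236_ok : ca416_b236.all chka416 = true := by decide +kernel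

theorem ca416_b250_ok : ca416_b250.all chka416 = true := by decide +kernel

theorem ca416_b123_ok : ca416_b123.all chka416 = true := by decide +kernel

theorem ca416_b207_ok : ca416_b207.all chka416 = true := by decide +kernel

theorem ca416_k4_ok : chka416 179811518321753936711929022799660256551355023360 = true := by decide +kernel

theorem ca416_k12_ok : chka416 10321838500978317030085921332646144837516231966720 = true := by decide +kernel

theorem ca416_k20_ok : chka416 73332306154710450729467736558651997862448310637297664 = true := by decide +kernel

theorem ca416_k28_ok : chka416 52099610367572026196644032187575339711340404514461057024 = true := by decide +kernel

theorem ca416_k40_ok : chka416 3238984495459527274139267176221656397594331296367559273611264 = true := by decide +kernel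

theorem ca416_k52_ok : chka416 1644751305112959640463308887692194621388611266421593639437205504 = true := by decide +kernel

theorem ca416_k64_ok : chka416 421248463638834383483426561126101473324032697132951420290222522368 = true := by decide +kernel

theorem ca416_k76_ok : chka416 128059746066363772427546968335107328667953654773080011738664264531968 = true := by decide +kernel

theorem ca416_k88_ok : chka416 13720671737419640809420294654206726599472804597602245981718283230409392128 = true := by decide +kernel

theorem ca416_k100_ok : chka416 28947594401055547840937925297308515787739444197614560640724845487119184953344 = true := by decide +kernel

theorem ca416_k112_ok : chka416 148213873367948183140140951169210795129834424268082400136751922185897826121154560 = true := by decide +kernel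

theorem ca416_k124_ok : chka416 971334446112643679576633655370561541133610554711591325133844991161953800010434871296 = true := by decide +kernel

theorem ca416_k136_ok : chka416 254136059143185425599542167726839096329146377871122787891119595817222809125495908606148608 = true := by decide +kernel

theorem ca416_k148_ok : chka416 260740111532915593707177034573076071440785667217902720837987579557008731516641400388705058816 = true := by decide +kernel

theorem ca416_k160_ok : chka416 1067993517838066900987289921616849957171470570059854754113236014072245681076478768754023238467584 = true := by decide +kernel

theorem ca416_k172_ok : chka416 4647907790163783779158033688880690233661075629513677882994419410249875014554088340447972146915835904 = true := by decide +kernel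

theorem ca416_k184_ok : chka416 18205205200606737074463530217030457203642265012897540082050836409908941276920143204292117484683843040444416 = true := by decide +kernel

theorem ca416_k196_ok : chka416 2931091791171496936289681743556637252449079586568437584799022261733762676589051379753720056094113672453947392 = true := by decide +kernel

theorem ca416_k208_ok : chka416 601226615062710493125219134064818936389418202480317615174588405238637862304928218261146171179401021431001120768 = true := by decide +kernel

theorem ca416_k220_ok : chka416 307828173266548141532094982359335037465947140320256401644637134370795396153380226113938694848257463246639463366656 = true := by decide +kernel

theorem ca416_k232_ok : chka416 472824074356447623156535266713824652409614252489055319803107794372865187650318402925427929497846580589913815344216064 = true := by decide +kernel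

theorem ca416_k244_ok : chka416 5487280990934680681906932676361116547751832401713994134402906595448753463711133582987604465750182875958433827971198353392 = true := by decide +kernel

end Vale.Agent.Lib.Helper3.BinPacking
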