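import Vale.Agent.Lib.Helper3.P302Any416A

/-!
Kernel evaluation of the third table check on some blocks and keys.
-/

namespace Vale.Agent.Lib.Helper3.BinPacking

theorem ca416_b2_ok : ca416_b2.all chka416 = true := by decide +kernel

theorem ca416_b16_ok : ca416_b16.all chka416 = true := by decide +kernel

theorem ca416_b29_ok : ca416_b29.all chka416 = true := by decide +kernel

theorem ca416_b43_ok : ca416_b43.all chka416 = true := by decide +kernel

theorem ca416_b57_ok : ca416_b57.all chka416 = true := by decide +kernel

theorem ca416_b70_ok : ca416_b70.all chka416 = true := by decide +kernel

theorem ca416_b84_ok : ca416_b84.all chka416 = true := by decide +kernel

theorem ca416_b98_ok : ca416_b98.all chka416 = true := by decide +kernel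

theorem ca416_b112_ok : ca416_b112.all chka416 = true := by decide +kernel

theorem ca416_b126_ok : ca416_b126.all chka416 = true := by decide +kernel

theorem ca416_b140_ok : ca416_b140.all chka416 = true := by decide +kernel

theorem ca416_b154_ok : ca416_b154.all chka416 = true := by decide +kernel

theorem ca416_b168_ok : ca416_b168.all chka416 = true := by decide +kernel

theorem ca416_b181_ok : ca416_b181.all chka416 = true := by decide +kernel

theorem ca416_b196_ok : ca416_b196.all chka416 = true := by decide +kernel

theorem ca416_b210_ok : ca416_b210.all chka416 = true := by decide +kernel

theorem ca416_b224_ok : ca416_b224.all chka416 = true := by decide +kernel

theorem ca416_b237_ok : ca416_b237.all chka416 = true := by decide +kernel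

theorem ca416_b252_ok : ca416_b252.all chka416 = true := by decide +kernel

theorem ca416_b127_ok : ca416_b127.all chka416 = true := by decide +kernel

theorem ca416_b215_ok : ca416_b215.all chka416 = true := by decide +kernel

theorem ca416_k5_ok : chka416 355366817465167999532950648493526269763566698496 = true := by decide +kernel

theorem ca416_k13_ok : chka416 25028198726620527644510499961853742722804053180416 = true := by decide +kernel

theorem ca416_k21_ok : chka416 188755859464559476365318417437081430438912166174130176 = true := by decide +kernel

theorem ca416_k29_ok : chka416 98077469748901941562487117067854867717358193770561011712 = true := by decide +kernel

theorem ca416_k41_ok : chka416 5674499968789559410507553503904530671909437706785738660511744 = true := by decide +kernel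

theorem ca416_k53_ok : chka416 2053867687818521945927070299109909970666429024448225669243994112 = true := by decide +kernel

theorem ca416_k65_ok : chka416 842496826844041000779960900879737032018311817633650973911048781824 = true := by decide +kernel

theorem ca416_k77_ok : chka416 141539719600806347857254260321362376989784830358073715284335363358720 = true := by decide +kernel

theorem ca416_k89_ok : chka416 27413736489452119363690850284964345097135804798388292907160731290427195392 = true := by decide +kernel

theorem ca416_k101_ok : chka416 57892566138499315267636625387389366305806956973859927167983864844709198299136 = true := by decide +kernel

theorem ca416_k113_ok : chka416 474284396646427096759335717378806431920088650181624010218095364218305517757399040 = true := by decide +kernel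

theorem ca416_k125_ok : chka416 250604287097119050148610585980233938956870482237725998241483800856023504886292543438848 = true := by decide +kernel

theorem ca416_k137_ok : chka416 509014217803201079704175569902084776880630155154763493079357383974967051488534451642695680 = true := by decide +kernel

theorem ca416_k149_ok : chka416 521480965165348017642859160380600549465793671835217959593272277306357984466101508646495059968 = true := by decide +kernel

theorem ca416_k161_ok : chka416 2135987035676133801974579843233699914342941140119709508226472028144491362152367241768056515461120 = true := by decide +kernel

theorem ca416_k173_ok : chka416 5468126811957413250797722024049798245668514166098632546654083387653607389253854311656791787322736640 = true := by decide +kernel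

theorem ca416_k185_ok : chka416 32109540560046545613604131894799359282221440259730244394709968748692161213206582353216604962913979612528640 = true := by decide +kernel

theorem ca416_k197_ok : chka416 4696942101852259848535011836953002745373100077710503878175540206260593988023445254147011793219654408346796032 = true := by decide +kernel

theorem ca416_k209_ok : chka416 1202453229565484800705987215490277302636725335430223856040514426752278449368908468727252106013582670641465655296 = true := by decide +kernel

theorem ca416_k221_ok : chka416 615656346532536346878645513666030714361752169570982391914965606357865795031519504260082349460169707121058389131264 = true := by decide +kernel

theorem ca416_k233_ok : chka416 788040123927604016790953131966026202210822308763848423558068450269214686819571328764709854577162250935739334682212352 = true := by decide +kernel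

theorem ca416_k245_ok : chka416 7746749634260725627863838758807370357870253702675681016828311743839022167351210223170048175490273935312427438716072493040 = true := by decide +kernel

end Vale.Agent.Lib.Helper3.BinPacking
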