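import Vale.Agent.Lib.Helper3.P302Any416J

/-!
Kernel evaluation of the third table check on some blocks and keys.
-/

namespace Vale.Agent.Lib.Helper3.BinPacking

theorem ca416_b12_ok : ca416_b12.all chka416 = true := by decide +kernel

theorem ca416_b26_ok : ca416_b26.all chka416 = true := by decide +kernel

theorem ca416_b40_ok : ca416_b40.all chka416 = true := by decide +kernel

theorem ca416_b53_ok : ca416_b53.all chka416 = true := by decide +kernel

theorem ca416_b67_ok : ca416_b67.all chka416 = true := by decide +kernel

theorem ca416_b81_ok : ca416_b81.all chka416 = true := by decide +kernel

theorem ca416_b94_ok : ca416_b94.all chka416 = true := by decide +kernel

theorem ca416_b108_ok : ca416_b108.all chka416 = true := by decide +kernel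

theorem ca416_b122_ok : ca416_b122.all chka416 = true := by decide +kernel

theorem ca416_b137_ok : ca416_b137.all chka416 = true := by decide +kernel

theorem ca416_b150_ok : ca416_b150.all chka416 = true := by decide +kernel

theorem ca416_b164_ok : ca416_b164.all chka416 = true := by decide +kernel

theorem ca416_b178_ok : ca416_b178.all chka416 = true := by decide +kernel

theorem ca416_b193_ok : ca416_b193.all chka416 = true := by decide +kernel

theorem ca416_b206_ok : ca416_b206.all chka416 = true := by decide +kernel

theorem ca416_b220_ok : ca416_b220.all chka416 = true := by decide +kernel

theorem ca416_b234_ok : ca416_b234.all chka416 = true := by decide +kernel

theorem ca416_b248_ok : ca416_b248.all chka416 = true := by decide +kernel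

theorem ca416_b55_ok : ca416_b55.all chka416 = true := by decide +kernel

theorem ca416_b111_ok : ca416_b111.all chka416 = true := by decide +kernel

theorem ca416_b191_ok : ca416_b191.all chka416 = true := by decide +kernel

theorem ca416_k2_ok : chka416 42795652709695856370086923108609220925949214720 = true := by decide +kernel

theorem ca416_k10_ok : chka416 4475827770264980632779342963833836637324719423488 = true := by decide +kernel

theorem ca416_k18_ok : chka416 9353610478912355426280780472622763792992024469176320 = true := by decide +kernel

theorem ca416_k26_ok : chka416 12254352160639759003355677861020557328728079944193671168 = true := by decide +kernel

theorem ca416_k38_ok : chka416 25108406941546723051259603136279930988364813512792384471040 = true := by decide +kernel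

theorem ca416_k50_ok : chka416 821170449023285577524997972333926280571891607373659263836618752 = true := by decide +kernel

theorem ca416_k62_ok : chka416 210623076832697880592452734777714436837290645002126904888479711232 = true := by decide +kernel

theorem ca416_k74_ok : chka416 87619825965204184969359553483205375203225665683787643504872115929088 = true := by decide +kernel

theorem ca416_k86_ok : chka416 3547497622250349786741464513210391082559870001792058375070495251839844352 = true := by decide +kernel

theorem ca416_k98_ok : chka416 7236577669058761199018365608179533065251322072806953674400728871006298439680 = true := by decide +kernel

theorem ca416_k110_ok : chka416 31495447416733458153181398280453384013738279725116711584752003914743648473841664 = true := by decide +kernel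

theorem ca416_k122_ok : chka416 79679778782364635099785107710261524373865670786280256783541483912621553793508573184 = true := by decide +kernel

theorem ca416_k134_ok : chka416 91515246174969645072874011506642328654110501374068188567130378997979138616727309016629248 = true := by decide +kernel

theorem ca416_k146_ok : chka416 65185030797232236765387865022461878095474776768085938787706176766970796608983835995130560512 = true := by decide +kernel

theorem ca416_k158_ok : chka416 266998379369668288981382510874187376102279893082752372222147550660165096317596634680729289097216 = true := by decide +kernel

theorem ca416_k170_ok : chka416 1247416428977694927985159132658763267213570029921886673238729170596901211111309470255118848431751168 = true := by decide +kernel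

theorem ca416_k182_ok : chka416 8887587105054299333018250649580657951121454538714243685675019251261946618826776151389494502988121913688064 = true := by decide +kernel

theorem ca416_k194_ok : chka416 1174199759539213310322765620081832858998708764401092003734124617364192481454418405341656397417442715214282752 = true := by decide +kernel

theorem ca416_k206_ok : chka416 300612877780332841196426666323171884124463236649429025688914693683910183724898826437191690633831488677201575936 = true := by decide +kernel

theorem ca416_k218_ok : chka416 76957043280941103554564990984074523019927204397500375298982056630230272741734623581550858645056630761819530559488 = true := by decide +kernel

theorem ca416_k230_ok : chka416 98505015490413943249071171274561608010014110663103536245327280554447357213446777705449134515667474902484579141017600 = true := by decide +kernel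

theorem ca416_k242_ok : chka416 1129734321663022365190737323916299271982300898124462556608513019777625484758062836208738054324800033222267441400392974304 = true := by decide +kernel

theorem ca416_k254_ok : chka416 10576895500643977583176891054712069336201096312694856845879461232456861070943381794779896362127120694872318332561649003659263 = true := by decide +kernel

end Vale.Agent.Lib.Helper3.BinPacking
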