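import Vale.Agent.Lib.Helper3.P302CheckFast

/-!
Auxiliary facts on lists of weights: sortedness from comparisons of neighbours, and the lists
`desc` and `ascFrom` of a weight function read off a list.
-/

namespace Vale.Agent.Lib.Helper3.BinPacking

/-- Each entry is at most the next one. -/
def chainB : List ℕ → Bool
  | a :: b :: t => Nat.ble a b && chainB (b :: t)
  | _ => true

theorem pairwise_of_chainB : ∀ (ws : List ℕ), chainB ws = true →
    ws.Pairwise (fun x y => x ≤ y)
  | [], _ => List.Pairwise.nil
  | [_], _ => List.pairwise_singleton _ _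
  | a :: b :: t, h => by
    simp only [chainB, Bool.and_eq_true] at h
    have hab : a ≤ b := Nat.le_of_ble_eq_true h.1
    have ih := pairwise_of_chainB (b :: t) h.2
    refine List.Pairwise.cons ?_ ih
    intro c hc
    rcases List.mem_cons.1 hc with rfl | hc'
    · exact hab
    · exact le_trans hab ((List.pairwise_cons.1 ih).1 c hc')

theorem getD_mono_of_pairwise (ws : List ℕ) (h : ws.Pairwise (fun x y => x ≤ y)) (i j : ℕ)
    (hij : i ≤ j) (hj : j < ws.length) : ws.getD i 0 ≤ ws.getD j 0 := by
  have hi : i < ws.length := lt_of_le_of_lt hij hj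
  rw [List.getD_eq_getElem _ _ hi, List.getD_eq_getElem _ _ hj]
  rcases Nat.eq_or_lt_of_le hij with heq | hlt
  · subst heq
    exact le_refl _
  · exact List.pairwise_iff_getElem.1 h i j hi hj hlt

theorem ascFrom_getD (ws : List ℕ) : ∀ (k y : ℕ), y + k ≤ ws.length →
    ascFrom (fun i => ws.getD i 0) y k = (ws.drop y).take k
  | 0, y, _ => by simp [ascFrom]
  | k + 1, y, h => by
    have hy : y < ws.length := by omega
    rw [ascFrom, ascFrom_getD ws k (y + 1) (by omega), List.drop_eq_getElem_cons hy,
      List.take_succ_cons, List.getD_eq_getElem _ _ hy]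

theorem desc_getD (ws : List ℕ) : ∀ (k : ℕ), k ≤ ws.length →
    desc (fun i => ws.getD i 0) k = (ws.take k).reverse
  | 0, _ => by simp [desc]
  | k + 1, h => by
    have hk : k < ws.length := by omega
    rw [desc, desc_getD ws k (by omega), List.take_succ_eq_append_getElem hk,
      List.reverse_append, List.getD_eq_getElem _ _ hk]
    rfl

end Vale.Agent.Lib.Helper3.BinPacking
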