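import Vale.Agent.Lib.Helper3.P302Any416K
import Vale.Agent.Lib.Helper3.P302Any416L
import Vale.Agent.Lib.Helper3.P302ListAux

/-!
The first 414 items of the instance with 416 items cannot be split into triples of total
weight at most `cap416`.
-/

namespace Vale.Agent.Lib.Helper3.BinPacking

open Finset

theorem ca416_ok : ca416.all chka416 = true := by
  simp only [ca416, NatTree.all,
    ca416_b0_ok, ca416_b1_ok, ca416_b2_ok, ca416_b3_ok, ca416_b4_ok, ca416_b5_ok,
    ca416_b6_ok, ca416_b7_ok, ca416_b8_ok, ca416_b9_ok, ca416_b10_ok, ca416_b11_ok,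
    ca416_b12_ok, ca416_b13_ok, ca416_b14_ok, ca416_b15_ok, ca416_b16_ok, ca416_b17_ok,
    ca416_b18_ok, ca416_b19_ok, ca416_b20_ok, ca416_b21_ok, ca416_b22_ok, ca416_b23_ok,
    ca416_b24_ok, ca416_b25_ok, ca416_b26_ok, ca416_b27_ok, ca416_b28_ok, ca416_b29_ok,
    ca416_b30_ok, ca416_b31_ok, ca416_b32_ok, ca416_b33_ok, ca416_b34_ok, ca416_b35_ok,
    ca416_b36_ok, ca416_b37_ok, ca416_b38_ok, ca416_b39_ok, ca416_b40_ok, ca416_b41_ok,
    ca416_b42_ok, ca416_b43_ok, ca416_b44_ok, ca416_b45_ok, ca416_b46_ok, ca416_b47_ok,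
    ca416_b48_ok, ca416_b49_ok, ca416_b50_ok, ca416_b51_ok, ca416_b52_ok, ca416_b53_ok,
    ca416_b54_ok, ca416_b55_ok, ca416_b56_ok, ca416_b57_ok, ca416_b58_ok, ca416_b59_ok,
    ca416_b60_ok, ca416_b61_ok, ca416_b62_ok, ca416_b63_ok, ca416_b64_ok, ca416_b65_ok,
    ca416_b66_ok, ca416_b67_ok, ca416_b68_ok, ca416_b69_ok, ca416_b70_ok, ca416_b71_ok,
    ca416_b72_ok, ca416_b73_ok, ca416_b74_ok, ca416_b75_ok, ca416_b76_ok, ca416_b77_ok,
    ca416_b78_ok, ca416_b79_ok, ca416_b80_ok, ca416_b81_ok, ca416_b82_ok, ca416_b83_ok,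
    ca416_b84_ok, ca416_b85_ok, ca416_b86_ok, ca416_b87_ok, ca416_b88_ok, ca416_b89_ok,
    ca416_b90_ok, ca416_b91_ok, ca416_b92_ok, ca416_b93_ok, ca416_b94_ok, ca416_b95_ok,
    ca416_b96_ok, ca416_b97_ok, ca416_b98_ok, ca416_b99_ok, ca416_b100_ok, ca416_b101_ok,
    ca416_b102_ok, ca416_b103_ok, ca416_b104_ok, ca416_b105_ok, ca416_b106_ok, ca416_b107_ok,
    ca416_b108_ok, ca416_b109_ok, ca416_b110_ok, ca416_b111_ok, ca416_b112_ok, ca416_b113_ok,
    ca416_b114_ok, ca416_b115_ok, ca416_b116_ok, ca416_b117_ok, ca416_b118_ok, ca416_b119_ok,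
    ca416_b120_ok, ca416_b121_ok, ca416_b122_ok, ca416_b123_ok, ca416_b124_ok, ca416_b125_ok,
    ca416_b126_ok, ca416_b127_ok, ca416_b128_ok, ca416_b129_ok, ca416_b130_ok, ca416_b131_ok,
    ca416_b132_ok, ca416_b133_ok, ca416_b134_ok, ca416_b135_ok, ca416_b136_ok, ca416_b137_ok,
    ca416_b138_ok, ca416_b139_ok, ca416_b140_ok, ca416_b141_ok, ca416_b142_ok, ca416_b143_ok,
    ca416_b144_ok, ca416_b145_ok, ca416_b146_ok, ca416_b147_ok, ca416_b148_ok, ca416_b149_ok,
    ca416_b150_ok, ca416_b151_ok, ca416_b152_ok, ca416_b153_ok, ca416_b154_ok, ca416_b155_ok,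
    ca416_b156_ok, ca416_b157_ok, ca416_b158_ok, ca416_b159_ok, ca416_b160_ok, ca416_b161_ok,
    ca416_b162_ok, ca416_b163_ok, ca416_b164_ok, ca416_b165_ok, ca416_b166_ok, ca416_b167_ok,
    ca416_b168_ok, ca416_b169_ok, ca416_b170_ok, ca416_b171_ok, ca416_b172_ok, ca416_b173_ok,
    ca416_b174_ok, ca416_b175_ok, ca416_b176_ok, ca416_b177_ok, ca416_b178_ok, ca416_b179_ok,
    ca416_b180_ok, ca416_b181_ok, ca416_b182_ok, ca416_b183_ok, ca416_b184_ok, ca416_b185_ok,
    ca416_b186_ok, ca416_b187_ok, ca416_b188_ok, ca416_b189_ok, ca416_b190_ok, ca416_b191_ok,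
    ca416_b192_ok, ca416_b193_ok, ca416_b194_ok, ca416_b195_ok, ca416_b196_ok, ca416_b197_ok,
    ca416_b198_ok, ca416_b199_ok, ca416_b200_ok, ca416_b201_ok, ca416_b202_ok, ca416_b203_ok,
    ca416_b204_ok, ca416_b205_ok, ca416_b206_ok, ca416_b207_ok, ca416_b208_ok, ca416_b209_ok,
    ca416_b210_ok, ca416_b211_ok, ca416_b212_ok, ca416_b213_ok, ca416_b214_ok, ca416_b215_ok,
    ca416_b216_ok, ca416_b217_ok, ca416_b218_ok, ca416_b219_ok, ca416_b220_ok, ca416_b221_ok,
    ca416_b222_ok, ca416_b223_ok, ca416_b224_ok, ca416_b225_ok, ca416_b226_ok, ca416_b227_ok,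
    ca416_b228_ok, ca416_b229_ok, ca416_b230_ok, ca416_b231_ok, ca416_b232_ok, ca416_b233_ok,
    ca416_b234_ok, ca416_b235_ok, ca416_b236_ok, ca416_b237_ok, ca416_b238_ok, ca416_b239_ok,
    ca416_b240_ok, ca416_b241_ok, ca416_b242_ok, ca416_b243_ok, ca416_b244_ok, ca416_b245_ok,
    ca416_b246_ok, ca416_b247_ok, ca416_b248_ok, ca416_b249_ok, ca416_b250_ok, ca416_b251_ok,
    ca416_b252_ok, ca416_b253_ok, ca416_b254_ok, ca416_b255_ok, ca416_k0_ok, ca416_k1_ok,
    ca416_k2_ok, ca416_k3_ok, ca416_k4_ok, ca416_k5_ok, ca416_k6_ok, ca416_k7_ok,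
    ca416_k8_ok, ca416_k9_ok, ca416_k10_ok, ca416_k11_ok, ca416_k12_ok, ca416_k13_ok,
    ca416_k14_ok, ca416_k15_ok, ca416_k16_ok, ca416_k17_ok, ca416_k18_ok, ca416_k19_ok,
    ca416_k20_ok, ca416_k21_ok, ca416_k22_ok, ca416_k23_ok, ca416_k24_ok, ca416_k25_ok,
    ca416_k26_ok, ca416_k27_ok, ca416_k28_ok, ca416_k29_ok, ca416_k30_ok, ca416_k31_ok,
    ca416_k32_ok, ca416_k33_ok, ca416_k34_ok, ca416_k35_ok, ca416_k36_ok, ca416_k37_ok,
    ca416_k38_ok, ca416_k39_ok, ca416_k40_ok, ca416_k41_ok, ca416_k42_ok, ca416_k43_ok,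
    ca416_k44_ok, ca416_k45_ok, ca416_k46_ok, ca416_k47_ok, ca416_k48_ok, ca416_k49_ok,
    ca416_k50_ok, ca416_k51_ok, ca416_k52_ok, ca416_k53_ok, ca416_k54_ok, ca416_k55_ok,
    ca416_k56_ok, ca416_k57_ok, ca416_k58_ok, ca416_k59_ok, ca416_k60_ok, ca416_k61_ok,
    ca416_k62_ok, ca416_k63_ok, ca416_k64_ok, ca416_k65_ok, ca416_k66_ok, ca416_k67_ok,
    ca416_k68_ok, ca416_k69_ok, ca416_k70_ok, ca416_k71_ok, ca416_k72_ok, ca416_k73_ok,
    ca416_k74_ok, ca416_k75_ok, ca416_k76_ok, ca416_k77_ok, ca416_k78_ok, ca416_k79_ok,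
    ca416_k80_ok, ca416_k81_ok, ca416_k82_ok, ca416_k83_ok, ca416_k84_ok, ca416_k85_ok,
    ca416_k86_ok, ca416_k87_ok, ca416_k88_ok, ca416_k89_ok, ca416_k90_ok, ca416_k91_ok,
    ca416_k92_ok, ca416_k93_ok, ca416_k94_ok, ca416_k95_ok, ca416_k96_ok, ca416_k97_ok,
    ca416_k98_ok, ca416_k99_ok, ca416_k100_ok, ca416_k101_ok, ca416_k102_ok, ca416_k103_ok,
    ca416_k104_ok, ca416_k105_ok, ca416_k106_ok, ca416_k107_ok, ca416_k108_ok, ca416_k109_ok,
    ca416_k110_ok, ca416_k111_ok, ca416_k112_ok, ca416_k113_ok, ca416_k114_ok, ca416_k115_ok,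
    ca416_k116_ok, ca416_k117_ok, ca416_k118_ok, ca416_k119_ok, ca416_k120_ok, ca416_k121_ok,
    ca416_k122_ok, ca416_k123_ok, ca416_k124_ok, ca416_k125_ok, ca416_k126_ok, ca416_k127_ok,
    ca416_k128_ok, ca416_k129_ok, ca416_k130_ok, ca416_k131_ok, ca416_k132_ok, ca416_k133_ok,
    ca416_k134_ok, ca416_k135_ok, ca416_k136_ok, ca416_k137_ok, ca416_k138_ok, ca416_k139_ok,
    ca416_k140_ok, ca416_k141_ok, ca416_k142_ok, ca416_k143_ok, ca416_k144_ok, ca416_k145_ok,
    ca416_k146_ok, ca416_k147_ok, ca416_k148_ok, ca416_k149_ok, ca416_k150_ok, ca416_k151_ok,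
    ca416_k152_ok, ca416_k153_ok, ca416_k154_ok, ca416_k155_ok, ca416_k156_ok, ca416_k157_ok,
    ca416_k158_ok, ca416_k159_ok, ca416_k160_ok, ca416_k161_ok, ca416_k162_ok, ca416_k163_ok,
    ca416_k164_ok, ca416_k165_ok, ca416_k166_ok, ca416_k167_ok, ca416_k168_ok, ca416_k169_ok,
    ca416_k170_ok, ca416_k171_ok, ca416_k172_ok, ca416_k173_ok, ca416_k174_ok, ca416_k175_ok,
    ca416_k176_ok, ca416_k177_ok, ca416_k178_ok, ca416_k179_ok, ca416_k180_ok, ca416_k181_ok,
    ca416_k182_ok, ca416_k183_ok, ca416_k184_ok, ca416_k185_ok, ca416_k186_ok, ca416_k187_ok,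
    ca416_k188_ok, ca416_k189_ok, ca416_k190_ok, ca416_k191_ok, ca416_k192_ok, ca416_k193_ok,
    ca416_k194_ok, ca416_k195_ok, ca416_k196_ok, ca416_k197_ok, ca416_k198_ok, ca416_k199_ok,
    ca416_k200_ok, ca416_k201_ok, ca416_k202_ok, ca416_k203_ok, ca416_k204_ok, ca416_k205_ok,
    ca416_k206_ok, ca416_k207_ok, ca416_k208_ok, ca416_k209_ok, ca416_k210_ok, ca416_k211_ok,
    ca416_k212_ok, ca416_k213_ok, ca416_k214_ok, ca416_k215_ok, ca416_k216_ok, ca416_k217_ok,
    ca416_k218_ok, ca416_k219_ok, ca416_k220_ok, ca416_k221_ok, ca416_k222_ok, ca416_k223_ok,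
    ca416_k224_ok, ca416_k225_ok, ca416_k226_ok, ca416_k227_ok, ca416_k228_ok, ca416_k229_ok,
    ca416_k230_ok, ca416_k231_ok, ca416_k232_ok, ca416_k233_ok, ca416_k234_ok, ca416_k235_ok,
    ca416_k236_ok, ca416_k237_ok, ca416_k238_ok, ca416_k239_ok, ca416_k240_ok, ca416_k241_ok,
    ca416_k242_ok, ca416_k243_ok, ca416_k244_ok, ca416_k245_ok, ca416_k246_ok, ca416_k247_ok,
    ca416_k248_ok, ca416_k249_ok, ca416_k250_ok, ca416_k251_ok, ca416_k252_ok, ca416_k253_ok,
    ca416_k254_ok,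
    Bool.and_true]

theorem wts416_length : wts416.length = 416 := by decide +kernel

theorem wts416_sorted : wts416.Pairwise (fun x y => x ≤ y) :=
  pairwise_of_chainB wts416 (by decide +kernel)

theorem rwa416_eq : rwa416 = desc (fun i => wts416.getD i 0) 414 := by
  rw [desc_getD wts416 414 (by rw [wts416_length]; norm_num)]
  decide +kernel

theorem awa416_eq : awa416 = ascFrom (fun i => wts416.getD i 0) 0 414 := by
  rw [ascFrom_getD wts416 414 0 (by rw [wts416_length]; norm_num)]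
  decide +kernel

theorem wta416_mono : ∀ i j, i ≤ j → j < 414 → wts416.getD i 0 ≤ wts416.getD j 0 :=
  fun i j hij hj => getD_mono_of_pairwise wts416 wts416_sorted i j hij
    (by rw [wts416_length]; omega)

/-- The 414 smallest items of the instance with 416 items cannot be split into 138 triples of
total weight at most the capacity. -/
theorem not_packable_any416 :
    ¬ Packable (fun i => wts416.getD i 0) cap416 (Finset.range 414) := by
  have hall : ca416.all (checkF ca416 cap416 414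
      (ascFrom (fun i => wts416.getD i 0) 0 414)
      (desc (fun i => wts416.getD i 0) 414)) = true := by
    rw [← rwa416_eq, ← awa416_eq]; exact ca416_ok
  have hroot : ca416.Mem 42307582002575910332922579714097346549017899709713998034217522897561970639123926132812109468141778230245837569601494931472383 :=
    NatTree.mem_of_contains ca416 _ (by decide +kernel)
  have h := checkF_sound (fun i => wts416.getD i 0) cap416 414
    wta416_mono ca416 hall _ hroot
  have hb : bits 414 42307582002575910332922579714097346549017899709713998034217522897561970639123926132812109468141778230245837569601494931472383 = Finset.range 414 := by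
    ext j
    rw [mem_bits, Finset.mem_range]
    have h2 : (42307582002575910332922579714097346549017899709713998034217522897561970639123926132812109468141778230245837569601494931472383 : ℕ) = 2 ^ 414 - 1 := by decide +kernel
    rw [h2, Nat.testBit_two_pow_sub_one]
    simp
  rw [hb] at h
  exact h

end Vale.Agent.Lib.Helper3.BinPacking
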