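import Vale.Agent.Lib.Helper3.P302Any416B

/-!
Kernel evaluation of the third table check on some blocks and keys.
-/

namespace Vale.Agent.Lib.Helper3.BinPacking

theorem ca416_b3_ok : ca416_b3.all chka416 = true := by decide +kernel

theorem ca416_b17_ok : ca416_b17.all chka416 = true := by decide +kernel

theorem ca416_b30_ok : ca416_b30.all chka416 = true := by decide +kernel

theorem ca416_b44_ok : ca416_b44.all chka416 = true := by decide +kernel

theorem ca416_b58_ok : ca416_b58.all chka416 = true := by decide +kernel

theorem ca416_b72_ok : ca416_b72.all chka416 = true := by decide +kernel

theorem ca416_b85_ok : ca416_b85.all chka416 = true := by decide +kernel

theorem ca416_b99_ok : ca416_b99.all chka416 = true := by decide +kernel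

theorem ca416_b113_ok : ca416_b113.all chka416 = true := by decide +kernel

theorem ca416_b128_ok : ca416_b128.all chka416 = true := by decide +kernel

theorem ca416_b141_ok : ca416_b141.all chka416 = true := by decide +kernel

theorem ca416_b155_ok : ca416_b155.all chka416 = true := by decide +kernel

theorem ca416_b169_ok : ca416_b169.all chka416 = true := by decide +kernel

theorem ca416_b182_ok : ca416_b182.all chka416 = true := by decide +kernel

theorem ca416_b197_ok : ca416_b197.all chka416 = true := by decide +kernel

theorem ca416_b211_ok : ca416_b211.all chka416 = true := by decide +kernel

theorem ca416_b225_ok : ca416_b225.all chka416 = true := by decide +kernel

theorem ca416_b238_ok : ca416_b238.all chka416 = true := by decide +kernel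

theorem ca416_b253_ok : ca416_b253.all chka416 = true := by decide +kernel

theorem ca416_b135_ok : ca416_b135.all chka416 = true := by decide +kernel

theorem ca416_b223_ok : ca416_b223.all chka416 = true := by decide +kernel

theorem ca416_k6_ok : chka416 1548545888567350460097677718953304203779542876160 = true := by decide +kernel

theorem ca416_k14_ok : chka416 32883786796389172693702785412804418190992151150592 = true := by decide +kernel

theorem ca416_k22_ok : chka416 380879018701526822204074150248919168106468827151204352 = true := by decide +kernel

theorem ca416_k30_ok : chka416 245194796805512332036959209739535044724509758359288676352 = true := by decide +kernel

theorem ca416_k42_ok : chka416 11298783123696025374904420827098599780737148185025513584066560 = true := by decide +kernel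

theorem ca416_k54_ok : chka416 3290255862434165682618278070218401486424939992119202498436136960 = true := by decide +kernel

theorem ca416_k66_ok : chka416 1053121510614783140362689177619709964785328699551114038971602042880 = true := by decide +kernel

theorem ca416_k78_ok : chka416 451579105971737822197364257157970389297327115388085371999770854293504 = true := by decide +kernel

theorem ca416_k90_ok : chka416 54786062500823495344657092034755028041556903011417121917963083890869403648 = true := by decide +kernel

theorem ca416_k102_ok : chka416 115791654427296347618052376619068584400666480245765567922832326591907612327936 = true := by decide +kernel

theorem ca416_k114_ok : chka416 948568794176277725907863599549261614211636558276989978777539411246387813934956544 = true := by decide +kernel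

theorem ca416_k126_ok : chka416 872258332609352352842838396163759989082440670734410645042063771972475181994968476549120 = true := by decide +kernel

theorem ca416_k138_ok : chka416 1018022607599725482221138381418449083204540383089009829740151012512706938608606675923369984 = true := by decide +kernel

theorem ca416_k150_ok : chka416 1042961926445358250834260178922277285284549530385622241082265512109091150625767199162757021696 = true := by decide +kernel

theorem ca416_k162_ok : chka416 4271974071719432024579822480871178129075527353594833909033798425805575269747439593823650740961280 = true := by decide +kernel

theorem ca416_k174_ok : chka416 13396910689295831476648042597351175695073753353086527628697501835889687011351592918785740393066528768 = true := by decide +kernel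

theorem ca416_k186_ok : chka416 36624865960276998902087935532425342946914677582155297857068346776235165625505786819104453989349540027695104 = true := by decide +kernel

theorem ca416_k198_ok : chka416 9393023861755430648027643296389982137087866678344382496598486954207780259494373428970879156872206134414409728 = true := by decide +kernel

theorem ca416_k210_ok : chka416 1503064960596509646866658076403001535717718173797158297588867251641768939632369250922039761638137605355334533120 = true := by decide +kernel

theorem ca416_k222_ok : chka416 769570432377700236490878148255798230619704409367056583397841868450329828206575352645532564228402170799982196424704 = true := by decide +kernel

theorem ca416_k234_ok : chka416 2206512346997805268432998575571196299193692922500604503604207012822060670593470910775623439753019214004777942333258752 = true := by decide +kernel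

theorem ca416_k246_ok : chka416 12911249390434542877727636481414226739089097126240122803321463619811777760734549292788782824225619377681874820712896659448 = true := by decide +kernel

end Vale.Agent.Lib.Helper3.BinPacking
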