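import Vale.Agent.Lib.Helper3.P302Any416C

/-!
Kernel evaluation of the third table check on some blocks and keys.
-/

namespace Vale.Agent.Lib.Helper3.BinPacking

theorem ca416_b4_ok : ca416_b4.all chka416 = true := by decide +kernel

theorem ca416_b18_ok : ca416_b18.all chka416 = true := by decide +kernel

theorem ca416_b32_ok : ca416_b32.all chka416 = true := by decide +kernel

theorem ca416_b45_ok : ca416_b45.all chka416 = true := by decide +kernel

theorem ca416_b59_ok : ca416_b59.all chka416 = true := by decide +kernel

theorem ca416_b73_ok : ca416_b73.all chka416 = true := by decide +kernel

theorem ca416_b86_ok : ca416_b86.all chka416 = true := by decide +kernel

theorem ca416_b100_ok : ca416_b100.all chka416 = true := by decide +kernel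

theorem ca416_b114_ok : ca416_b114.all chka416 = true := by decide +kernel

theorem ca416_b129_ok : ca416_b129.all chka416 = true := by decide +kernel

theorem ca416_b142_ok : ca416_b142.all chka416 = true := by decide +kernel

theorem ca416_b156_ok : ca416_b156.all chka416 = true := by decide +kernel

theorem ca416_b170_ok : ca416_b170.all chka416 = true := by decide +kernel

theorem ca416_b184_ok : ca416_b184.all chka416 = true := by decide +kernel

theorem ca416_b198_ok : ca416_b198.all chka416 = true := by decide +kernel

theorem ca416_b212_ok : ca416_b212.all chka416 = true := by decide +kernel

theorem ca416_b226_ok : ca416_b226.all chka416 = true := by decide +kernel

theorem ca416_b240_ok : ca416_b240.all chka416 = true := by decide +kernel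

theorem ca416_b254_ok : ca416_b254.all chka416 = true := by decide +kernel

theorem ca416_b143_ok : ca416_b143.all chka416 = true := by decide +kernel

theorem ca416_b231_ok : ca416_b231.all chka416 = true := by decide +kernel

theorem ca416_k7_ok : chka416 1816885180354969815703991632998513775690628726784 = true := by decide +kernel

theorem ca416_k15_ok : chka416 71796267846768319924995770760563503838065024040960 = true := by decide +kernel

theorem ca416_k23_ok : chka416 763441687289267808883522518897774357526395819235737600 = true := by decide +kernel

theorem ca416_k31_ok : chka416 416837290537845137862270557926907076237432795393700134912 = true := by decide +kernel

theorem ca416_k43_ok : chka416 12955937981838109096557069203996161117037630977964196740726784 = true := by decide +kernel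

theorem ca416_k55_ok : chka416 6581264977076577766928216435364256277541620689157545203108675584 = true := by decide +kernel

theorem ca416_k67_ok : chka416 2948742760648812500925213675925777747793091016989227443045902843904 = true := by decide +kernel

theorem ca416_k79_ok : chka416 460004089305222397133197699372664023882521810370072243549741556695040 = true := by decide +kernel

theorem ca416_k91_ok : chka416 112208592106120986056114260808899879805950129659913423683142953566470144000 = true := by decide +kernel

theorem ca416_k103_ok : chka416 231583750566358889832187149062512354530961917362515258875181376434879328157696 = true := by decide +kernel

theorem ca416_k115_ok : chka416 2134279788435714318626988823583789189263958932019824735557580434032033448536834048 = true := by decide +kernel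

theorem ca416_k127_ok : chka416 1744516665218704705685676792327519978164881341468821290084127543944358915258073640599552 = true := by decide +kernel

theorem ca416_k139_ok : chka416 1271165962938983560265440704110901361372392491065376974335910932188553467259838732691308544 = true := by decide +kernel

theorem ca416_k151_ok : chka416 2085924593047564439671296378159541070329802491528250161029688621158710413826274095109580521472 = true := by decide +kernel

theorem ca416_k163_ok : chka416 8543948143560280854923753028674822627327524638854818245508355571689388815103848935901555282935808 = true := by decide +kernel

theorem ca416_k175_ok : chka416 34996011596528082000502070993053970355783928777232627008029342782746057885695069134681821209247612928 = true := by decide +kernel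

theorem ca416_k187_ok : chka416 71099017031877761310988087114934837275763045075591023498248979018269850106710824090406920365786116552392704 = true := by decide +kernel

theorem ca416_k199_ok : chka416 9394099219199768766274237188364940061396899833388742282706430811474880500066523803744780150678662341233475584 = true := by decide +kernel

theorem ca416_k211_ok : chka416 2404907533648509661213544445913488707984593099719875010404143221774328086116967136136717758503142739433811083264 = true := by decide +kernel

theorem ca416_k223_ok : chka416 1231312693494543748069884984706450986022503529471790307924675261032804500172846099818960560197122673578044806905856 = true := by decide +kernel

theorem ca416_k235_ok : chka416 5043456793138350555444403297799959530104820388296846918596932846835602512446456516529238345365001171083051220441497344 = true := by decide +kernel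

theorem ca416_k247_ok : chka416 33569248415129811594974989857438321733726743468873910905966738472136958736869278849825945650466722029169100197319510327288 = true := by decide +kernel

end Vale.Agent.Lib.Helper3.BinPacking
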