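import Vale.Agent.Lib.Helper3.P302Any416D

/-!
Kernel evaluation of the third table check on some blocks and keys.
-/

namespace Vale.Agent.Lib.Helper3.BinPacking

theorem ca416_b5_ok : ca416_b5.all chka416 = true := by decide +kernel

theorem ca416_b19_ok : ca416_b19.all chka416 = true := by decide +kernel

theorem ca416_b33_ok : ca416_b33.all chka416 = true := by decide +kernel

theorem ca416_b46_ok : ca416_b46.all chka416 = true := by decide +kernel

theorem ca416_b60_ok : ca416_b60.all chka416 = true := by decide +kernel

theorem ca416_b74_ok : ca416_b74.all chka416 = true := by decide +kernel

theorem ca416_b88_ok : ca416_b88.all chka416 = true := by decide +kernel

theorem ca416_b101_ok : ca416_b101.all chka416 = true := by decide +kernel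

theorem ca416_b115_ok : ca416_b115.all chka416 = true := by decide +kernel

theorem ca416_b130_ok : ca416_b130.all chka416 = true := by decide +kernel

theorem ca416_b144_ok : ca416_b144.all chka416 = true := by decide +kernel

theorem ca416_b157_ok : ca416_b157.all chka416 = true := by decide +kernel

theorem ca416_b171_ok : ca416_b171.all chka416 = true := by decide +kernel

theorem ca416_b185_ok : ca416_b185.all chka416 = true := by decide +kernel

theorem ca416_b200_ok : ca416_b200.all chka416 = true := by decide +kernel

theorem ca416_b213_ok : ca416_b213.all chka416 = true := by decide +kernel

theorem ca416_b227_ok : ca416_b227.all chka416 = true := by decide +kernel

theorem ca416_b241_ok : ca416_b241.all chka416 = true := by decide +kernel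

theorem ca416_b7_ok : ca416_b7.all chka416 = true := by decide +kernel

theorem ca416_b63_ok : ca416_b63.all chka416 = true := by decide +kernel

theorem ca416_b151_ok : ca416_b151.all chka416 = true := by decide +kernel

theorem ca416_b239_ok : ca416_b239.all chka416 = true := by decide +kernel

theorem ca416_k32_ok : chka416 637513655267179883860084451741275757291402262819509370880 = true := by decide +kernel

theorem ca416_k44_ok : chka416 25007973313780536163121784897041658466441793521509877036351488 = true := by decide +kernel

theorem ca416_k56_ok : chka416 13162479737339272440410322184547487716171303050194973260085460992 = true := by decide +kernel

theorem ca416_k68_ok : chka416 3580616510660155621112721842027800340438810989164292709075065503744 = true := by decide +kernel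

theorem ca416_k80_ok : chka416 532458946274490624879925979083147021757602652647426280597931255922688 = true := by decide +kernel

theorem ca416_k92_ok : chka416 162605143930385682831962848115246719659748127345803423516871609656476172288 = true := by decide +kernel

theorem ca416_k104_ok : chka416 463167501132717779664374298125024709061923834725010711314197096592674857680896 = true := by decide +kernel

theorem ca416_k116_ok : chka416 4031417378472295879059613586816392848082826258971875329982962867403468527791767552 = true := by decide +kernel

theorem ca416_k128_ok : chka416 3485147992652957953229514660841392918516477869259538301125751463070417154801940454965248 = true := by decide +kernel

theorem ca416_k140_ok : chka416 2036913588194275865336977762309248279360349922035075965846301585172566572777405282045132800 = true := by decide +kernel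

theorem ca416_k152_ok : chka416 2607405058947007155301784312238431566151237156264910484223103936749279096569951988916661780480 = true := by decide +kernel

theorem ca416_k164_ok : chka416 29903818502647964873109862023437877404178099930756195517538012929833347797301579835817286076203008 = true := by decide +kernel

theorem ca416_k176_ok : chka416 279968092772225526319680285071055534765205687154331191862498637620473983897520118172609685559439261696 = true := by decide +kernel

theorem ca416_k188_ok : chka416 73320563848025370862334750176973662944124952203160641505677905707788311168937646228106578229424891021492224 = true := by decide +kernel

theorem ca416_k200_ok : chka416 18787767847472853849688994708451440839381330780430641204039777100045100711145813221547810827659244313363087360 = true := by decide +kernel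

theorem ca416_k212_ok : chka416 4809815066737083136882637839187616845827075129909338646499624059823658896992986304478395280661066106647084793856 = true := by decide +kernel

theorem ca416_k224_ok : chka416 2462625387203543055203294722573777070409435598573728172209568215032282956762975271303421530914464367137943359315968 = true := by decide +kernel

theorem ca416_k236_ok : chka416 10086913586276915566447870120353079935308005205133323984750225911364171698849330316130142191140522561186084294628474752 = true := by decide +kernel

theorem ca416_k248_ok : chka416 47126060275086081690668565510454134073957698881227334348327700093975358752457695121631583755187445644207591850176434667504 = true := by decide +kernel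

end Vale.Agent.Lib.Helper3.BinPacking
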