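import Vale.Agent.Lib.Helper3.P302Any416E

/-!
Kernel evaluation of the third table check on some blocks and keys.
-/

namespace Vale.Agent.Lib.Helper3.BinPacking

theorem ca416_b6_ok : ca416_b6.all chka416 = true := by decide +kernel

theorem ca416_b20_ok : ca416_b20.all chka416 = true := by decide +kernel

theorem ca416_b34_ok : ca416_b34.all chka416 = true := by decide +kernel

theorem ca416_b48_ok : ca416_b48.all chka416 = true := by decide +kernel

theorem ca416_b61_ok : ca416_b61.all chka416 = true := by decide +kernel

theorem ca416_b75_ok : ca416_b75.all chka416 = true := by decide +kernel

theorem ca416_b89_ok : ca416_b89.all chka416 = true := by decide +kernel

theorem ca416_b102_ok : ca416_b102.all chka416 = true := by decide +kernel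

theorem ca416_b116_ok : ca416_b116.all chka416 = true := by decide +kernel

theorem ca416_b131_ok : ca416_b131.all chka416 = true := by decide +kernel

theorem ca416_b145_ok : ca416_b145.all chka416 = true := by decide +kernel

theorem ca416_b158_ok : ca416_b158.all chka416 = true := by decide +kernel

theorem ca416_b172_ok : ca416_b172.all chka416 = true := by decide +kernel

theorem ca416_b186_ok : ca416_b186.all chka416 = true := by decide +kernel

theorem ca416_b201_ok : ca416_b201.all chka416 = true := by decide +kernel

theorem ca416_b214_ok : ca416_b214.all chka416 = true := by decide +kernel

theorem ca416_b228_ok : ca416_b228.all chka416 = true := by decide +kernel

theorem ca416_b242_ok : ca416_b242.all chka416 = true := by decide +kernel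

theorem ca416_b15_ok : ca416_b15.all chka416 = true := by decide +kernel

theorem ca416_b71_ok : ca416_b71.all chka416 = true := by decide +kernel

theorem ca416_b159_ok : ca416_b159.all chka416 = true := by decide +kernel

theorem ca416_b247_ok : ca416_b247.all chka416 = true := by decide +kernel

theorem ca416_k33_ok : chka416 1385374472365086900428134282137164041844971209794955247616 = true := by decide +kernel

theorem ca416_k45_ok : chka416 49840187778970245264856168010046536903612260335375019384242176 = true := by decide +kernel

theorem ca416_k57_ok : chka416 23033950360036132796510706004115274140699039887464579698033426432 = true := by decide +kernel

theorem ca416_k69_ok : chka416 6739985260716871222050262672537913311907139751523110148949449637888 = true := by decide +kernel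

theorem ca416_k81_ok : chka416 808798399311483799476702207060980495723256963474290750387174321946624 = true := by decide +kernel

theorem ca416_k93_ok : chka416 445300674294927175565290448234113682192145550845979828068783938130476531712 = true := by decide +kernel

theorem ca416_k105_ok : chka416 926336299793748755954740633984151526204632730258547186678998417929534993072128 = true := by decide +kernel

theorem ca416_k117_ok : chka416 5809983869185079626152826171699578136158161325245918800426121980779227835826962432 = true := by decide +kernel

theorem ca416_k129_ok : chka416 6966410647521464448317190397869138799219670924840972323208999301322537092654187904237568 = true := by decide +kernel

theorem ca416_k141_ok : chka416 4073951507197654177334494370180533263930724958107851268621963286339357616056713211864416256 = true := by decide +kernel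

theorem ca416_k153_ok : chka416 4171849559087556186682574372855768250775235058398613420070165322665403496931878516960207568896 = true := by decide +kernel

theorem ca416_k165_ok : chka416 42719740718173425367479992260455190091794327064896112137220262576766666151985423135955058597822464 = true := by decide +kernel

theorem ca416_k177_ok : chka416 215155479295455316976674299077106178467060570578103520946330203011334256625244210815650544197128880652288 = true := by decide +kernel

theorem ca416_k189_ok : chka416 146497784032551362255193824047990945454450119094498265441122212113114939658119762155708780299281498699202560 = true := by decide +kernel

theorem ca416_k201_ok : chka416 32875010281474056136331611991981254493600101615560890244979365873766702987748276828956118630719287131627323392 = true := by decide +kernel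

theorem ca416_k213_ok : chka416 6012266719522269444414460822238528628279028667701132449346865916983610267852417462372341838536893515176651784192 = true := by decide +kernel

theorem ca416_k225_ok : chka416 4925250774477778053831576390543273412799312719675670780425605056009846819525120223540966891667512680159192205488128 = true := by decide +kernel

theorem ca416_k237_ok : chka416 20173827172553687789232240861236684194310054029832848184188628805158109798396198949580528851980540746212600305913167616 = true := by decide +kernel

theorem ca416_k249_ok : chka416 139441493416693063770867675909561808581244680974872074932023772090303511239559767829641405134952373118041130248202157555708 = true := by decide +kernel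

end Vale.Agent.Lib.Helper3.BinPacking
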