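import Vale.Agent.Lib.Helper3.P302Any416F

/-!
Kernel evaluation of the third table check on some blocks and keys.
-/

namespace Vale.Agent.Lib.Helper3.BinPacking

theorem ca416_b8_ok : ca416_b8.all chka416 = true := by decide +kernel

theorem ca416_b21_ok : ca416_b21.all chka416 = true := by decide +kernel

theorem ca416_b35_ok : ca416_b35.all chka416 = true := by decide +kernel

theorem ca416_b49_ok : ca416_b49.all chka416 = true := by decide +kernel

theorem ca416_b62_ok : ca416_b62.all chka416 = true := by decide +kernel

theorem ca416_b76_ok : ca416_b76.all chka416 = true := by decide +kernel

theorem ca416_b90_ok : ca416_b90.all chka416 = true := by decide +kernel

theorem ca416_b104_ok : ca416_b104.all chka416 = true := by decide +kernel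

theorem ca416_b117_ok : ca416_b117.all chka416 = true := by decide +kernel

theorem ca416_b132_ok : ca416_b132.all chka416 = true := by decide +kernel

theorem ca416_b146_ok : ca416_b146.all chka416 = true := by decide +kernel

theorem ca416_b160_ok : ca416_b160.all chka416 = true := by decide +kernel

theorem ca416_b173_ok : ca416_b173.all chka416 = true := by decide +kernel

theorem ca416_b188_ok : ca416_b188.all chka416 = true := by decide +kernel

theorem ca416_b202_ok : ca416_b202.all chka416 = true := by decide +kernel

theorem ca416_b216_ok : ca416_b216.all chka416 = true := by decide +kernel

theorem ca416_b229_ok : ca416_b229.all chka416 = true := by decide +kernel

theorem ca416_b243_ok : ca416_b243.all chka416 = true := by decide +kernel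

theorem ca416_b23_ok : ca416_b23.all chka416 = true := by decide +kernel

theorem ca416_b79_ok : ca416_b79.all chka416 = true := by decide +kernel

theorem ca416_b167_ok : ca416_b167.all chka416 = true := by decide +kernel

theorem ca416_b251_ok : ca416_b251.all chka416 = true := by decide +kernel

theorem ca416_k34_ok : chka416 2059672510346077998107136202079084998510120230616020549632 = true := by decide +kernel

theorem ca416_k46_ok : chka416 99655267150998943806656992872622577581800553142641597278584832 = true := by decide +kernel

theorem ca416_k58_ok : chka416 27970464031999750922975613551787305373237643832694895340827967488 = true := by decide +kernel

theorem ca416_k70_ok : chka416 15164969297236840521191950436839993152384322562289712879620086300672 = true := by decide +kernel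

theorem ca416_k82_ok : chka416 1321037386087779583341562385935725985976555751795528872702686105960448 = true := by decide +kernel

theorem ca416_k94_ok : chka416 902872653594447973544639892391355915638749173511772250255675562711712792576 = true := by decide +kernel

theorem ca416_k106_ok : chka416 1852672999888785625762180939184143064476741702681453445319991885774551504650240 = true := by decide +kernel

theorem ca416_k118_ok : chka416 13279963130062822025318237556580052447588314575995722867739623807397168264094154752 = true := by decide +kernel

theorem ca416_k130_ok : chka416 7961057120341037732627954894162780479420583226435667758089927255108853780836245441609728 = true := by decide +kernel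

theorem ca416_k142_ok : chka416 8147899129057523903210846901437252880823636631402024432964884069053896925709133490887327744 = true := by decide +kernel

theorem ca416_k154_ok : chka416 12515548545161183888698146296043895088326419523512175204665008522872966631778325495725523206144 = true := by decide +kernel

theorem ca416_k166_ok : chka416 145247118442501440131543480817132537154760849348040559132377596681593328983678573967612426242228224 = true := by decide +kernel

theorem ca416_k178_ok : chka416 573654622090290103429024904110592790733906452979224612126259708484351193006018722135677247963915494621184 = true := by decide +kernel

theorem ca416_k190_ok : chka416 291274604198831854200100573383650112536698518830058857045865645100776825737221468145010528854672347204943872 = true := by decide +kernel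

theorem ca416_k202_ok : chka416 37576610212485767500948004349836984389905090420288580731193922469861388801441825125309168131295886777618792448 = true := by decide +kernel

theorem ca416_k214_ok : chka416 9619630347649757244517803312930651771011634355201027966062609894458775573648570290559680963368542509312524550144 = true := by decide +kernel

theorem ca416_k226_ok : chka416 9850501548812492412256545537137190199927316061086321454715346872977956835226178241310301002948821810435111824384000 = true := by decide +kernel

theorem ca416_k238_ok : chka416 40347654345107875601478172917263375337609244964850787025734515245824886019359188065696298674892137773325574591184109504 = true := by decide +kernel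

theorem ca416_k250_ok : chka416 175592991709909784026050544317603974821860562074481204111653003081872577947795544554456440080874302758143774654995988742140 = true := by decide +kernel

end Vale.Agent.Lib.Helper3.BinPacking
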