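import Vale.Agent.Lib.Helper3.P302Any416G

/-!
Kernel evaluation of the third table check on some blocks and keys.
-/

namespace Vale.Agent.Lib.Helper3.BinPacking

theorem ca416_b9_ok : ca416_b9.all chka416 = true := by decide +kernel

theorem ca416_b22_ok : ca416_b22.all chka416 = true := by decide +kernel

theorem ca416_b36_ok : ca416_b36.all chka416 = true := by decide +kernel

theorem ca416_b50_ok : ca416_b50.all chka416 = true := by decide +kernel

theorem ca416_b64_ok : ca416_b64.all chka416 = true := by decide +kernel

theorem ca416_b77_ok : ca416_b77.all chka416 = true := by decide +kernel

theorem ca416_b91_ok : ca416_b91.all chka416 = true := by decide +kernel

theorem ca416_b105_ok : ca416_b105.all chka416 = true := by decide +kernel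

theorem ca416_b118_ok : ca416_b118.all chka416 = true := by decide +kernel

theorem ca416_b133_ok : ca416_b133.all chka416 = true := by decide +kernel

theorem ca416_b147_ok : ca416_b147.all chka416 = true := by decide +kernel

theorem ca416_b161_ok : ca416_b161.all chka416 = true := by decide +kernel

theorem ca416_b174_ok : ca416_b174.all chka416 = true := by decide +kernel

theorem ca416_b189_ok : ca416_b189.all chka416 = true := by decide +kernel

theorem ca416_b203_ok : ca416_b203.all chka416 = true := by decide +kernel

theorem ca416_b217_ok : ca416_b217.all chka416 = true := by decide +kernel

theorem ca416_b230_ok : ca416_b230.all chka416 = true := by decide +kernel

theorem ca416_b244_ok : ca416_b244.all chka416 = true := by decide +kernel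

theorem ca416_b31_ok : ca416_b31.all chka416 = true := by decide +kernel

theorem ca416_b87_ok : ca416_b87.all chka416 = true := by decide +kernel

theorem ca416_b175_ok : ca416_b175.all chka416 = true := by decide +kernel

theorem ca416_b255_ok : ca416_b255.all chka416 = true := by decide +kernel

theorem ca416_k35_ok : chka416 6571340879232931420555874421373479301923754259681787248640 = true := by decide +kernel

theorem ca416_k47_ok : chka416 102140999438212069389135965329498593025922143904779722135961600 = true := by decide +kernel

theorem ca416_k59_ok : chka416 52653032391817841555300151290147593371593087294704229211934031872 = true := by decide +kernel

theorem ca416_k71_ok : chka416 20219958493858563353196877994675252348234590716277658060342496854016 = true := by decide +kernel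

theorem ca416_k83_ok : chka416 1725436586295906435793941396683765679066244363751132273730749869326336 = true := by decide +kernel

theorem ca416_k95_ok : chka416 1353432458605629558715955624592524691225662469433289567546502980091707916288 = true := by decide +kernel

theorem ca416_k107_ok : chka416 3936929322435656640341594206475935022308867270756715701735548509559887857975296 = true := by decide +kernel

theorem ca416_k119_ok : chka416 18022807105278507360642029612835387200156469351519969243811104857721487653190238208 = true := by decide +kernel

theorem ca416_k131_ok : chka416 15793898093795177346575225302475208711002767601493894307777234891176119894008912230219776 = true := by decide +kernel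

theorem ca416_k143_ok : chka416 16295792430108371129234481044488785291090553335583531709511204382670566686941718363355742208 = true := by decide +kernel

theorem ca416_k155_ok : chka416 20859247908112576682505157977607631849640271877252663765374918845932137254210540871161932152832 = true := by decide +kernel

theorem ca416_k167_ok : chka416 205054755448166476967286093387482989725413517801815007466873529050297868936133591969660216662818816 = true := by decide +kernel

theorem ca416_k179_ok : chka416 1147029276087807981331730127936114525933047700271294893060656918331081912028139924153181886241446916259840 = true := by decide +kernel

theorem ca416_k191_ok : chka416 293425039119415318467762037653280890099230063713091274930561497136339686407538320172694343857898925527662592 = true := by decide +kernel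

theorem ca416_k203_ok : chka416 75148776771403054238342262734189320986362387495910647917710603361346465439811228811302700601645123786218930176 = true := by decide +kernel

theorem ca416_k215_ok : chka416 19239260695299514489035606625861303542023268710402055932125219788917551147297140581119361926737085018075293417472 = true := by decide +kernel

theorem ca416_k227_ok : chka416 19701003098054455878825685031648769957153631312502468433525437794272986580562163573919397867174426880206151677374464 = true := by decide +kernel

theorem ca416_k239_ok : chka416 80695308690215750643020160290075698035857919787590504521057656182987388313721100890444629554744039201431776961830584256 = true := by decide +kernel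

theorem ca416_k251_ok : chka416 206579990246952687031369615003039284681257599750525891504789082197468889062647982209652740378060886955876971680617629482998 = true := by decide +kernel

end Vale.Agent.Lib.Helper3.BinPacking
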