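import Vale.Agent.Lib.Helper3.P302Any416H

/-!
Kernel evaluation of the third table check on some blocks and keys.
-/

namespace Vale.Agent.Lib.Helper3.BinPacking

theorem ca416_b10_ok : ca416_b10.all chka416 = true := by decide +kernel

theorem ca416_b24_ok : ca416_b24.all chka416 = true := by decide +kernel

theorem ca416_b37_ok : ca416_b37.all chka416 = true := by decide +kernel

theorem ca416_b51_ok : ca416_b51.all chka416 = true := by decide +kernel

theorem ca416_b65_ok : ca416_b65.all chka416 = true := by decide +kernel

theorem ca416_b78_ok : ca416_b78.all chka416 = true := by decide +kernel

theorem ca416_b92_ok : ca416_b92.all chka416 = true := by decide +kernel

theorem ca416_b106_ok : ca416_b106.all chka416 = true := by decide +kernel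

theorem ca416_b120_ok : ca416_b120.all chka416 = true := by decide +kernel

theorem ca416_b134_ok : ca416_b134.all chka416 = true := by decide +kernel

theorem ca416_b148_ok : ca416_b148.all chka416 = true := by decide +kernel

theorem ca416_b162_ok : ca416_b162.all chka416 = true := by decide +kernel

theorem ca416_b176_ok : ca416_b176.all chka416 = true := by decide +kernel

theorem ca416_b190_ok : ca416_b190.all chka416 = true := by decide +kernel

theorem ca416_b204_ok : ca416_b204.all chka416 = true := by decide +kernel

theorem ca416_b218_ok : ca416_b218.all chka416 = true := by decide +kernel

theorem ca416_b232_ok : ca416_b232.all chka416 = true := by decide +kernel

theorem ca416_b245_ok : ca416_b245.all chka416 = true := by decide +kernel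

theorem ca416_b39_ok : ca416_b39.all chka416 = true := by decide +kernel

theorem ca416_b95_ok : ca416_b95.all chka416 = true := by decide +kernel

theorem ca416_b183_ok : ca416_b183.all chka416 = true := by decide +kernel

theorem ca416_k0_ok : chka416 12109304642802128365853895022048060297747365888 = true := by decide +kernel

theorem ca416_k8_ok : chka416 3010047525898253378301362551669587223435475419136 = true := by decide +kernel

theorem ca416_k16_ok : chka416 168072688271275764110483694100716572384799076909056 = true := by decide +kernel

theorem ca416_k24_ok : chka416 2294253578268947968552013995222216900286308649262907392 = true := by decide +kernel

theorem ca416_k36_ok : chka416 7748297454617934063775417245223862983911171857283863805952 = true := by decide +kernel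

theorem ca416_k48_ok : chka416 204131348434774858439939871908281500998645327484048020835663872 = true := by decide +kernel

theorem ca416_k60_ok : chka416 52655367473663405400544298203812060673742503460125629344930332672 = true := by decide +kernel

theorem ca416_k72_ok : chka416 28644942731245788184712350201722409404818620855938822181242550616064 = true := by decide +kernel

theorem ca416_k84_ok : chka416 13803492693581127574869511724554050904902178330259515978156251675623424 = true := by decide +kernel

theorem ca416_k96_ok : chka416 1918823519334712544182610824830258616290457316433448948519189296371755646976 = true := by decide +kernel

theorem ca416_k108_ok : chka416 7410692855371689505078633398646299180258122914663444554134999319422948576591872 = true := by decide +kernel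

theorem ca416_k120_ok : chka416 62842682670489747784860173411818755021839172652399184804387279181221918958778580992 = true := by decide +kernel

theorem ca416_k132_ok : chka416 31581968180913677505937692219229946865285607982470632196990714345125075851901161325985792 = true := by decide +kernel

theorem ca416_k144_ok : chka416 20368374355737006167573977194025007974192095396869851219770685141261059551385239008174931968 = true := by decide +kernel

theorem ca416_k156_ok : chka416 58405895023909824224605148906369290114140937309303200737100259608432093371448364165434219429888 = true := by decide +kernel

theorem ca416_k168_ok : chka416 341757925747112492916136385498618002907613901308267354370840400509004938635732675791299146711826432 = true := by decide +kernel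

theorem ca416_k180_ok : chka416 2293778584082843737137140575587157996331330194855435454929451338024543350072382328188191162796509759537152 = true := by decide +kernel

theorem ca416_k192_ok : chka416 585989176353556043442091058429968284429057119938182981446145810961996415314591765982007912929323497994321920 = true := by decide +kernel

theorem ca416_k204_ok : chka416 75153291116914959988841404418945949221332709055013167931013790220628776772564584374448174846537656860727574528 = true := by decide +kernel

theorem ca416_k216_ok : chka416 38478521389759124699754536672763566228833370816508494802787446002247606381732859210546163498956340978094658420736 = true := by decide +kernel

theorem ca416_k228_ok : chka416 39402006196108351821465825612244900553737120513935406455676566926162248163849086199871000694112508541040082817118208 = true := by decide +kernel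

theorem ca416_k240_ok : chka416 161390617380431715461631291332679030627133918932665104424465985429336551438899981443486940712378480449273849942015737824 = true := by decide +kernel

theorem ca416_k252_ok : chka416 366679482688341019660588563045826853522258790743843744061121795465880501977041792957050196223604502284400609381803936972796 = true := by decide +kernel

end Vale.Agent.Lib.Helper3.BinPacking
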