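import Vale.Agent.Lib.Helper3.P302Any416I

/-!
Kernel evaluation of the third table check on some blocks and keys.
-/

namespace Vale.Agent.Lib.Helper3.BinPacking

theorem ca416_b11_ok : ca416_b11.all chka416 = true := by decide +kernel

theorem ca416_b25_ok : ca416_b25.all chka416 = true := by decide +kernel

theorem ca416_b38_ok : ca416_b38.all chka416 = true := by decide +kernel

theorem ca416_b52_ok : ca416_b52.all chka416 = true := by decide +kernel

theorem ca416_b66_ok : ca416_b66.all chka416 = true := by decide +kernel

theorem ca416_b80_ok : ca416_b80.all chka416 = true := by decide +kernel

theorem ca416_b93_ok : ca416_b93.all chka416 = true := by decide +kernel

theorem ca416_b107_ok : ca416_b107.all chka416 = true := by decide +kernel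

theorem ca416_b121_ok : ca416_b121.all chka416 = true := by decide +kernel

theorem ca416_b136_ok : ca416_b136.all chka416 = true := by decide +kernel

theorem ca416_b149_ok : ca416_b149.all chka416 = true := by decide +kernel

theorem ca416_b163_ok : ca416_b163.all chka416 = true := by decide +kernel

theorem ca416_b177_ok : ca416_b177.all chka416 = true := by decide +kernel

theorem ca416_b192_ok : ca416_b192.all chka416 = true := by decide +kernel

theorem ca416_b205_ok : ca416_b205.all chka416 = true := by decide +kernel

theorem ca416_b219_ok : ca416_b219.all chka416 = true := by decide +kernel

theorem ca416_b233_ok : ca416_b233.all chka416 = true := by decide +kernel

theorem ca416_b246_ok : ca416_b246.all chka416 = true := by decide +kernel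

theorem ca416_b47_ok : ca416_b47.all chka416 = true := by decide +kernel

theorem ca416_b103_ok : ca416_b103.all chka416 = true := by decide +kernel

theorem ca416_b187_ok : ca416_b187.all chka416 = true := by decide +kernel

theorem ca416_k1_ok : chka416 24245091420527511846688363709544890524783083520 = true := by decide +kernel

theorem ca416_k9_ok : chka416 3279797688268823522862365186391139814342463062016 = true := by decide +kernel

theorem ca416_k17_ok : chka416 3180227562826600232140483180575217857052400922132480 = true := by decide +kernel

theorem ca416_k25_ok : chka416 3826000830296527147722276866061273444119665683434831872 = true := by decide +kernel

theorem ca416_k37_ok : chka416 11769565753850026428108384458464166739663195217423776088064 = true := by decide +kernel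

theorem ca416_k49_ok : chka416 405048820781031736328795819766880395114151767322323360560447488 = true := by decide +kernel

theorem ca416_k61_ok : chka416 118474821622710342231774460554533954733505044123041206538713694208 = true := by decide +kernel

theorem ca416_k73_ok : chka416 41282417631039022822275621302390260367470306221625892470689208729600 = true := by decide +kernel

theorem ca416_k85_ok : chka416 1332037044930578810974907881419465912323064021725364290863324976000270336 = true := by decide +kernel

theorem ca416_k97_ok : chka416 3618088683885323673159347196169760498887539954223937456098971811617836105728 = true := by decide +kernel

theorem ca416_k109_ok : chka416 22232080277748162519295719479758351385476680951865466461746512921562426749485056 = true := by decide +kernel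

theorem ca416_k121_ok : chka416 65451246856828007035362380562094476209957638866946735431068189078485151682597486592 = true := by decide +kernel

theorem ca416_k133_ok : chka416 63161993692935129282804464976553070211664573558102212254460176877840703912197030672334848 = true := by decide +kernel

theorem ca416_k145_ok : chka416 32592330845071356938432195162349790813441257355393259440598569461306472522887188363597578240 = true := by decide +kernel

theorem ca416_k157_ok : chka416 133499189500280599729246993699744806902905650410347536401120520811160369233016725910423326425088 = true := by decide +kernel

theorem ca416_k169_ok : chka416 888570606942982034142795486022278511960315670165969007887626180482768297180161857851270013919428608 = true := by decide +kernel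

theorem ca416_k181_ok : chka416 4515465384276839401246963477768519192460619925268630627954309276861814649291153225946935331278614945595392 = true := by decide +kernel

theorem ca416_k193_ok : chka416 1171978072739019314658655797179651497802579474670678808561099759425355210155199634443897653248960610909028352 = true := by decide +kernel

theorem ca416_k205_ok : chka416 150306653905661669667417546676044876632882318002682247370812697240908784386469046514046601881155098687761809408 = true := by decide +kernel

theorem ca416_k217_ok : chka416 48098150949578668883229708922113895809894730342420719116562081995635215691367638813484231924601225228571771404288 = true := by decide +kernel

theorem ca416_k229_ok : chka416 78804012392646174697244245181864190664773240218200638435447877900641569237807979491040797249501800341416093662836736 = true := by decide +kernel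

theorem ca416_k241_ok : chka416 322781234760863502175142193196754509612900388448963806593779351635961431883703237297602783343627035827712954860300140528 = true := by decide +kernel

theorem ca416_k253_ok : chka416 1322111937580497197834398529058030149129528655230940665947526580134537446890723029520500872872845580388375221758360608047103 = true := by decide +kernel

end Vale.Agent.Lib.Helper3.BinPacking
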