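import Vale.Agent.Lib.Helper3.P302Core122
import Vale.Agent.Lib.Helper3.P302LP122
import Vale.Agent.Lib.Helper8.P302Glue

/-!
Assembly for the instance with 122 items: the optimum is at least 42, the linear programming
value is at most `2935 / 72`, hence the gap is at least `89 / 72`.
-/

namespace Vale.Agent.Lib.Helper3.BinPacking

theorem wts122_sorted : wts122.Pairwise (fun x y => x ≤ y) := by decide +kernel

theorem wts122_big : ∀ w, w ∈ wts122 → cap122 < 4 * w := by decide +kernel

theorem wts122_le_cap : ∀ w, w ∈ wts122 → w ≤ cap122 := by decide +kernel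

theorem wts122_length : wts122.length = 122 := by decide +kernel

theorem inst122_pos_le (i : Fin 122) : 0 < inst122 i ∧ inst122 i ≤ 1 := by
  have hi : (i : ℕ) < wts122.length := by
    rw [wts122_length]
    exact i.2
  have hmem : wts122.getD (i : ℕ) 0 ∈ wts122 := by
    rw [List.getD_eq_getElem _ _ hi]
    exact List.getElem_mem hi
  have h1 := wts122_big _ hmem
  have h2 := wts122_le_cap _ hmem
  have hcap : (0 : ℚ) < (cap122 : ℚ) := by
    have : 0 < cap122 := by decide
    exact_mod_cast this
  have hpos : 0 < wts122.getD (i : ℕ) 0 := by omega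
  unfold inst122
  constructor
  · apply div_pos _ hcap
    exact_mod_cast hpos
  · rw [div_le_one hcap]
    exact_mod_cast h2

/-- The optimum of the instance with 122 items is at least 42. -/
theorem opt_inst122_ge : 42 ≤ opt inst122 := by
  apply succ_le_opt inst122 (fun i => (inst122_pos_le i).2) 41
  intro hpack
  apply not_packable_120
  exact Vale.Agent.Lib.Helper8.P302Glue.packable_of_packing 122 40 cap122 wts122
    wts122_length (by norm_num) wts122_sorted wts122_big (by decide) inst122
    (fun i => rfl) hpack

/-- The gap statement for the instance with 122 items. -/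
theorem gap122 : ∃ (n : ℕ) (a : Fin n → ℚ), (∀ i, 0 < a i ∧ a i ≤ 1) ∧
    (89 / 72 : ℝ) ≤ (opt a : ℝ) - lp a := by
  refine ⟨122, inst122, inst122_pos_le, ?_⟩
  have h1 : (42 : ℝ) ≤ (opt inst122 : ℝ) := by exact_mod_cast opt_inst122_ge
  have h2 := lp_inst122_le
  linarith

end Vale.Agent.Lib.Helper3.BinPacking
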