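import Vale.Agent.Lib.Helper3.P302Cert122Data

/-!
Kernel evaluation of the table check on some blocks.
-/

namespace Vale.Agent.Lib.Helper3.BinPacking

theorem c122_t0_ok : c122_t0.all chk122 = true := by decide +kernel

theorem c122_t1_ok : c122_t1.all chk122 = true := by decide +kernel

theorem c122_t2_ok : c122_t2.all chk122 = true := by decide +kernel

theorem c122_t3_ok : c122_t3.all chk122 = true := by decide +kernel

end Vale.Agent.Lib.Helper3.BinPacking
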