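import Vale.Agent.Lib.Helper3.P302Cert122Data

/-!
Kernel evaluation of the table check on some blocks.
-/

namespace Vale.Agent.Lib.Helper3.BinPacking

theorem c122_t4_ok : c122_t4.all chk122 = true := by decide +kernel

theorem c122_t5_ok : c122_t5.all chk122 = true := by decide +kernel

theorem c122_t6_ok : c122_t6.all chk122 = true := by decide +kernel

theorem c122_t7_ok : c122_t7.all chk122 = true := by decide +kernel

end Vale.Agent.Lib.Helper3.BinPacking
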