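import Vale.Agent.Lib.Helper3.P302Cert122Data

/-!
Kernel evaluation of the table check on some blocks.
-/

namespace Vale.Agent.Lib.Helper3.BinPacking

theorem c122_t8_ok : c122_t8.all chk122 = true := by decide +kernel

theorem c122_t9_ok : c122_t9.all chk122 = true := by decide +kernel

theorem c122_t10_ok : c122_t10.all chk122 = true := by decide +kernel

theorem c122_t11_ok : c122_t11.all chk122 = true := by decide +kernel

end Vale.Agent.Lib.Helper3.BinPacking
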