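import Vale.Agent.Lib.Helper3.P302CertData

/-!
Kernel evaluation of the table check on some blocks.
-/

namespace Vale.Agent.Lib.Helper3.BinPacking

theorem c65_t8_ok : c65_t8.all chk_c65 = true := by decide +kernel

theorem c65_t9_ok : c65_t9.all chk_c65 = true := by decide +kernel

theorem c65_t10_ok : c65_t10.all chk_c65 = true := by decide +kernel

theorem c65_t11_ok : c65_t11.all chk_c65 = true := by decide +kernel

end Vale.Agent.Lib.Helper3.BinPacking
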