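import Vale.Agent.Lib.Helper3.P302CertData

/-!
Kernel evaluation of the table check on some blocks.
-/

namespace Vale.Agent.Lib.Helper3.BinPacking

theorem c65_t12_ok : c65_t12.all chk_c65 = true := by decide +kernel

theorem c65_t13_ok : c65_t13.all chk_c65 = true := by decide +kernel

theorem c65_t14_ok : c65_t14.all chk_c65 = true := by decide +kernel

theorem c65_t15_ok : c65_t15.all chk_c65 = true := by decide +kernel

end Vale.Agent.Lib.Helper3.BinPacking
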