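import Vale.Agent.Lib.Helper3.P302Inst

namespace Vale.Agent.Lib.Helper3.BinPacking

open Finset

/-- Binary trees of natural numbers, used as lookup tables. -/
inductive NatTree where
  | leaf : NatTree
  | node : NatTree → ℕ → NatTree → NatTree

namespace NatTree

/-- Search for a key, following comparisons. -/
def contains : NatTree → ℕ → Bool
  | leaf, _ => false
  | node l k r, m => if m < k then l.contains m else if k < m then r.contains m else true

/-- All keys satisfy `p`. -/
def all (p : ℕ → Bool) : NatTree → Bool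
  | leaf => true
  | node l k r => p k && (l.all p && r.all p)

/-- `m` is a key of the tree. -/
def Mem (m : ℕ) : NatTree → Prop
  | leaf => False
  | node l k r => m = k ∨ l.Mem m ∨ r.Mem m

theorem mem_of_contains : ∀ (t : NatTree) (m : ℕ), t.contains m = true → t.Mem m
  | leaf, m, h => by simp [contains] at h
  | node l k r, m, h => by
    unfold contains at h
    unfold Mem
    by_cases h1 : m < k
    · rw [if_pos h1] at h
      exact Or.inr (Or.inl (mem_of_contains l m h))
    · rw [if_neg h1] at h
      by_cases h2 : k < m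
      · rw [if_pos h2] at h
        exact Or.inr (Or.inr (mem_of_contains r m h))
      · exact Or.inl (by omega)

theorem all_mem (p : ℕ → Bool) : ∀ (t : NatTree), t.all p = true → ∀ m, t.Mem m → p m = true
  | leaf, _, m, hm => by simp [Mem] at hm
  | node l k r, h, m, hm => by
    unfold all at h
    simp only [Bool.and_eq_true] at h
    unfold Mem at hm
    rcases hm with rfl | hm | hm
    · exact h.1
    · exact all_mem p l h.2.1 m hm
    · exact all_mem p r h.2.2 m hm

end NatTree

/-- The weights of the indices `i - 1, ..., 0`, in this order. -/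
def desc (wt : ℕ → ℕ) : ℕ → List ℕ
  | 0 => []
  | i + 1 => wt i :: desc wt i

/-- The weights of the indices `y, y + 1, ..., y + k - 1`, in this order. -/
def ascFrom (wt : ℕ → ℕ) : ℕ → ℕ → List ℕ
  | _, 0 => []
  | y, k + 1 => wt y :: ascFrom wt (y + 1) k

/-- Move a pointer down. The candidates are the indices below `p`, with weights `desc wt p`.
Stop at the first candidate above `y` that lies in the mask `M` and has weight at most `B`,
or when the top candidate is at most `y`. -/
def scanZ (M y B : ℕ) : ℕ → List ℕ → ℕ × List ℕ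
  | p + 1, w :: t =>
      if p ≤ y then (p + 1, w :: t)
      else if (M.testBit p && decide (w ≤ B)) = true then (p + 1, w :: t)
      else scanZ M y B p t
  | p, l => (p, l)

/-- For the indices `y` of the mask in increasing order: the largest admissible partner `z`
above `y` is found by moving the pointer down; the mask with `x`, `y`, `z` removed must be a key
of the tree. The loop stops as soon as no partner above `y` exists. -/
def loopUp (T : NatTree) (C M x wx : ℕ) : ℕ → List ℕ → ℕ → List ℕ → Bool
  | y, wy :: asc, q, dl =>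
      if x ≤ y then true
      else if M.testBit y = true then
        (if wx + wy ≤ C then
          (match scanZ M y (C - wx - wy) q dl with
            | (q', dl') =>
              if q' ≤ y + 1 then true
              else (T.contains (M ^^^ 2 ^ x ^^^ 2 ^ y ^^^ 2 ^ (q' - 1)) &&
                loopUp T C M x wx (y + 1) asc q' dl'))
        else true)
      else loopUp T C M x wx (y + 1) asc q dl
  | _, [], _, _ => true

/-- Find the top index `x` of the mask below `i` and run `loopUp` for it. -/
def check (T : NatTree) (C M : ℕ) (asc : List ℕ) : ℕ → List ℕ → Bool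
  | i + 1, w :: t => if M.testBit i = true then loopUp T C M i w 0 asc i t else check T C M asc i t
  | _, _ => false

theorem scanZ_spec (wt : ℕ → ℕ) (M y B : ℕ) : ∀ p : ℕ, ∃ q : ℕ,
    scanZ M y B p (desc wt p) = (q, desc wt q) ∧ q ≤ p ∧
    (∀ j, q ≤ j → j < p → ¬ (M.testBit j = true ∧ wt j ≤ B)) ∧
    (q ≤ y + 1 ∨ ∃ z, q = z + 1 ∧ y < z ∧ M.testBit z = true ∧ wt z ≤ B)
  | 0 => ⟨0, by simp [scanZ, desc], le_refl 0, fun j h1 h2 => by omega, Or.inl (by omega)⟩
  | p + 1 => by
    by_cases h1 : p ≤ y
    · refine ⟨p + 1, ?_, le_refl _, fun j h2 h3 => by omega, Or.inl (by omega)⟩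
      simp only [desc, scanZ]
      rw [if_pos h1]
    · by_cases h2 : (M.testBit p && decide (wt p ≤ B)) = true
      · refine ⟨p + 1, ?_, le_refl _, fun j h3 h4 => by omega, Or.inr ⟨p, rfl, by omega, ?_⟩⟩
        · simp only [desc, scanZ]
          rw [if_neg h1, if_pos h2]
        · simpa using h2
      · obtain ⟨q, hq1, hq2, hq3, hq4⟩ := scanZ_spec wt M y B p
        refine ⟨q, ?_, by omega, ?_, hq4⟩
        · simp only [desc, scanZ]
          rw [if_neg h1, if_neg h2]
          exact hq1
        · intro j hj1 hj2
          by_cases hjp : j = p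
          · subst hjp
            simpa using h2
          · exact hq3 j hj1 (by omega)

theorem loopUp_spec (wt : ℕ → ℕ) (T : NatTree) (C M x : ℕ)
    (hmono : ∀ i j, i ≤ j → j ≤ x → wt i ≤ wt j) :
    ∀ (k y q : ℕ), q ≤ x →
      (∀ j, q ≤ j → j < x → M.testBit j = true → C < wt x + wt y + wt j) →
      loopUp T C M x (wt x) y (ascFrom wt y k) q (desc wt q) = true →
      ∀ y0 z0, y ≤ y0 → y0 < y + k → M.testBit y0 = true → y0 < z0 → z0 < x →
        M.testBit z0 = true → wt x + wt y0 + wt z0 ≤ C →
        (∀ j, j < x → M.testBit j = true → j ≠ y0 → wt x + wt y0 + wt j ≤ C → j ≤ z0) →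
        T.contains (M ^^^ 2 ^ x ^^^ 2 ^ y0 ^^^ 2 ^ z0) = true
  | 0, y, q, _, _, _, y0, z0, h1, h2, _, _, _, _, _, _ => by omega
  | k + 1, y, q, hqx, hinv, h, y0, z0, hy1, hy2, hy0b, hyz, hzx, hz0b, hsum, hzmax => by
    simp only [ascFrom, loopUp] at h
    have hyx : ¬ x ≤ y := by omega
    rw [if_neg hyx] at h
    have hwy : wt y ≤ wt y0 := hmono y y0 hy1 (by omega)
    by_cases hb : M.testBit y = true
    · rw [if_pos hb] at h
      by_cases hc : wt x + wt y ≤ C
      · rw [if_pos hc] at h
        obtain ⟨q', hs1, hs2, hs3, hs4⟩ := scanZ_spec wt M y (C - wt x - wt y) q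
        rw [hs1] at h
        simp only [] at h
        have hinf : ∀ j, q' ≤ j → j < x → M.testBit j = true → C < wt x + wt y + wt j := by
          intro j hj1 hj2 hj3
          by_cases hjq : q ≤ j
          · exact hinv j hjq hj2 hj3
          · have := hs3 j hj1 (by omega)
            have h4 : ¬ wt j ≤ C - wt x - wt y := fun h5 => this ⟨hj3, h5⟩
            omega
        by_cases hq' : q' ≤ y + 1
        · exfalso
          have := hinf z0 (by omega) hzx hz0b
          omega
        · rw [if_neg hq'] at h
          simp only [Bool.and_eq_true] at h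
          rcases hs4 with hs4 | ⟨z, hz1, hz2, hz3, hz4⟩
          · exact absurd hs4 hq'
          · by_cases hy0y : y0 = y
            · subst hy0y
              have hzle : z ≤ z0 := hzmax z (by omega) hz3 (by omega) (by omega)
              have hz0le : z0 ≤ z := by
                by_contra hlt
                have := hinf z0 (by omega) hzx hz0b
                omega
              have hzz : z0 = z := le_antisymm hz0le hzle
              have hq1 : q' - 1 = z0 := by omega
              rw [hq1] at h
              exact h.1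
            · refine loopUp_spec wt T C M x hmono k (y + 1) q' (by omega) ?_ h.2 y0 z0 (by omega)
                (by omega) hy0b hyz hzx hz0b hsum hzmax
              intro j hj1 hj2 hj3
              have h5 := hinf j hj1 hj2 hj3
              have h6 : wt y ≤ wt (y + 1) := hmono y (y + 1) (by omega) (by omega)
              omega
      · exfalso
        omega
    · rw [if_neg hb] at h
      have hy0y : y0 ≠ y := by
        rintro rfl
        exact hb hy0b
      refine loopUp_spec wt T C M x hmono k (y + 1) q hqx ?_ h y0 z0 (by omega)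
        (by omega) hy0b hyz hzx hz0b hsum hzmax
      intro j hj1 hj2 hj3
      have h5 := hinv j hj1 hj2 hj3
      have h6 : wt y ≤ wt (y + 1) := hmono y (y + 1) (by omega) (by omega)
      omega

theorem check_spec (wt : ℕ → ℕ) (T : NatTree) (C M : ℕ) (asc : List ℕ) : ∀ (i : ℕ),
    check T C M asc i (desc wt i) = true →
    ∃ x, x < i ∧ M.testBit x = true ∧ (∀ j, x < j → j < i → M.testBit j = false) ∧
      loopUp T C M x (wt x) 0 asc x (desc wt x) = true
  | 0, h => by simp [check] at h
  | i + 1, h => by
    simp only [desc, check] at h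
    by_cases hb : M.testBit i = true
    · rw [if_pos hb] at h
      exact ⟨i, by omega, hb, fun j h1 h2 => by omega, h⟩
    · rw [if_neg hb] at h
      obtain ⟨x, h1, h2, h3, h4⟩ := check_spec wt T C M asc i h
      refine ⟨x, by omega, h2, ?_, h4⟩
      intro j hj1 hj2
      by_cases hji : j = i
      · subst hji; simpa using hb
      · exact h3 j hj1 (by omega)

theorem branch (wt : ℕ → ℕ) (C : ℕ) (A : Finset ℕ)
    (hmono : ∀ i ∈ A, ∀ j ∈ A, i ≤ j → wt i ≤ wt j) (x : ℕ) (hx : x ∈ A)
    (hmax : ∀ j ∈ A, j ≤ x) (h : Packable wt C A) :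
    ∃ y z, y ∈ A ∧ z ∈ A ∧ y < z ∧ z < x ∧ wt x + wt y + wt z ≤ C ∧
      (∀ j ∈ A, j ≠ x → j ≠ y → wt x + wt y + wt j ≤ C → j ≤ z) ∧
      Packable wt C (A \ {x, y, z}) := by
  obtain ⟨P, hP, hdisj, hU⟩ := h
  have hxU : x ∈ P.biUnion id := by rw [hU]; exact hx
  obtain ⟨T, hT, hxT⟩ := mem_biUnion.mp hxU
  simp only [id] at hxT
  have hTA : T ⊆ A := by
    rw [← hU]; exact subset_biUnion_of_mem id hT
  have hcard : (T.erase x).card = 2 := by
    rw [card_erase_of_mem hxT, (hP T hT).1]
  obtain ⟨a, b, hab, hTe⟩ := card_eq_two.mp hcard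
  obtain ⟨y0, z0, hyz, hTe'⟩ : ∃ y0 z0, y0 < z0 ∧ T.erase x = {y0, z0} := by
    rcases lt_or_gt_of_ne hab with h1 | h1
    · exact ⟨a, b, h1, hTe⟩
    · exact ⟨b, a, h1, by rw [hTe, pair_comm]⟩
  have hy0T : y0 ∈ T.erase x := by rw [hTe']; simp
  have hz0T : z0 ∈ T.erase x := by rw [hTe']; simp
  have hy0 : y0 ∈ T ∧ y0 ≠ x := ⟨mem_of_mem_erase hy0T, ne_of_mem_erase hy0T⟩
  have hz0 : z0 ∈ T ∧ z0 ≠ x := ⟨mem_of_mem_erase hz0T, ne_of_mem_erase hz0T⟩
  have hTeq : T = {x, y0, z0} := by
    rw [← insert_erase hxT, hTe']
  have hmemT : ∀ i, i ∈ T ↔ (i = x ∨ i = y0 ∨ i = z0) := by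
    intro i; rw [hTeq]; simp
  have hsumT : wt x + wt y0 + wt z0 ≤ C := by
    have h1 := (hP T hT).2
    rw [hTeq] at h1
    rw [sum_insert, sum_pair (ne_of_lt hyz)] at h1
    · omega
    · simp only [mem_insert, mem_singleton, not_or]
      exact ⟨hy0.2.symm, hz0.2.symm⟩
  set S := A.filter (fun j => j ≠ x ∧ j ≠ y0 ∧ wt x + wt y0 + wt j ≤ C) with hS
  have hz0S : z0 ∈ S := by
    simp only [hS, mem_filter]
    exact ⟨hTA hz0.1, hz0.2, (ne_of_lt hyz).symm, hsumT⟩
  set z := S.max' ⟨z0, hz0S⟩ with hz
  have hzS : z ∈ S := max'_mem S _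
  have hzz0 : z0 ≤ z := le_max' S z0 hz0S
  simp only [hS, mem_filter] at hzS
  obtain ⟨hzA, hzx, hzy, hzsum⟩ := hzS
  have hzltx : z < x := lt_of_le_of_ne (hmax z hzA) hzx
  refine ⟨y0, z, hTA hy0.1, hzA, lt_of_lt_of_le hyz hzz0, hzltx, hzsum, ?_, ?_⟩
  · intro j hjA hjx hjy hjs
    exact le_max' S j (by simp only [hS, mem_filter]; exact ⟨hjA, hjx, hjy, hjs⟩)
  · have hrest : ∀ i, (∃ U ∈ P.erase T, i ∈ U) ↔ (i ∈ A ∧ i ∉ T) := by
      intro i
      constructor
      · rintro ⟨U, hU1, hiU⟩
        have hUP : U ∈ P := mem_of_mem_erase hU1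
        have hUT : U ≠ T := ne_of_mem_erase hU1
        refine ⟨?_, disjoint_left.mp (hdisj U hUP T hT hUT) hiU⟩
        rw [← hU]; exact mem_biUnion.mpr ⟨U, hUP, hiU⟩
      · rintro ⟨hiA, hiT⟩
        rw [← hU] at hiA
        obtain ⟨U, hUP, hiU⟩ := mem_biUnion.mp hiA
        simp only [id] at hiU
        refine ⟨U, mem_erase.mpr ⟨?_, hUP⟩, hiU⟩
        rintro rfl
        exact hiT hiU
    refine ⟨(P.erase T).image (fun U => U.map (Equiv.swap z0 z).toEmbedding), ?_, ?_, ?_⟩
    · intro U' hU'
      obtain ⟨U, hU1, rfl⟩ := mem_image.mp hU'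
      have hUP : U ∈ P := mem_of_mem_erase hU1
      have hUT : U ≠ T := ne_of_mem_erase hU1
      refine ⟨by rw [card_map]; exact (hP U hUP).1, ?_⟩
      rw [sum_map]
      refine le_trans (sum_le_sum ?_) (hP U hUP).2
      intro i hi
      have hiz0 : i ≠ z0 := by
        intro he; subst he
        exact (disjoint_left.mp (hdisj U hUP T hT hUT) hi) hz0.1
      show wt (Equiv.swap z0 z i) ≤ wt i
      by_cases hiz : i = z
      · subst hiz; rw [Equiv.swap_apply_right]; exact hmono z0 (hTA hz0.1) z hzA hzz0
      · rw [Equiv.swap_apply_of_ne_of_ne hiz0 hiz]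
    · intro U1' h1 U2' h2 hne
      obtain ⟨U1, hU1, rfl⟩ := mem_image.mp h1
      obtain ⟨U2, hU2, rfl⟩ := mem_image.mp h2
      have hne' : U1 ≠ U2 := by rintro rfl; exact hne rfl
      rw [disjoint_map]
      exact hdisj U1 (mem_of_mem_erase hU1) U2 (mem_of_mem_erase hU2) hne'
    · ext j
      have key : j ∈ ((P.erase T).image (fun U => U.map (Equiv.swap z0 z).toEmbedding)).biUnion id ↔
          (Equiv.swap z0 z j ∈ A ∧ Equiv.swap z0 z j ∉ T) := by
        rw [← hrest]
        simp only [mem_biUnion, mem_image, id]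
        constructor
        · rintro ⟨U', ⟨U, hU1, rfl⟩, hj⟩
          rw [mem_map_equiv, Equiv.symm_swap] at hj
          exact ⟨U, hU1, hj⟩
        · rintro ⟨U, hU1, hj⟩
          refine ⟨_, ⟨U, hU1, rfl⟩, ?_⟩
          rw [mem_map_equiv, Equiv.symm_swap]
          exact hj
      rw [key]
      simp only [mem_sdiff, mem_insert, mem_singleton, not_or, hmemT]
      by_cases hj0 : j = z0
      · subst hj0
        rw [Equiv.swap_apply_left]
        constructor
        · rintro ⟨_, _, _, h3⟩
          exact ⟨hTA hz0.1, hz0.2, (ne_of_lt hyz).symm, fun he => h3 he.symm⟩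
        · rintro ⟨_, _, _, h3⟩
          exact ⟨hzA, hzx, hzy, fun he => h3 he.symm⟩
      · by_cases hjz : j = z
        · subst hjz
          rw [Equiv.swap_apply_right]
          constructor
          · rintro ⟨_, _, _, h3⟩
            exact absurd rfl h3
          · rintro ⟨_, _, _, h3⟩
            exact absurd rfl h3
        · rw [Equiv.swap_apply_of_ne_of_ne hj0 hjz]
          constructor
          · rintro ⟨h0, h1, h2, _⟩
            exact ⟨h0, h1, h2, hjz⟩
          · rintro ⟨h0, h1, h2, _⟩
            exact ⟨h0, h1, h2, hj0⟩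


/-- The set of indices below `n` in the mask `M`. -/
def bits (n M : ℕ) : Finset ℕ := (range n).filter (fun i => M.testBit i = true)

theorem mem_bits (n M j : ℕ) : j ∈ bits n M ↔ j < n ∧ M.testBit j = true := by
  simp [bits]

theorem bits_xor3 (n M x y z : ℕ) (hx : x ∈ bits n M) (hy : y ∈ bits n M) (hz : z ∈ bits n M)
    (hxy : x ≠ y) (hxz : x ≠ z) (hyz : y ≠ z) :
    bits n (M ^^^ 2 ^ x ^^^ 2 ^ y ^^^ 2 ^ z) = bits n M \ {x, y, z} := by
  rw [mem_bits] at hx hy hz
  ext j
  simp only [mem_bits, mem_sdiff, mem_insert, mem_singleton, Nat.testBit_xor, Nat.testBit_two_pow]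
  by_cases h1 : j = x
  · subst h1
    have e2 : decide (y = j) = false := by simp; exact fun h => hxy h.symm
    have e3 : decide (z = j) = false := by simp; exact fun h => hxz h.symm
    simp [hx.2, e2, e3]
  · by_cases h2 : j = y
    · subst h2
      have e1 : decide (x = j) = false := by simp; exact hxy
      have e3 : decide (z = j) = false := by simp; exact fun h => hyz h.symm
      simp [hy.2, e1, e3]
    · by_cases h3 : j = z
      · subst h3
        have e1 : decide (x = j) = false := by simp; exact hxz
        have e2 : decide (y = j) = false := by simp; exact hyz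
        simp [hz.2, e1, e2]
      · have e1 : decide (x = j) = false := by simp; exact fun h => h1 h.symm
        have e2 : decide (y = j) = false := by simp; exact fun h => h2 h.symm
        have e3 : decide (z = j) = false := by simp; exact fun h => h3 h.symm
        simp [e1, e2, e3, h1, h2, h3]

/-- Soundness of the table check: no mask in a table that passes the check is packable. -/
theorem check_sound (wt : ℕ → ℕ) (C n : ℕ) (hmono : ∀ i j, i ≤ j → j < n → wt i ≤ wt j)
    (T : NatTree)
    (hall : T.all (fun M => check T C M (ascFrom wt 0 n) n (desc wt n)) = true) :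
    ∀ M, T.Mem M → ¬ Packable wt C (bits n M) := by
  have main : ∀ c M, T.Mem M → (bits n M).card = c → ¬ Packable wt C (bits n M) := by
    intro c
    induction c using Nat.strong_induction_on with
    | _ c ih =>
      intro M hM hc hpack
      have hchk : check T C M (ascFrom wt 0 n) n (desc wt n) = true :=
        NatTree.all_mem _ T hall M hM
      obtain ⟨x, hxn, hxb, hxtop, hloop⟩ := check_spec wt T C M (ascFrom wt 0 n) n hchk
      have hxA : x ∈ bits n M := (mem_bits n M x).mpr ⟨hxn, hxb⟩
      have hmax : ∀ j ∈ bits n M, j ≤ x := by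
        intro j hj
        rw [mem_bits] at hj
        by_contra hlt
        have := hxtop j (by omega) hj.1
        rw [hj.2] at this
        exact Bool.noConfusion this
      obtain ⟨y, z, hyA, hzA, hyz, hzx, hsum, hzmax, hpack'⟩ :=
        branch wt C (bits n M)
          (fun i _ j hj hij => hmono i j hij ((mem_bits n M j).mp hj).1) x hxA hmax hpack
      have hyb := (mem_bits n M y).mp hyA
      have hzb := (mem_bits n M z).mp hzA
      have hcont : T.contains (M ^^^ 2 ^ x ^^^ 2 ^ y ^^^ 2 ^ z) = true := by
        refine loopUp_spec wt T C M x (fun i j hij hj => hmono i j hij (by omega)) n 0 x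
          (le_refl x) (fun j h1 h2 _ => by omega) hloop y z (Nat.zero_le y) (by omega) hyb.2 hyz
          hzx hzb.2 hsum ?_
        intro j hj1 hj2 hj3 hj4
        exact hzmax j ((mem_bits n M j).mpr ⟨by omega, hj2⟩) (by omega) hj3 hj4
      have hM' := NatTree.mem_of_contains T _ hcont
      have hbits := bits_xor3 n M x y z hxA hyA hzA (by omega) (by omega) (by omega)
      have hsub : ({x, y, z} : Finset ℕ) ⊆ bits n M := by
        intro j hj
        simp only [mem_insert, mem_singleton] at hj
        rcases hj with rfl | rfl | rfl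
        · exact hxA
        · exact hyA
        · exact hzA
      have hcard3 : ({x, y, z} : Finset ℕ).card = 3 := by
        rw [card_insert_of_notMem, card_pair (by omega)]
        simp only [mem_insert, mem_singleton, not_or]
        omega
      have hcard' : (bits n (M ^^^ 2 ^ x ^^^ 2 ^ y ^^^ 2 ^ z)).card < c := by
        rw [hbits, card_sdiff_of_subset hsub, hcard3, hc]
        have : 3 ≤ (bits n M).card := by
          rw [← hcard3]; exact card_le_card hsub
        omega
      apply ih _ hcard' _ hM' rfl
      rw [hbits]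
      exact hpack'
  intro M hM
  exact main _ M hM rfl

end Vale.Agent.Lib.Helper3.BinPacking
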