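import Vale.Agent.Lib.Helper3.P302Check

/-!
A second table check with a stronger reduction: among the indices `y` with the same largest
admissible partner `z`, only the largest `y` is considered.
-/

namespace Vale.Agent.Lib.Helper3.BinPacking

open Finset

/-- Replacing an index `v` of a packable set by an index `u` outside the set that is not
heavier keeps the set packable. -/
theorem packable_swap (wt : ℕ → ℕ) (C : ℕ) (A : Finset ℕ) (u v : ℕ) (hu : u ∉ A) (hv : v ∈ A)
    (hw : wt u ≤ wt v) (h : Packable wt C A) : Packable wt C (insert u (A.erase v)) := by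
  obtain ⟨P, hP, hdisj, hU⟩ := h
  have hsub : ∀ U ∈ P, U ⊆ A := by
    intro U hUP
    rw [← hU]; exact subset_biUnion_of_mem id hUP
  refine ⟨P.image (fun U => U.map (Equiv.swap u v).toEmbedding), ?_, ?_, ?_⟩
  · intro U' hU'
    obtain ⟨U, hUP, rfl⟩ := mem_image.mp hU'
    refine ⟨by rw [card_map]; exact (hP U hUP).1, ?_⟩
    rw [sum_map]
    refine le_trans (sum_le_sum ?_) (hP U hUP).2
    intro i hi
    have hiu : i ≠ u := by
      rintro rfl
      exact hu (hsub U hUP hi)
    show wt (Equiv.swap u v i) ≤ wt i
    by_cases hiv : i = v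
    · subst hiv; rw [Equiv.swap_apply_right]; exact hw
    · rw [Equiv.swap_apply_of_ne_of_ne hiu hiv]
  · intro U1' h1 U2' h2 hne
    obtain ⟨U1, hU1, rfl⟩ := mem_image.mp h1
    obtain ⟨U2, hU2, rfl⟩ := mem_image.mp h2
    have hne' : U1 ≠ U2 := by rintro rfl; exact hne rfl
    rw [disjoint_map]
    exact hdisj U1 hU1 U2 hU2 hne'
  · ext j
    have key : j ∈ (P.image (fun U => U.map (Equiv.swap u v).toEmbedding)).biUnion id ↔
        Equiv.swap u v j ∈ A := by
      rw [← hU]
      simp only [mem_biUnion, mem_image, id]
      constructor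
      · rintro ⟨U', ⟨U, hU1, rfl⟩, hj⟩
        rw [mem_map_equiv, Equiv.symm_swap] at hj
        exact ⟨U, hU1, hj⟩
      · rintro ⟨U, hU1, hj⟩
        refine ⟨_, ⟨U, hU1, rfl⟩, ?_⟩
        rw [mem_map_equiv, Equiv.symm_swap]
        exact hj
    rw [key]
    simp only [mem_insert, mem_erase]
    by_cases hju : j = u
    · subst hju
      rw [Equiv.swap_apply_left]
      exact ⟨fun _ => Or.inl rfl, fun _ => hv⟩
    · by_cases hjv : j = v
      · subst hjv
        rw [Equiv.swap_apply_right]
        constructor
        · intro h1; exact absurd h1 hu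
        · rintro (h1 | ⟨h1, _⟩)
          · exact absurd h1 hju
          · exact absurd rfl h1
      · rw [Equiv.swap_apply_of_ne_of_ne hju hjv]
        constructor
        · intro h1; exact Or.inr ⟨hjv, h1⟩
        · rintro (h1 | ⟨_, h1⟩)
          · exact absurd h1 hju
          · exact h1

/-- The canonical triple through the largest index `x` of a packable set. -/
theorem branch2 (wt : ℕ → ℕ) (C : ℕ) (A : Finset ℕ)
    (hmono : ∀ i ∈ A, ∀ j ∈ A, i ≤ j → wt i ≤ wt j) (x : ℕ) (hx : x ∈ A)
    (hmax : ∀ j ∈ A, j ≤ x) (h : Packable wt C A) :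
    ∃ y z, y ∈ A ∧ z ∈ A ∧ y < z ∧ z < x ∧ wt x + wt y + wt z ≤ C ∧
      (∀ j ∈ A, j ≠ x → j ≠ y → wt x + wt y + wt j ≤ C → j ≤ z) ∧
      (∀ y' ∈ A, y < y' → y' < z → C < wt x + wt y' + wt z) ∧
      Packable wt C (A \ {x, y, z}) := by
  obtain ⟨y, z, hyA, hzA, hyz, hzx, hsum, hzmax, hpack⟩ := branch wt C A hmono x hx hmax h
  set S := A.filter (fun y' => y ≤ y' ∧ y' < z ∧ wt x + wt y' + wt z ≤ C) with hS
  have hyS : y ∈ S := by
    simp only [hS, mem_filter]
    exact ⟨hyA, le_refl y, hyz, hsum⟩
  set ys := S.max' ⟨y, hyS⟩ with hys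
  have hysS : ys ∈ S := max'_mem S _
  have hyys : y ≤ ys := le_max' S y hyS
  simp only [hS, mem_filter] at hysS
  obtain ⟨hysA, _, hysz, hyssum⟩ := hysS
  have hwy : wt y ≤ wt ys := hmono y hyA ys hysA hyys
  refine ⟨ys, z, hysA, hzA, hysz, hzx, hyssum, ?_, ?_, ?_⟩
  · intro j hjA hjx hjy hjs
    by_cases hjy0 : j = y
    · omega
    · exact hzmax j hjA hjx hjy0 (by omega)
  · intro y' hy'A h1 h2
    by_contra hcon
    have hy'S : y' ∈ S := by
      simp only [hS, mem_filter]
      exact ⟨hy'A, by omega, h2, by omega⟩
    have := le_max' S y' hy'S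
    omega
  · by_cases hyeq : ys = y
    · rw [hyeq]; exact hpack
    · have hu : y ∉ A \ {x, y, z} := by
        intro hmem
        rw [mem_sdiff] at hmem
        exact hmem.2 (by simp)
      have hv : ys ∈ A \ {x, y, z} := by
        simp only [mem_sdiff, mem_insert, mem_singleton, not_or]
        exact ⟨hysA, by omega, hyeq, by omega⟩
      have h2 := packable_swap wt C (A \ {x, y, z}) y ys hu hv hwy hpack
      have heq : insert y ((A \ {x, y, z}).erase ys) = A \ {x, ys, z} := by
        ext j
        simp only [mem_insert, mem_erase, mem_sdiff, mem_singleton, not_or]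
        constructor
        · rintro (rfl | ⟨h3, h4, h5, h6, h7⟩)
          · exact ⟨hyA, by omega, fun he => hyeq he.symm, by omega⟩
          · exact ⟨h4, h5, h3, h7⟩
        · rintro ⟨h3, h4, h5, h6⟩
          by_cases hjy : j = y
          · exact Or.inl hjy
          · exact Or.inr ⟨h5, h3, h4, hjy, h6⟩
      rw [heq] at h2
      exact h2

/-- The pending pair, if any, must lead to a key of the tree. -/
def pend (T : NatTree) (M x : ℕ) : Option (ℕ × ℕ) → Bool
  | none => true
  | some (py, pz) => T.contains (M ^^^ 2 ^ x ^^^ 2 ^ py ^^^ 2 ^ pz)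

/-- The pending pair is dropped if the new partner is the same, and checked otherwise. -/
def emit (T : NatTree) (M x z : ℕ) : Option (ℕ × ℕ) → Bool
  | none => true
  | some (py, pz) => if pz = z then true else T.contains (M ^^^ 2 ^ x ^^^ 2 ^ py ^^^ 2 ^ pz)

/-- As `loopUp`, but a pair `(y, z)` is only checked when the next index of the mask has a
different partner or none. -/
def loopUp2 (T : NatTree) (C M x wx : ℕ) :
    Option (ℕ × ℕ) → ℕ → List ℕ → ℕ → List ℕ → Bool
  | pd, y, wy :: asc, q, dl =>
      if x ≤ y then pend T M x pd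
      else if M.testBit y = true then
        (if wx + wy ≤ C then
          (match scanZ M y (C - wx - wy) q dl with
            | (q', dl') =>
              if q' ≤ y + 1 then pend T M x pd
              else (emit T M x (q' - 1) pd &&
                loopUp2 T C M x wx (some (y, q' - 1)) (y + 1) asc q' dl'))
        else pend T M x pd)
      else loopUp2 T C M x wx pd (y + 1) asc q dl
  | pd, _, [], _, _ => pend T M x pd

/-- Find the top index `x` of the mask below `i` and run `loopUp2` for it. -/
def check2 (T : NatTree) (C M : ℕ) (asc : List ℕ) : ℕ → List ℕ → Bool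
  | i + 1, w :: t =>
      if M.testBit i = true then loopUp2 T C M i w none 0 asc i t else check2 T C M asc i t
  | _, _ => false

theorem loopUp2_pend (wt : ℕ → ℕ) (T : NatTree) (C M x py pz : ℕ)
    (hcan : ∀ y', M.testBit y' = true → py < y' → y' < pz → C < wt x + wt y' + wt pz) :
    ∀ (k y q : ℕ), py < y →
      loopUp2 T C M x (wt x) (some (py, pz)) y (ascFrom wt y k) q (desc wt q) = true →
      T.contains (M ^^^ 2 ^ x ^^^ 2 ^ py ^^^ 2 ^ pz) = true
  | 0, y, q, _, h => by
    simpa [ascFrom, loopUp2, pend] using h
  | k + 1, y, q, hpy, h => by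
    simp only [ascFrom, loopUp2] at h
    by_cases hxy : x ≤ y
    · rw [if_pos hxy] at h
      simpa [pend] using h
    · rw [if_neg hxy] at h
      by_cases hb : M.testBit y = true
      · rw [if_pos hb] at h
        by_cases hc : wt x + wt y ≤ C
        · rw [if_pos hc] at h
          obtain ⟨q', hs1, hs2, hs3, hs4⟩ := scanZ_spec wt M y (C - wt x - wt y) q
          rw [hs1] at h
          simp only [] at h
          by_cases hq' : q' ≤ y + 1
          · rw [if_pos hq'] at h
            simpa [pend] using h
          · rw [if_neg hq'] at h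
            simp only [Bool.and_eq_true] at h
            rcases hs4 with hs4 | ⟨z, hz1, hz2, hz3, hz4⟩
            · exact absurd hs4 hq'
            · have h1 := h.1
              unfold emit at h1
              simp only [] at h1
              by_cases hpz : pz = q' - 1
              · exfalso
                have hzz : pz = z := by omega
                have := hcan y hb hpy (by omega)
                rw [hzz] at this
                omega
              · rw [if_neg hpz] at h1
                exact h1
        · rw [if_neg hc] at h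
          simpa [pend] using h
      · rw [if_neg hb] at h
        exact loopUp2_pend wt T C M x py pz hcan k (y + 1) q (by omega) h

theorem loopUp2_spec (wt : ℕ → ℕ) (T : NatTree) (C M x : ℕ)
    (hmono : ∀ i j, i ≤ j → j ≤ x → wt i ≤ wt j) :
    ∀ (k : ℕ) (pd : Option (ℕ × ℕ)) (y q : ℕ), q ≤ x →
      (∀ j, q ≤ j → j < x → M.testBit j = true → C < wt x + wt y + wt j) →
      loopUp2 T C M x (wt x) pd y (ascFrom wt y k) q (desc wt q) = true →
      ∀ y0 z0, y ≤ y0 → y0 < y + k → M.testBit y0 = true → y0 < z0 → z0 < x →
        M.testBit z0 = true → wt x + wt y0 + wt z0 ≤ C →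
        (∀ j, j < x → M.testBit j = true → j ≠ y0 → wt x + wt y0 + wt j ≤ C → j ≤ z0) →
        (∀ y', M.testBit y' = true → y0 < y' → y' < z0 → C < wt x + wt y' + wt z0) →
        T.contains (M ^^^ 2 ^ x ^^^ 2 ^ y0 ^^^ 2 ^ z0) = true
  | 0, pd, y, q, _, _, _, y0, z0, h1, h2, _, _, _, _, _, _, _ => by omega
  | k + 1, pd, y, q, hqx, hinv, h, y0, z0, hy1, hy2, hy0b, hyz, hzx, hz0b, hsum, hzmax, hcan => by
    simp only [ascFrom, loopUp2] at h
    have hyx : ¬ x ≤ y := by omega
    rw [if_neg hyx] at h
    have hwy : wt y ≤ wt y0 := hmono y y0 hy1 (by omega)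
    by_cases hb : M.testBit y = true
    · rw [if_pos hb] at h
      by_cases hc : wt x + wt y ≤ C
      · rw [if_pos hc] at h
        obtain ⟨q', hs1, hs2, hs3, hs4⟩ := scanZ_spec wt M y (C - wt x - wt y) q
        rw [hs1] at h
        simp only [] at h
        have hinf : ∀ j, q' ≤ j → j < x → M.testBit j = true → C < wt x + wt y + wt j := by
          intro j hj1 hj2 hj3
          by_cases hjq : q ≤ j
          · exact hinv j hjq hj2 hj3
          · have := hs3 j hj1 (by omega)
            have h4 : ¬ wt j ≤ C - wt x - wt y := fun h5 => this ⟨hj3, h5⟩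
            omega
        by_cases hq' : q' ≤ y + 1
        · exfalso
          have := hinf z0 (by omega) hzx hz0b
          omega
        · rw [if_neg hq'] at h
          simp only [Bool.and_eq_true] at h
          rcases hs4 with hs4 | ⟨z, hz1, hz2, hz3, hz4⟩
          · exact absurd hs4 hq'
          · by_cases hy0y : y0 = y
            · subst hy0y
              have hzle : z ≤ z0 := hzmax z (by omega) hz3 (by omega) (by omega)
              have hz0le : z0 ≤ z := by
                by_contra hlt
                have := hinf z0 (by omega) hzx hz0b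
                omega
              have hq1 : q' - 1 = z0 := by omega
              rw [hq1] at h
              exact loopUp2_pend wt T C M x y0 z0 hcan k (y0 + 1) q' (by omega) h.2
            · refine loopUp2_spec wt T C M x hmono k (some (y, q' - 1)) (y + 1) q' (by omega) ?_
                h.2 y0 z0 (by omega) (by omega) hy0b hyz hzx hz0b hsum hzmax hcan
              intro j hj1 hj2 hj3
              have h5 := hinf j hj1 hj2 hj3
              have h6 : wt y ≤ wt (y + 1) := hmono y (y + 1) (by omega) (by omega)
              omega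
      · exfalso
        omega
    · rw [if_neg hb] at h
      have hy0y : y0 ≠ y := by
        rintro rfl
        exact hb hy0b
      refine loopUp2_spec wt T C M x hmono k pd (y + 1) q hqx ?_ h y0 z0 (by omega)
        (by omega) hy0b hyz hzx hz0b hsum hzmax hcan
      intro j hj1 hj2 hj3
      have h5 := hinv j hj1 hj2 hj3
      have h6 : wt y ≤ wt (y + 1) := hmono y (y + 1) (by omega) (by omega)
      omega

theorem check2_spec (wt : ℕ → ℕ) (T : NatTree) (C M : ℕ) (asc : List ℕ) : ∀ (i : ℕ),
    check2 T C M asc i (desc wt i) = true →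
    ∃ x, x < i ∧ M.testBit x = true ∧ (∀ j, x < j → j < i → M.testBit j = false) ∧
      loopUp2 T C M x (wt x) none 0 asc x (desc wt x) = true
  | 0, h => by simp [check2] at h
  | i + 1, h => by
    simp only [desc, check2] at h
    by_cases hb : M.testBit i = true
    · rw [if_pos hb] at h
      exact ⟨i, by omega, hb, fun j h1 h2 => by omega, h⟩
    · rw [if_neg hb] at h
      obtain ⟨x, h1, h2, h3, h4⟩ := check2_spec wt T C M asc i h
      refine ⟨x, by omega, h2, ?_, h4⟩
      intro j hj1 hj2
      by_cases hji : j = i
      · subst hji; simpa using hb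
      · exact h3 j hj1 (by omega)

/-- Soundness of the second table check. -/
theorem check2_sound (wt : ℕ → ℕ) (C n : ℕ) (hmono : ∀ i j, i ≤ j → j < n → wt i ≤ wt j)
    (T : NatTree)
    (hall : T.all (fun M => check2 T C M (ascFrom wt 0 n) n (desc wt n)) = true) :
    ∀ M, T.Mem M → ¬ Packable wt C (bits n M) := by
  have main : ∀ c M, T.Mem M → (bits n M).card = c → ¬ Packable wt C (bits n M) := by
    intro c
    induction c using Nat.strong_induction_on with
    | _ c ih =>
      intro M hM hc hpack
      have hchk : check2 T C M (ascFrom wt 0 n) n (desc wt n) = true :=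
        NatTree.all_mem _ T hall M hM
      obtain ⟨x, hxn, hxb, hxtop, hloop⟩ := check2_spec wt T C M (ascFrom wt 0 n) n hchk
      have hxA : x ∈ bits n M := (mem_bits n M x).mpr ⟨hxn, hxb⟩
      have hmax : ∀ j ∈ bits n M, j ≤ x := by
        intro j hj
        rw [mem_bits] at hj
        by_contra hlt
        have := hxtop j (by omega) hj.1
        rw [hj.2] at this
        exact Bool.noConfusion this
      obtain ⟨y, z, hyA, hzA, hyz, hzx, hsum, hzmax, hcan, hpack'⟩ :=
        branch2 wt C (bits n M)
          (fun i _ j hj hij => hmono i j hij ((mem_bits n M j).mp hj).1) x hxA hmax hpack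
      have hyb := (mem_bits n M y).mp hyA
      have hzb := (mem_bits n M z).mp hzA
      have hcont : T.contains (M ^^^ 2 ^ x ^^^ 2 ^ y ^^^ 2 ^ z) = true := by
        refine loopUp2_spec wt T C M x (fun i j hij hj => hmono i j hij (by omega)) n none 0 x
          (le_refl x) (fun j h1 h2 _ => by omega) hloop y z (Nat.zero_le y) (by omega) hyb.2 hyz
          hzx hzb.2 hsum ?_ ?_
        · intro j hj1 hj2 hj3 hj4
          exact hzmax j ((mem_bits n M j).mpr ⟨by omega, hj2⟩) (by omega) hj3 hj4
        · intro y' hy'b h1 h2
          exact hcan y' ((mem_bits n M y').mpr ⟨by omega, hy'b⟩) h1 h2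
      have hM' := NatTree.mem_of_contains T _ hcont
      have hbits := bits_xor3 n M x y z hxA hyA hzA (by omega) (by omega) (by omega)
      have hsub : ({x, y, z} : Finset ℕ) ⊆ bits n M := by
        intro j hj
        simp only [mem_insert, mem_singleton] at hj
        rcases hj with rfl | rfl | rfl
        · exact hxA
        · exact hyA
        · exact hzA
      have hcard3 : ({x, y, z} : Finset ℕ).card = 3 := by
        rw [card_insert_of_notMem, card_pair (by omega)]
        simp only [mem_insert, mem_singleton, not_or]
        omega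
      have hcard' : (bits n (M ^^^ 2 ^ x ^^^ 2 ^ y ^^^ 2 ^ z)).card < c := by
        rw [hbits, card_sdiff_of_subset hsub, hcard3, hc]
        have : 3 ≤ (bits n M).card := by
          rw [← hcard3]; exact card_le_card hsub
        omega
      apply ih _ hcard' _ hM' rfl
      rw [hbits]
      exact hpack'
  intro M hM
  exact main _ M hM rfl

end Vale.Agent.Lib.Helper3.BinPacking
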