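import Vale.Agent.Lib.Helper3.P302Check2

/-!
A third table check.  The triple through an arbitrary index `x` of a packable set can be
normalised in the same way as the triple through the largest index; the check of a mask
succeeds if the normalised triples through its largest index, or those through its smallest
index, all lead to keys of the table.
-/

namespace Vale.Agent.Lib.Helper3.BinPacking

open Finset

/-- The triple through an arbitrary index `x` of a packable set can be chosen so that the
larger partner `z` is the largest admissible partner of the smaller partner `y`. -/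
theorem branchAny0 (wt : ℕ → ℕ) (C : ℕ) (A : Finset ℕ)
    (hmono : ∀ i ∈ A, ∀ j ∈ A, i ≤ j → wt i ≤ wt j) (x : ℕ) (hx : x ∈ A)
    (h : Packable wt C A) :
    ∃ y z, y ∈ A ∧ z ∈ A ∧ y ≠ x ∧ z ≠ x ∧ y < z ∧ wt x + wt y + wt z ≤ C ∧
      (∀ j ∈ A, j ≠ x → j ≠ y → wt x + wt y + wt j ≤ C → j ≤ z) ∧
      Packable wt C (A \ {x, y, z}) := by
  obtain ⟨P, hP, hdisj, hU⟩ := h
  have hxU : x ∈ P.biUnion id := by rw [hU]; exact hx
  obtain ⟨T, hT, hxT⟩ := mem_biUnion.mp hxU
  simp only [id] at hxT
  have hTA : T ⊆ A := by
    rw [← hU]; exact subset_biUnion_of_mem id hT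
  have hcard : (T.erase x).card = 2 := by
    rw [card_erase_of_mem hxT, (hP T hT).1]
  obtain ⟨a, b, hab, hTe⟩ := card_eq_two.mp hcard
  obtain ⟨y0, z0, hyz, hTe'⟩ : ∃ y0 z0, y0 < z0 ∧ T.erase x = {y0, z0} := by
    rcases lt_or_gt_of_ne hab with h1 | h1
    · exact ⟨a, b, h1, hTe⟩
    · exact ⟨b, a, h1, by rw [hTe, pair_comm]⟩
  have hy0T : y0 ∈ T.erase x := by rw [hTe']; simp
  have hz0T : z0 ∈ T.erase x := by rw [hTe']; simp
  have hy0 : y0 ∈ T ∧ y0 ≠ x := ⟨mem_of_mem_erase hy0T, ne_of_mem_erase hy0T⟩
  have hz0 : z0 ∈ T ∧ z0 ≠ x := ⟨mem_of_mem_erase hz0T, ne_of_mem_erase hz0T⟩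
  have hTeq : T = {x, y0, z0} := by
    rw [← insert_erase hxT, hTe']
  have hmemT : ∀ i, i ∈ T ↔ (i = x ∨ i = y0 ∨ i = z0) := by
    intro i; rw [hTeq]; simp
  have hsumT : wt x + wt y0 + wt z0 ≤ C := by
    have h1 := (hP T hT).2
    rw [hTeq] at h1
    rw [sum_insert, sum_pair (ne_of_lt hyz)] at h1
    · omega
    · simp only [mem_insert, mem_singleton, not_or]
      exact ⟨hy0.2.symm, hz0.2.symm⟩
  set S := A.filter (fun j => j ≠ x ∧ j ≠ y0 ∧ wt x + wt y0 + wt j ≤ C) with hS
  have hz0S : z0 ∈ S := by
    simp only [hS, mem_filter]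
    exact ⟨hTA hz0.1, hz0.2, (ne_of_lt hyz).symm, hsumT⟩
  set z := S.max' ⟨z0, hz0S⟩ with hz
  have hzS : z ∈ S := max'_mem S _
  have hzz0 : z0 ≤ z := le_max' S z0 hz0S
  simp only [hS, mem_filter] at hzS
  obtain ⟨hzA, hzx, hzy, hzsum⟩ := hzS
  refine ⟨y0, z, hTA hy0.1, hzA, hy0.2, hzx, lt_of_lt_of_le hyz hzz0, hzsum, ?_, ?_⟩
  · intro j hjA hjx hjy hjs
    exact le_max' S j (by simp only [hS, mem_filter]; exact ⟨hjA, hjx, hjy, hjs⟩)
  · have hrest : ∀ i, (∃ U ∈ P.erase T, i ∈ U) ↔ (i ∈ A ∧ i ∉ T) := by
      intro i
      constructor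
      · rintro ⟨U, hU1, hiU⟩
        have hUP : U ∈ P := mem_of_mem_erase hU1
        have hUT : U ≠ T := ne_of_mem_erase hU1
        refine ⟨?_, disjoint_left.mp (hdisj U hUP T hT hUT) hiU⟩
        rw [← hU]; exact mem_biUnion.mpr ⟨U, hUP, hiU⟩
      · rintro ⟨hiA, hiT⟩
        rw [← hU] at hiA
        obtain ⟨U, hUP, hiU⟩ := mem_biUnion.mp hiA
        simp only [id] at hiU
        refine ⟨U, mem_erase.mpr ⟨?_, hUP⟩, hiU⟩
        rintro rfl
        exact hiT hiU
    refine ⟨(P.erase T).image (fun U => U.map (Equiv.swap z0 z).toEmbedding), ?_, ?_, ?_⟩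
    · intro U' hU'
      obtain ⟨U, hU1, rfl⟩ := mem_image.mp hU'
      have hUP : U ∈ P := mem_of_mem_erase hU1
      have hUT : U ≠ T := ne_of_mem_erase hU1
      refine ⟨by rw [card_map]; exact (hP U hUP).1, ?_⟩
      rw [sum_map]
      refine le_trans (sum_le_sum ?_) (hP U hUP).2
      intro i hi
      have hiz0 : i ≠ z0 := by
        intro he; subst he
        exact (disjoint_left.mp (hdisj U hUP T hT hUT) hi) hz0.1
      show wt (Equiv.swap z0 z i) ≤ wt i
      by_cases hiz : i = z
      · subst hiz; rw [Equiv.swap_apply_right]; exact hmono z0 (hTA hz0.1) z hzA hzz0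
      · rw [Equiv.swap_apply_of_ne_of_ne hiz0 hiz]
    · intro U1' h1 U2' h2 hne
      obtain ⟨U1, hU1, rfl⟩ := mem_image.mp h1
      obtain ⟨U2, hU2, rfl⟩ := mem_image.mp h2
      have hne' : U1 ≠ U2 := by rintro rfl; exact hne rfl
      rw [disjoint_map]
      exact hdisj U1 (mem_of_mem_erase hU1) U2 (mem_of_mem_erase hU2) hne'
    · ext j
      have key : j ∈ ((P.erase T).image (fun U => U.map (Equiv.swap z0 z).toEmbedding)).biUnion id ↔
          (Equiv.swap z0 z j ∈ A ∧ Equiv.swap z0 z j ∉ T) := by
        rw [← hrest]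
        simp only [mem_biUnion, mem_image, id]
        constructor
        · rintro ⟨U', ⟨U, hU1, rfl⟩, hj⟩
          rw [mem_map_equiv, Equiv.symm_swap] at hj
          exact ⟨U, hU1, hj⟩
        · rintro ⟨U, hU1, hj⟩
          refine ⟨_, ⟨U, hU1, rfl⟩, ?_⟩
          rw [mem_map_equiv, Equiv.symm_swap]
          exact hj
      rw [key]
      simp only [mem_sdiff, mem_insert, mem_singleton, not_or, hmemT]
      by_cases hj0 : j = z0
      · subst hj0
        rw [Equiv.swap_apply_left]
        constructor
        · rintro ⟨_, _, _, h3⟩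
          exact ⟨hTA hz0.1, hz0.2, (ne_of_lt hyz).symm, fun he => h3 he.symm⟩
        · rintro ⟨_, _, _, h3⟩
          exact ⟨hzA, hzx, hzy, fun he => h3 he.symm⟩
      · by_cases hjz : j = z
        · subst hjz
          rw [Equiv.swap_apply_right]
          constructor
          · rintro ⟨_, _, _, h3⟩
            exact absurd rfl h3
          · rintro ⟨_, _, _, h3⟩
            exact absurd rfl h3
        · rw [Equiv.swap_apply_of_ne_of_ne hj0 hjz]
          constructor
          · rintro ⟨h0, h1, h2, _⟩
            exact ⟨h0, h1, h2, hjz⟩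
          · rintro ⟨h0, h1, h2, _⟩
            exact ⟨h0, h1, h2, hj0⟩

/-- The normalised triple through an arbitrary index `x` of a packable set. -/
theorem branchAny (wt : ℕ → ℕ) (C : ℕ) (A : Finset ℕ)
    (hmono : ∀ i ∈ A, ∀ j ∈ A, i ≤ j → wt i ≤ wt j) (x : ℕ) (hx : x ∈ A)
    (h : Packable wt C A) :
    ∃ y z, y ∈ A ∧ z ∈ A ∧ y ≠ x ∧ z ≠ x ∧ y < z ∧ wt x + wt y + wt z ≤ C ∧
      (∀ j ∈ A, j ≠ x → j ≠ y → wt x + wt y + wt j ≤ C → j ≤ z) ∧
      (∀ y' ∈ A, y' ≠ x → y < y' → y' < z → C < wt x + wt y' + wt z) ∧
      Packable wt C (A \ {x, y, z}) := by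
  obtain ⟨y, z, hyA, hzA, hyx, hzx, hyz, hsum, hzmax, hpack⟩ := branchAny0 wt C A hmono x hx h
  set S := A.filter (fun y' => y' ≠ x ∧ y ≤ y' ∧ y' < z ∧ wt x + wt y' + wt z ≤ C) with hS
  have hyS : y ∈ S := by
    simp only [hS, mem_filter]
    exact ⟨hyA, hyx, le_refl y, hyz, hsum⟩
  set ys := S.max' ⟨y, hyS⟩ with hys
  have hysS : ys ∈ S := max'_mem S _
  have hyys : y ≤ ys := le_max' S y hyS
  simp only [hS, mem_filter] at hysS
  obtain ⟨hysA, hysx, _, hysz, hyssum⟩ := hysS
  have hwy : wt y ≤ wt ys := hmono y hyA ys hysA hyys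
  refine ⟨ys, z, hysA, hzA, hysx, hzx, hysz, hyssum, ?_, ?_, ?_⟩
  · intro j hjA hjx hjy hjs
    by_cases hjy0 : j = y
    · omega
    · exact hzmax j hjA hjx hjy0 (by omega)
  · intro y' hy'A hy'x h1 h2
    by_contra hcon
    have hy'S : y' ∈ S := by
      simp only [hS, mem_filter]
      exact ⟨hy'A, hy'x, by omega, h2, by omega⟩
    have := le_max' S y' hy'S
    omega
  · by_cases hyeq : ys = y
    · rw [hyeq]; exact hpack
    · have hu : y ∉ A \ {x, y, z} := by
        intro hmem
        rw [mem_sdiff] at hmem
        exact hmem.2 (by simp)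
      have hv : ys ∈ A \ {x, y, z} := by
        simp only [mem_sdiff, mem_insert, mem_singleton, not_or]
        exact ⟨hysA, hysx, hyeq, by omega⟩
      have h2 := packable_swap wt C (A \ {x, y, z}) y ys hu hv hwy hpack
      have heq : insert y ((A \ {x, y, z}).erase ys) = A \ {x, ys, z} := by
        ext j
        simp only [mem_insert, mem_erase, mem_sdiff, mem_singleton, not_or]
        constructor
        · rintro (rfl | ⟨h3, h4, h5, h6, h7⟩)
          · exact ⟨hyA, hyx, fun he => hyeq he.symm, by omega⟩
          · exact ⟨h4, h5, h3, h7⟩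
        · rintro ⟨h3, h4, h5, h6⟩
          by_cases hjy : j = y
          · exact Or.inl hjy
          · exact Or.inr ⟨h5, h3, h4, hjy, h6⟩
      rw [heq] at h2
      exact h2

/-- Evaluate a natural number before it is passed on. -/
def strict (m : ℕ) (f : ℕ → Bool) : Bool :=
  match m with
  | 0 => f 0
  | k + 1 => f (Nat.succ k)

theorem strict_eq (m : ℕ) (f : ℕ → Bool) : strict m f = f m := by
  cases m <;> rfl

/-- The pending pair, if any, must lead to a key of the tree. -/
def pendA (T : NatTree) (Mc : ℕ) : Option (ℕ × ℕ) → Bool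
  | none => true
  | some (py, pz) => strict (Mc ^^^ 2 ^ py ^^^ 2 ^ pz) T.contains

/-- The pending pair is dropped if the new partner is the same, and checked otherwise. -/
def emitA (T : NatTree) (Mc z : ℕ) : Option (ℕ × ℕ) → Bool
  | none => true
  | some (py, pz) => if pz = z then true else strict (Mc ^^^ 2 ^ py ^^^ 2 ^ pz) T.contains

/-- The loop over the indices `y` of the mask `M` in increasing order, with partners `z`
below a moving pointer; `wx` is the weight of the pivot and `Mc` the mask without the pivot.
A pair `(y, z)` is checked when the next index of the mask has a different largest admissible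
partner, or none. -/
def loopA (T : NatTree) (C M Mc wx : ℕ) :
    Option (ℕ × ℕ) → ℕ → List ℕ → ℕ → List ℕ → Bool
  | pd, y, wy :: asc, q, dl =>
      if M.testBit y = true then
        (if wx + wy ≤ C then
          (match scanZ M y (C - wx - wy) q dl with
            | (q', dl') =>
              if q' ≤ y + 1 then pendA T Mc pd
              else (emitA T Mc (q' - 1) pd &&
                strict (y + 1) (fun y' => loopA T C M Mc wx (some (y, q' - 1)) y' asc q' dl')))
        else pendA T Mc pd)
      else strict (y + 1) (fun y' => loopA T C M Mc wx pd y' asc q dl)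
  | pd, _, [], _, _ => pendA T Mc pd

/-- Find the largest index `x` of the mask below `i` and run `loopA` for it: the partners are
the indices below `x`. -/
def checkTop (T : NatTree) (C M : ℕ) (asc : List ℕ) : ℕ → List ℕ → Bool
  | i + 1, w :: t =>
      if M.testBit i = true then
        strict (M ^^^ 2 ^ i) (fun Mc => loopA T C M Mc w none 0 asc i t)
      else checkTop T C M asc i t
  | _, _ => false

/-- Find the smallest index `x` of the mask from `i` on and run `loopA` for it: the partners
are the indices above `x`. -/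
def checkLow (T : NatTree) (C n M : ℕ) (dl : List ℕ) : ℕ → List ℕ → Bool
  | i, w :: t =>
      if M.testBit i = true then
        strict (M ^^^ 2 ^ i) (fun Mc => strict (i + 1) (fun y => loopA T C M Mc w none y t n dl))
      else strict (i + 1) (fun i' => checkLow T C n M dl i' t)
  | _, [] => false

/-- The check of the mask `M`: with its largest index as pivot or with its smallest one. -/
def checkA (T : NatTree) (C n : ℕ) (asc dl : List ℕ) (M : ℕ) : Bool :=
  checkTop T C M asc n dl || checkLow T C n M dl 0 asc

theorem loopA_pend (wt : ℕ → ℕ) (T : NatTree) (C M Mc wx py pz : ℕ)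
    (hcan : ∀ y', M.testBit y' = true → py < y' → y' < pz → C < wx + wt y' + wt pz) :
    ∀ (k y q : ℕ), py < y →
      loopA T C M Mc wx (some (py, pz)) y (ascFrom wt y k) q (desc wt q) = true →
      T.contains (Mc ^^^ 2 ^ py ^^^ 2 ^ pz) = true
  | 0, y, q, _, h => by
    simpa [ascFrom, loopA, pendA, strict_eq] using h
  | k + 1, y, q, hpy, h => by
    simp only [ascFrom, loopA, strict_eq] at h
    by_cases hb : M.testBit y = true
    · rw [if_pos hb] at h
      by_cases hc : wx + wt y ≤ C
      · rw [if_pos hc] at h
        obtain ⟨q', hs1, hs2, hs3, hs4⟩ := scanZ_spec wt M y (C - wx - wt y) q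
        rw [hs1] at h
        simp only [] at h
        by_cases hq' : q' ≤ y + 1
        · rw [if_pos hq'] at h
          simpa [pendA, strict_eq] using h
        · rw [if_neg hq'] at h
          simp only [Bool.and_eq_true] at h
          rcases hs4 with hs4 | ⟨z, hz1, hz2, hz3, hz4⟩
          · exact absurd hs4 hq'
          · have h1 := h.1
            unfold emitA at h1
            simp only [strict_eq] at h1
            by_cases hpz : pz = q' - 1
            · exfalso
              have hzz : pz = z := by omega
              have := hcan y hb hpy (by omega)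
              rw [hzz] at this
              omega
            · rw [if_neg hpz] at h1
              exact h1
      · rw [if_neg hc] at h
        simpa [pendA, strict_eq] using h
    · rw [if_neg hb] at h
      exact loopA_pend wt T C M Mc wx py pz hcan k (y + 1) q (by omega) h

theorem loopA_spec (wt : ℕ → ℕ) (T : NatTree) (C M Mc wx b : ℕ)
    (hmono : ∀ i j, i ≤ j → j < b → wt i ≤ wt j) :
    ∀ (k : ℕ) (pd : Option (ℕ × ℕ)) (y q : ℕ), q ≤ b →
      (∀ j, q ≤ j → j < b → M.testBit j = true → C < wx + wt y + wt j) →
      loopA T C M Mc wx pd y (ascFrom wt y k) q (desc wt q) = true →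
      ∀ y0 z0, y ≤ y0 → y0 < y + k → M.testBit y0 = true → y0 < z0 → z0 < b →
        M.testBit z0 = true → wx + wt y0 + wt z0 ≤ C →
        (∀ j, j < b → M.testBit j = true → j ≠ y0 → wx + wt y0 + wt j ≤ C → j ≤ z0) →
        (∀ y', M.testBit y' = true → y0 < y' → y' < z0 → C < wx + wt y' + wt z0) →
        T.contains (Mc ^^^ 2 ^ y0 ^^^ 2 ^ z0) = true
  | 0, pd, y, q, _, _, _, y0, z0, h1, h2, _, _, _, _, _, _, _ => by omega
  | k + 1, pd, y, q, hqn, hinv, h, y0, z0, hy1, hy2, hy0b, hyz, hzn, hz0b, hsum, hzmax, hcan => by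
    simp only [ascFrom, loopA, strict_eq] at h
    have hwy : wt y ≤ wt y0 := hmono y y0 hy1 (by omega)
    by_cases hb : M.testBit y = true
    · rw [if_pos hb] at h
      by_cases hc : wx + wt y ≤ C
      · rw [if_pos hc] at h
        obtain ⟨q', hs1, hs2, hs3, hs4⟩ := scanZ_spec wt M y (C - wx - wt y) q
        rw [hs1] at h
        simp only [] at h
        have hinf : ∀ j, q' ≤ j → j < b → M.testBit j = true → C < wx + wt y + wt j := by
          intro j hj1 hj2 hj3
          by_cases hjq : q ≤ j
          · exact hinv j hjq hj2 hj3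
          · have := hs3 j hj1 (by omega)
            have h4 : ¬ wt j ≤ C - wx - wt y := fun h5 => this ⟨hj3, h5⟩
            omega
        by_cases hq' : q' ≤ y + 1
        · exfalso
          have := hinf z0 (by omega) hzn hz0b
          omega
        · rw [if_neg hq'] at h
          simp only [Bool.and_eq_true] at h
          rcases hs4 with hs4 | ⟨z, hz1, hz2, hz3, hz4⟩
          · exact absurd hs4 hq'
          · by_cases hy0y : y0 = y
            · subst hy0y
              have hzle : z ≤ z0 := hzmax z (by omega) hz3 (by omega) (by omega)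
              have hz0le : z0 ≤ z := by
                by_contra hlt
                have := hinf z0 (by omega) hzn hz0b
                omega
              have hq1 : q' - 1 = z0 := by omega
              rw [hq1] at h
              exact loopA_pend wt T C M Mc wx y0 z0 hcan k (y0 + 1) q' (by omega) h.2
            · refine loopA_spec wt T C M Mc wx b hmono k (some (y, q' - 1)) (y + 1) q' (by omega)
                ?_ h.2 y0 z0 (by omega) (by omega) hy0b hyz hzn hz0b hsum hzmax hcan
              intro j hj1 hj2 hj3
              have h5 := hinf j hj1 hj2 hj3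
              have h6 : wt y ≤ wt (y + 1) := hmono y (y + 1) (by omega) (by omega)
              omega
      · exfalso
        omega
    · rw [if_neg hb] at h
      have hy0y : y0 ≠ y := by
        rintro rfl
        exact hb hy0b
      refine loopA_spec wt T C M Mc wx b hmono k pd (y + 1) q hqn ?_ h y0 z0 (by omega)
        (by omega) hy0b hyz hzn hz0b hsum hzmax hcan
      intro j hj1 hj2 hj3
      have h5 := hinv j hj1 hj2 hj3
      have h6 : wt y ≤ wt (y + 1) := hmono y (y + 1) (by omega) (by omega)
      omega

theorem checkTop_spec (wt : ℕ → ℕ) (T : NatTree) (C M : ℕ) (asc : List ℕ) : ∀ (i : ℕ),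
    checkTop T C M asc i (desc wt i) = true →
    ∃ x, x < i ∧ M.testBit x = true ∧ (∀ j, x < j → j < i → M.testBit j = false) ∧
      loopA T C M (M ^^^ 2 ^ x) (wt x) none 0 asc x (desc wt x) = true
  | 0, h => by simp [checkTop] at h
  | i + 1, h => by
    simp only [desc, checkTop, strict_eq] at h
    by_cases hb : M.testBit i = true
    · rw [if_pos hb] at h
      exact ⟨i, by omega, hb, fun j h1 h2 => by omega, h⟩
    · rw [if_neg hb] at h
      obtain ⟨x, h1, h2, h3, h4⟩ := checkTop_spec wt T C M asc i h
      refine ⟨x, by omega, h2, ?_, h4⟩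
      intro j hj1 hj2
      by_cases hji : j = i
      · subst hji; simpa using hb
      · exact h3 j hj1 (by omega)

theorem checkLow_spec (wt : ℕ → ℕ) (T : NatTree) (C n M : ℕ) (dl : List ℕ) : ∀ (k i : ℕ),
    checkLow T C n M dl i (ascFrom wt i k) = true →
    ∃ x, i ≤ x ∧ x < i + k ∧ M.testBit x = true ∧ (∀ j, i ≤ j → j < x → M.testBit j = false) ∧
      loopA T C M (M ^^^ 2 ^ x) (wt x) none (x + 1) (ascFrom wt (x + 1) (i + k - x - 1)) n dl
        = true
  | 0, i, h => by simp [ascFrom, checkLow] at h
  | k + 1, i, h => by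
    simp only [ascFrom, checkLow, strict_eq] at h
    by_cases hb : M.testBit i = true
    · rw [if_pos hb] at h
      refine ⟨i, le_refl i, by omega, hb, fun j h1 h2 => by omega, ?_⟩
      have e : i + (k + 1) - i - 1 = k := by omega
      rw [e]
      exact h
    · rw [if_neg hb] at h
      obtain ⟨x, h1, h2, h3, h4, h5⟩ := checkLow_spec wt T C n M dl k (i + 1) h
      refine ⟨x, by omega, by omega, h3, ?_, ?_⟩
      · intro j hj1 hj2
        by_cases hji : j = i
        · subst hji; simpa using hb
        · exact h4 j (by omega) hj2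
      · have e : i + (k + 1) - x - 1 = i + 1 + k - x - 1 := by omega
        rw [e]
        exact h5

/-- Soundness of the third table check. -/
theorem checkA_sound (wt : ℕ → ℕ) (C n : ℕ) (hmono : ∀ i j, i ≤ j → j < n → wt i ≤ wt j)
    (T : NatTree)
    (hall : T.all (checkA T C n (ascFrom wt 0 n) (desc wt n)) = true) :
    ∀ M, T.Mem M → ¬ Packable wt C (bits n M) := by
  have main : ∀ c M, T.Mem M → (bits n M).card = c → ¬ Packable wt C (bits n M) := by
    intro c
    induction c using Nat.strong_induction_on with
    | _ c ih =>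
      intro M hM hc hpack
      have hchk : checkA T C n (ascFrom wt 0 n) (desc wt n) M = true :=
        NatTree.all_mem _ T hall M hM
      have hmonoA : ∀ i ∈ bits n M, ∀ j ∈ bits n M, i ≤ j → wt i ≤ wt j :=
        fun i _ j hj hij => hmono i j hij ((mem_bits n M j).mp hj).1
      obtain ⟨x, y, z, hxA, hyA, hzA, hyx, hzx, hyz, hpack', hcont⟩ :
          ∃ x y z, x ∈ bits n M ∧ y ∈ bits n M ∧ z ∈ bits n M ∧ y ≠ x ∧ z ≠ x ∧ y < z ∧
            Packable wt C (bits n M \ {x, y, z}) ∧
            T.contains (M ^^^ 2 ^ x ^^^ 2 ^ y ^^^ 2 ^ z) = true := by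
        unfold checkA at hchk
        rw [Bool.or_eq_true] at hchk
        rcases hchk with h1 | h1
        · obtain ⟨x, hxn, hxb, hxtop, hloop⟩ := checkTop_spec wt T C M (ascFrom wt 0 n) n h1
          have hxA : x ∈ bits n M := (mem_bits n M x).mpr ⟨hxn, hxb⟩
          have hlt : ∀ j ∈ bits n M, j ≠ x → j < x := by
            intro j hj hjx
            rw [mem_bits] at hj
            by_contra hcon
            have := hxtop j (by omega) hj.1
            rw [hj.2] at this
            exact Bool.noConfusion this
          obtain ⟨y, z, hyA, hzA, hyx, hzx, hyz, hsum, hzmax, hcan, hpack'⟩ :=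
            branchAny wt C (bits n M) hmonoA x hxA hpack
          have hyb := (mem_bits n M y).mp hyA
          have hzb := (mem_bits n M z).mp hzA
          have hzltx := hlt z hzA hzx
          refine ⟨x, y, z, hxA, hyA, hzA, hyx, hzx, hyz, hpack', ?_⟩
          refine loopA_spec wt T C M (M ^^^ 2 ^ x) (wt x) x
            (fun i j hij hj => hmono i j hij (by omega)) n none 0 x
            (le_refl x) (fun j h1 h2 _ => by omega) hloop y z (Nat.zero_le y) (by omega)
            hyb.2 hyz hzltx hzb.2 hsum ?_ ?_
          · intro j hj1 hj2 hj3 hj4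
            exact hzmax j ((mem_bits n M j).mpr ⟨by omega, hj2⟩) (by omega) hj3 hj4
          · intro y' hy'b h1 h2
            exact hcan y' ((mem_bits n M y').mpr ⟨by omega, hy'b⟩) (by omega) h1 h2
        · obtain ⟨x, _, hxn, hxb, hxlow, hloop⟩ :=
            checkLow_spec wt T C n M (desc wt n) n 0 h1
          have hxn' : x < n := by omega
          have hxA : x ∈ bits n M := (mem_bits n M x).mpr ⟨hxn', hxb⟩
          have hgt : ∀ j ∈ bits n M, j ≠ x → x < j := by
            intro j hj hjx
            rw [mem_bits] at hj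
            by_contra hcon
            have := hxlow j (Nat.zero_le j) (by omega)
            rw [hj.2] at this
            exact Bool.noConfusion this
          obtain ⟨y, z, hyA, hzA, hyx, hzx, hyz, hsum, hzmax, hcan, hpack'⟩ :=
            branchAny wt C (bits n M) hmonoA x hxA hpack
          have hyb := (mem_bits n M y).mp hyA
          have hzb := (mem_bits n M z).mp hzA
          have hxlty := hgt y hyA hyx
          refine ⟨x, y, z, hxA, hyA, hzA, hyx, hzx, hyz, hpack', ?_⟩
          have e : 0 + n - x - 1 = n - x - 1 := by omega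
          rw [e] at hloop
          refine loopA_spec wt T C M (M ^^^ 2 ^ x) (wt x) n hmono (n - x - 1) none (x + 1) n
            (le_refl n) (fun j h1 h2 _ => by omega) hloop y z (by omega) (by omega)
            hyb.2 hyz hzb.1 hzb.2 hsum ?_ ?_
          · intro j hj1 hj2 hj3 hj4
            by_cases hjx : j = x
            · omega
            · exact hzmax j ((mem_bits n M j).mpr ⟨hj1, hj2⟩) hjx hj3 hj4
          · intro y' hy'b h1 h2
            exact hcan y' ((mem_bits n M y').mpr ⟨by omega, hy'b⟩) (by omega) h1 h2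
      have hM' := NatTree.mem_of_contains T _ hcont
      have hbits := bits_xor3 n M x y z hxA hyA hzA (fun he => hyx he.symm)
        (fun he => hzx he.symm) (by omega)
      have hsub : ({x, y, z} : Finset ℕ) ⊆ bits n M := by
        intro j hj
        simp only [mem_insert, mem_singleton] at hj
        rcases hj with rfl | rfl | rfl
        · exact hxA
        · exact hyA
        · exact hzA
      have hcard3 : ({x, y, z} : Finset ℕ).card = 3 := by
        rw [card_insert_of_notMem, card_pair (by omega)]
        simp only [mem_insert, mem_singleton, not_or]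
        exact ⟨fun he => hyx he.symm, fun he => hzx he.symm⟩
      have hcard' : (bits n (M ^^^ 2 ^ x ^^^ 2 ^ y ^^^ 2 ^ z)).card < c := by
        rw [hbits, card_sdiff_of_subset hsub, hcard3, hc]
        have : 3 ≤ (bits n M).card := by
          rw [← hcard3]; exact card_le_card hsub
        omega
      apply ih _ hcard' _ hM' rfl
      rw [hbits]
      exact hpack'
  intro M hM
  exact main _ M hM rfl

end Vale.Agent.Lib.Helper3.BinPacking
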