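import Vale.Agent.Lib.Helper3.P302CheckAny

/-!
The third table check again, written with primitive operations on natural numbers and
Booleans only, so that its evaluation takes fewer reduction steps.  It is equal to the check
`checkA`, hence sound.
-/

namespace Vale.Agent.Lib.Helper3.BinPacking

/-- Bit `i` of `M`. -/
def tb (M i : ℕ) : Bool := Nat.ble 1 (Nat.land (Nat.shiftRight M i) 1)

theorem tb_eq (M i : ℕ) : tb M i = M.testBit i := by
  unfold tb Nat.testBit
  have h1 : Nat.land (Nat.shiftRight M i) 1 = (M >>> i) % 2 := Nat.and_one_is_mod (M >>> i)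
  have h2 : 1 &&& M >>> i = (M >>> i) % 2 := Nat.one_and_eq_mod_two (M >>> i)
  rw [h1, h2]
  rcases Nat.mod_two_eq_zero_or_one (M >>> i) with h | h <;> rw [h] <;> rfl

/-- Evaluate a natural number before it is passed on. -/
def strictN {α : Type} (m : ℕ) (f : ℕ → α) : α :=
  match m with
  | 0 => f 0
  | k + 1 => f (Nat.succ k)

theorem strictN_eq {α : Type} (m : ℕ) (f : ℕ → α) : strictN m f = f m := by
  cases m <;> rfl

theorem cond_ble {α : Type} (a b : ℕ) (x z : α) :
    cond (Nat.ble a b) x z = if a ≤ b then x else z := by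
  by_cases h : a ≤ b
  · rw [if_pos h, Nat.ble_eq_true_of_le h]
    rfl
  · rw [if_neg h]
    have h2 : Nat.ble a b = false := by
      rw [← Bool.not_eq_true]
      exact fun hh => h (Nat.le_of_ble_eq_true hh)
    rw [h2]
    rfl

theorem cond_beq {α : Type} (a b : ℕ) (x z : α) :
    cond (Nat.beq a b) x z = if a = b then x else z := by
  by_cases h : a = b
  · rw [if_pos h, h, Nat.beq_refl]
    rfl
  · rw [if_neg h]
    have h2 : Nat.beq a b = false := by
      rw [← Bool.not_eq_true]
      exact fun hh => h (Nat.eq_of_beq_eq_true hh)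
    rw [h2]
    rfl

theorem cond_bool {α : Type} (c : Bool) (x z : α) :
    cond c x z = if c = true then x else z := by
  cases c <;> rfl

theorem ble_decide (a b : ℕ) : Nat.ble a b = decide (a ≤ b) := by
  by_cases h : a ≤ b
  · rw [Nat.ble_eq_true_of_le h, decide_eq_true h]
  · have h2 : Nat.ble a b = false := by
      rw [← Bool.not_eq_true]
      exact fun hh => h (Nat.le_of_ble_eq_true hh)
    rw [h2, decide_eq_false h]

/-- Elimination of a pair. -/
def pairK {α : Type} (r : ℕ × List ℕ) (f : ℕ → List ℕ → α) : α := f r.1 r.2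

/-- As `scanZ`. -/
def scanF (M y B : ℕ) : ℕ → List ℕ → ℕ × List ℕ
  | p + 1, w :: t =>
      cond (Nat.ble p y) (Nat.succ p, w :: t)
        (cond (tb M p && Nat.ble w B) (Nat.succ p, w :: t) (scanF M y B p t))
  | p, l => (p, l)

theorem scanF_eq (M y B : ℕ) : ∀ (p : ℕ) (l : List ℕ), scanF M y B p l = scanZ M y B p l
  | 0, [] => rfl
  | 0, _ :: _ => rfl
  | _ + 1, [] => rfl
  | p + 1, w :: t => by
    rw [scanF, scanZ, scanF_eq M y B p t, cond_ble, cond_bool, tb_eq, ble_decide]

/-- As `emitA`. -/
def emitF (T : NatTree) (Mc z : ℕ) : Option (ℕ × ℕ) → Bool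
  | none => true
  | some (py, pz) => cond (Nat.beq pz z) true (strict (Mc ^^^ 2 ^ py ^^^ 2 ^ pz) T.contains)

theorem emitF_eq (T : NatTree) (Mc z : ℕ) : ∀ pd, emitF T Mc z pd = emitA T Mc z pd
  | none => rfl
  | some (py, pz) => by
    rw [emitF, emitA, cond_beq]

/-- As `loopA`. -/
def loopF (T : NatTree) (C M Mc wx : ℕ) :
    Option (ℕ × ℕ) → ℕ → List ℕ → ℕ → List ℕ → Bool
  | pd, y, wy :: asc, q, dl =>
      cond (tb M y)
        (cond (Nat.ble (Nat.add wx wy) C)
          (strictN (Nat.sub (Nat.sub C wx) wy) (fun B =>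
            pairK (scanF M y B q dl) (fun q' dl' =>
              cond (Nat.ble q' (Nat.succ y)) (pendA T Mc pd)
                (emitF T Mc (Nat.pred q') pd &&
                  strictN (Nat.succ y) (fun y' =>
                    loopF T C M Mc wx (some (y, Nat.pred q')) y' asc q' dl')))))
          (pendA T Mc pd))
        (strictN (Nat.succ y) (fun y' => loopF T C M Mc wx pd y' asc q dl))
  | pd, _, [], _, _ => pendA T Mc pd

theorem loopF_eq (T : NatTree) (C M Mc wx : ℕ) : ∀ (asc : List ℕ) (pd : Option (ℕ × ℕ))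
    (y q : ℕ) (dl : List ℕ), loopF T C M Mc wx pd y asc q dl = loopA T C M Mc wx pd y asc q dl
  | [], pd, y, q, dl => by rw [loopF, loopA]
  | wy :: asc, pd, y, q, dl => by
    rw [loopF, loopA]
    simp only [strictN_eq, strict_eq, cond_bool, tb_eq, scanF_eq, emitF_eq,
      loopF_eq T C M Mc wx asc, pairK, Nat.ble_eq, Nat.add_eq, Nat.sub_eq, Nat.succ_eq_add_one,
      Nat.pred_eq_sub_one]

/-- As `checkTop`. -/
def checkTopF (T : NatTree) (C M : ℕ) (asc : List ℕ) : ℕ → List ℕ → Bool
  | i + 1, w :: t =>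
      cond (tb M i)
        (strictN (M ^^^ 2 ^ i) (fun Mc => loopF T C M Mc w none 0 asc i t))
        (checkTopF T C M asc i t)
  | _, _ => false

theorem checkTopF_eq (T : NatTree) (C M : ℕ) (asc : List ℕ) : ∀ (i : ℕ) (l : List ℕ),
    checkTopF T C M asc i l = checkTop T C M asc i l
  | 0, [] => rfl
  | 0, _ :: _ => rfl
  | _ + 1, [] => rfl
  | i + 1, w :: t => by
    rw [checkTopF, checkTop, checkTopF_eq T C M asc i t]
    simp only [strictN_eq, strict_eq, cond_bool, tb_eq, loopF_eq]

/-- As `checkLow`. -/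
def checkLowF (T : NatTree) (C n M : ℕ) (dl : List ℕ) : ℕ → List ℕ → Bool
  | i, w :: t =>
      cond (tb M i)
        (strictN (M ^^^ 2 ^ i) (fun Mc =>
          strictN (Nat.succ i) (fun y => loopF T C M Mc w none y t n dl)))
        (strictN (Nat.succ i) (fun i' => checkLowF T C n M dl i' t))
  | _, [] => false

theorem checkLowF_eq (T : NatTree) (C n M : ℕ) (dl : List ℕ) : ∀ (l : List ℕ) (i : ℕ),
    checkLowF T C n M dl i l = checkLow T C n M dl i l
  | [], i => by rw [checkLowF, checkLow]
  | w :: t, i => by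
    rw [checkLowF, checkLow]
    simp only [strictN_eq, strict_eq, cond_bool, tb_eq, loopF_eq, checkLowF_eq T C n M dl t]

/-- The check of the mask `M`: with its largest index as pivot or with its smallest one. -/
def checkF (T : NatTree) (C n : ℕ) (asc dl : List ℕ) (M : ℕ) : Bool :=
  checkTopF T C M asc n dl || checkLowF T C n M dl 0 asc

theorem checkF_eq (T : NatTree) (C n : ℕ) (asc dl : List ℕ) :
    checkF T C n asc dl = checkA T C n asc dl := by
  funext M
  rw [checkF, checkA, checkTopF_eq, checkLowF_eq]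

/-- Soundness of the table check `checkF`. -/
theorem checkF_sound (wt : ℕ → ℕ) (C n : ℕ) (hmono : ∀ i j, i ≤ j → j < n → wt i ≤ wt j)
    (T : NatTree)
    (hall : T.all (checkF T C n (ascFrom wt 0 n) (desc wt n)) = true) :
    ∀ M, T.Mem M → ¬ Packable wt C (bits n M) := by
  rw [checkF_eq] at hall
  exact checkA_sound wt C n hmono T hall

end Vale.Agent.Lib.Helper3.BinPacking
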