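import Vale.Agent.Lib.Helper3.P302CertA
import Vale.Agent.Lib.Helper3.P302CertB
import Vale.Agent.Lib.Helper3.P302CertC
import Vale.Agent.Lib.Helper3.P302CertD

/-!
The first 63 items of the instance cannot be split into triples of total weight at most `cap`.
-/

namespace Vale.Agent.Lib.Helper3.BinPacking

open Finset

theorem c65_ok : c65.all chk_c65 = true := by
  simp only [c65, NatTree.all, c65_t0_ok, c65_t1_ok, c65_t2_ok, c65_t3_ok, c65_t4_ok, c65_t5_ok, c65_t6_ok, c65_t7_ok, c65_t8_ok, c65_t9_ok, c65_t10_ok, c65_t11_ok, c65_t12_ok, c65_t13_ok, c65_t14_ok, c65_t15_ok, Bool.and_true, Bool.true_and]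
  decide +kernel

theorem rws_c65_eq : rws_c65 = desc (fun i => wts.getD i 0) 63 := by decide +kernel

theorem aws_c65_eq : aws_c65 = ascFrom (fun i => wts.getD i 0) 0 63 := by decide +kernel

theorem wts_mono_c65 : ∀ j, j < 63 → ∀ i, i ≤ j → wts.getD i 0 ≤ wts.getD j 0 := by decide +kernel

theorem not_packable_63 : ¬ Packable (fun i => wts.getD i 0) cap (Finset.range 63) := by
  have hall : c65.all (fun M => check c65 cap M (ascFrom (fun i => wts.getD i 0) 0 63) 63
      (desc (fun i => wts.getD i 0) 63)) = true := by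
    rw [← rws_c65_eq, ← aws_c65_eq]; exact c65_ok
  have hroot : c65.Mem 9223372036854775807 := NatTree.mem_of_contains c65 _ (by decide +kernel)
  have h := check_sound (fun i => wts.getD i 0) cap 63 (fun i j hij hj => wts_mono_c65 j hj i hij)
    c65 hall _ hroot
  have hb : bits 63 9223372036854775807 = Finset.range 63 := by
    ext j
    rw [mem_bits, Finset.mem_range]
    have h2 : (9223372036854775807 : ℕ) = 2 ^ 63 - 1 := by norm_num
    rw [h2, Nat.testBit_two_pow_sub_one]
    simp
  rw [hb] at h
  exact h

end Vale.Agent.Lib.Helper3.BinPacking
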