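import Vale.Agent.Lib.Helper3.P302Cert122A
import Vale.Agent.Lib.Helper3.P302Cert122B
import Vale.Agent.Lib.Helper3.P302Cert122C
import Vale.Agent.Lib.Helper3.P302Cert122D
import Vale.Agent.Lib.Helper3.P302Cert122E
import Vale.Agent.Lib.Helper3.P302Cert122F
import Vale.Agent.Lib.Helper3.P302Cert122G
import Vale.Agent.Lib.Helper3.P302Cert122H

/-!
The first 120 items of the instance with 122 items cannot be split into triples of total
weight at most `cap122`.
-/

namespace Vale.Agent.Lib.Helper3.BinPacking

open Finset

theorem c122_ok : c122.all chk122 = true := by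
  simp only [c122, NatTree.all,
    c122_t0_ok, c122_t1_ok, c122_t2_ok, c122_t3_ok, c122_t4_ok, c122_t5_ok,
    c122_t6_ok, c122_t7_ok, c122_t8_ok, c122_t9_ok, c122_t10_ok, c122_t11_ok,
    c122_t12_ok, c122_t13_ok, c122_t14_ok, c122_t15_ok, c122_t16_ok, c122_t17_ok,
    c122_t18_ok, c122_t19_ok, c122_t20_ok, c122_t21_ok, c122_t22_ok, c122_t23_ok,
    c122_t24_ok, c122_t25_ok, c122_t26_ok, c122_t27_ok, c122_t28_ok, c122_t29_ok,
    c122_t30_ok, c122_t31_ok,
    Bool.and_true]
  decide +kernel

theorem rws122_eq : rws122 = desc (fun i => wts122.getD i 0) 120 := by decide +kernel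

theorem aws122_eq : aws122 = ascFrom (fun i => wts122.getD i 0) 0 120 := by decide +kernel

theorem wts122_mono : ∀ j, j < 120 → ∀ i, i ≤ j → wts122.getD i 0 ≤ wts122.getD j 0 := by
  decide +kernel

theorem not_packable_120 :
    ¬ Packable (fun i => wts122.getD i 0) cap122 (Finset.range 120) := by
  have hall : c122.all (fun M => check2 c122 cap122 M
      (ascFrom (fun i => wts122.getD i 0) 0 120) 120
      (desc (fun i => wts122.getD i 0) 120)) = true := by
    rw [← rws122_eq, ← aws122_eq]; exact c122_ok
  have hroot : c122.Mem 1329227995784915872903807060280344575 :=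
    NatTree.mem_of_contains c122 _ (by decide +kernel)
  have h := check2_sound (fun i => wts122.getD i 0) cap122 120
    (fun i j hij hj => wts122_mono j hj i hij) c122 hall _ hroot
  have hb : bits 120 1329227995784915872903807060280344575 = Finset.range 120 := by
    ext j
    rw [mem_bits, Finset.mem_range]
    have h2 : (1329227995784915872903807060280344575 : ℕ) = 2 ^ 120 - 1 := by norm_num
    rw [h2, Nat.testBit_two_pow_sub_one]
    simp
  rw [hb] at h
  exact h

end Vale.Agent.Lib.Helper3.BinPacking
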