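import Vale.Agent.Lib.Helper3.BinPacking

/-!
A bin packing instance with 65 items: the sizes are `wts[i] / cap`.
-/

namespace Vale.Agent.Lib.Helper3.BinPacking

open Finset

/-- `A` is the union of pairwise disjoint triples of indices, each of total weight at most `C`. -/
def Packable (wt : ℕ → ℕ) (C : ℕ) (A : Finset ℕ) : Prop :=
  ∃ P : Finset (Finset ℕ), (∀ T ∈ P, T.card = 3 ∧ ∑ i ∈ T, wt i ≤ C) ∧
    (∀ T ∈ P, ∀ T' ∈ P, T ≠ T' → Disjoint T T') ∧ P.biUnion id = A

/-- The 65 item weights in increasing order. -/
def wts : List ℕ := [
  75967000000000, 75968200000000, 75968800000000, 75980800000000, 75984400000000,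
  75986800000000, 75988300000000, 75989800000000, 91000000000000, 91000000000000,
  99999975967000, 99999975968200, 99999975968800, 99999975980800, 99999975984400,
  99999975986800, 99999975988300, 99999975989800, 99999991000000, 99999991000000,
  99999991000000, 99999991000000, 99999999999976, 99999999999991, 100000000000000,
  100000000000000, 100000000000012, 100000000000015, 100000003000000, 100000003000000,
  100000012001200, 100000012005100, 100000012005700, 100000012006300, 100000012006600,
  100000012007800, 100000012008100, 100000012008100, 100000012015000, 100000012015600,
  100000012015900, 100000012015900, 100000012016500, 100000012016800, 100000012016800,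
  100000012018000, 100000015000000, 100000015000000, 112001200000000, 112005100000000,
  112005700000000, 112006300000000, 112006600000000, 112007800000000, 112008100000000,
  112008100000000, 112015000000000, 112015600000000, 112015900000000, 112015900000000,
  112016500000000, 112016800000000, 112016800000000, 112018000000000, 115000000000000]

/-- The bin capacity in the same unit as `wts`. -/
def cap : ℕ := 300000000000000

/-- The instance: item `i` has size `wts[i] / cap`. -/
def inst : Fin 65 → ℚ := fun i => (wts.getD (i : ℕ) 0 : ℚ) / (cap : ℚ)

end Vale.Agent.Lib.Helper3.BinPacking
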