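import Vale.Agent.Lib.Helper3.P302Inst

/-!
A bin packing instance with 122 items: the sizes are `wts122[i] / cap122`.
-/

namespace Vale.Agent.Lib.Helper3.BinPacking

/-- The 122 item weights in increasing order. -/
def wts122 : List ℕ := [
  759998359, 759998374, 759998410, 759999163, 759999211,
  759999226, 759999262, 759999373, 759999436, 759999451,
  759999460, 759999490, 759999589, 910000000, 910000000,
  997598359, 997598374, 997598410, 997599163, 997599211,
  997599226, 997599262, 997599373, 997599436, 997599451,
  997599460, 997599490, 997599589, 999100000, 999100000,
  999975670, 999975682, 999975688, 999975808, 999975844,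
  999975868, 999975883, 999975898, 999991000, 999991000,
  999991000, 999991000, 999999976, 999999991, 1000000000,
  1000000000, 1000000012, 1000000015, 1000003000, 1000003000,
  1000012012, 1000012051, 1000012057, 1000012063, 1000012066,
  1000012078, 1000012081, 1000012081, 1000012150, 1000012156,
  1000012159, 1000012159, 1000012165, 1000012168, 1000012168,
  1000012180, 1000015000, 1000015000, 1000300000, 1001200000,
  1001200216, 1001200264, 1001200270, 1001200273, 1001200276,
  1001200282, 1001200285, 1001200285, 1001200366, 1001200369,
  1001200372, 1001200387, 1001200390, 1001200408, 1001200411,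
  1001200792, 1001200795, 1001200798, 1001200813, 1001200816,
  1001200834, 1001200837, 1001201644, 1001201647, 1001500000,
  1030000000, 1120000000, 1120000216, 1120000264, 1120000270,
  1120000273, 1120000276, 1120000282, 1120000285, 1120000285,
  1120000366, 1120000369, 1120000372, 1120000387, 1120000390,
  1120000408, 1120000411, 1120000792, 1120000795, 1120000798,
  1120000813, 1120000816, 1120000834, 1120000837, 1120001644,
  1120001647, 1150000000]

/-- The bin capacity in the same unit as `wts122`. -/
def cap122 : ℕ := 3000000000

/-- The instance: item `i` has size `wts122[i] / cap122`. -/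
def inst122 : Fin 122 → ℚ := fun i => (wts122.getD (i : ℕ) 0 : ℚ) / (cap122 : ℚ)

end Vale.Agent.Lib.Helper3.BinPacking
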