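import Vale.Agent.Lib.Helper3.BinPacking

/-!
Padding a bin packing instance with two items of size `1/2`.

If all sizes of an instance lie in `(1/4, 1/2]`, then appending two items of size `1/2` raises
the optimal number of bins by exactly one and raises the value of the configuration linear
program by at most one.  Hence the difference between the two does not decrease, and every
value of the optimum from the original one on is attained.
-/

namespace Vale.Agent.Lib.Helper3.BinPacking

open Finset

/-- The instance `a` followed by two items of size `1/2`. -/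
def pad {n : ℕ} (a : Fin n → ℚ) : Fin (n + 2) → ℚ :=
  fun i => if h : (i : ℕ) < n then a ⟨i, h⟩ else 1 / 2

/-- The index of an old item inside the padded instance. -/
def oldIdx {n : ℕ} (i : Fin n) : Fin (n + 2) := ⟨i, by omega⟩

/-- The index of the first new item. -/
def newA (n : ℕ) : Fin (n + 2) := ⟨n, by omega⟩

/-- The index of the second new item. -/
def newB (n : ℕ) : Fin (n + 2) := ⟨n + 1, by omega⟩

theorem pad_old {n : ℕ} (a : Fin n → ℚ) (i : Fin n) : pad a (oldIdx i) = a i := by
  unfold pad oldIdx
  simp

theorem pad_newA {n : ℕ} (a : Fin n → ℚ) : pad a (newA n) = 1 / 2 := by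
  unfold pad newA
  simp

theorem pad_newB {n : ℕ} (a : Fin n → ℚ) : pad a (newB n) = 1 / 2 := by
  unfold pad newB
  simp

/-- A sum over the padded index set splits into the old part and the two new items. -/
theorem sum_pad {n : ℕ} (g : Fin (n + 2) → ℚ) :
    ∑ i, g i = ∑ i : Fin n, g (oldIdx i) + g (newA n) + g (newB n) := by
  rw [Fin.sum_univ_castSucc, Fin.sum_univ_castSucc]
  rfl

theorem sum_pad_real {n : ℕ} (g : Fin (n + 2) → ℝ) :
    ∑ i, g i = ∑ i : Fin n, g (oldIdx i) + g (newA n) + g (newB n) := by
  rw [Fin.sum_univ_castSucc, Fin.sum_univ_castSucc]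
  rfl

theorem sum_pad_nat {n : ℕ} (g : Fin (n + 2) → ℕ) :
    ∑ i, g i = ∑ i : Fin n, g (oldIdx i) + g (newA n) + g (newB n) := by
  rw [Fin.sum_univ_castSucc, Fin.sum_univ_castSucc]
  rfl

theorem pad_range {n : ℕ} (a : Fin n → ℚ) (h : ∀ i, 1 / 4 < a i ∧ a i ≤ 1 / 2) :
    ∀ i, 1 / 4 < pad a i ∧ pad a i ≤ 1 / 2 := by
  intro i
  unfold pad
  split_ifs with hi
  · exact h ⟨i, hi⟩
  · constructor <;> norm_num


/-- The assignment for the padded instance: old items keep their bins, the two new items go
into one further bin. -/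
def padMap {n k : ℕ} (f : Fin n → Fin k) : Fin (n + 2) → Fin (k + 1) :=
  fun i => if h : (i : ℕ) < n then (f ⟨i, h⟩).castSucc else Fin.last k

theorem padMap_old {n k : ℕ} (f : Fin n → Fin k) (i : Fin n) :
    padMap f (oldIdx i) = (f i).castSucc := by
  unfold padMap oldIdx
  simp

theorem padMap_newA {n k : ℕ} (f : Fin n → Fin k) : padMap f (newA n) = Fin.last k := by
  unfold padMap newA
  simp

theorem padMap_newB {n k : ℕ} (f : Fin n → Fin k) : padMap f (newB n) = Fin.last k := by
  unfold padMap newB
  simp

/-- A packing of `a` into `k` bins gives a packing of the padded instance into `k + 1` bins. -/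
theorem packing_pad {n k : ℕ} (a : Fin n → ℚ) (f : Fin n → Fin k) (hf : IsPacking a k f) :
    IsPacking (pad a) (k + 1) (padMap f) := by
  intro b
  rw [Finset.sum_filter, sum_pad]
  simp only [padMap_old, padMap_newA, padMap_newB, pad_old, pad_newA, pad_newB]
  rcases Fin.eq_castSucc_or_eq_last b with ⟨b', rfl⟩ | rfl
  · have h1 : ¬ (Fin.last k = b'.castSucc) := fun h => (Fin.castSucc_lt_last b').ne h.symm
    rw [if_neg h1]
    have h2 : ∑ i : Fin n, (if (f i).castSucc = b'.castSucc then a i else 0) =
        ∑ i : Fin n, (if f i = b' then a i else 0) := by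
      apply Finset.sum_congr rfl
      intro i _
      by_cases h : f i = b'
      · rw [if_pos h, if_pos (by rw [h])]
      · rw [if_neg h, if_neg (fun h' => h (Fin.castSucc_inj.mp h'))]
    rw [h2, ← Finset.sum_filter]
    have := hf b'
    linarith
  · have h2 : ∑ i : Fin n, (if (f i).castSucc = Fin.last k then a i else 0) = 0 := by
      apply Finset.sum_eq_zero
      intro i _
      rw [if_neg (Fin.castSucc_lt_last (f i)).ne]
    rw [h2]
    norm_num

/-- Two bins whose contents fit together into one bin can be merged. -/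
theorem packing_merge {n k : ℕ} (a : Fin n → ℚ) (f : Fin n → Fin (k + 1)) (r t : Fin (k + 1))
    (hrt : t ≠ r)
    (hsum : ∀ c, ∑ i, (if f i = c then a i else 0) ≤ 1)
    (hm : ∑ i, (if f i = r then a i else 0) + ∑ i, (if f i = t then a i else 0) ≤ 1) :
    ∃ g : Fin n → Fin k, IsPacking a k g := by
  have hv : ∀ i, (if f i = r then t else f i) ≠ r := by
    intro i
    split_ifs with h
    · exact hrt
    · exact h
  refine ⟨fun i => Classical.choose (Fin.exists_succAbove_eq (hv i)), ?_⟩
  have hg : ∀ i, r.succAbove (Classical.choose (Fin.exists_succAbove_eq (hv i))) =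
      (if f i = r then t else f i) := fun i => Classical.choose_spec (Fin.exists_succAbove_eq (hv i))
  intro c'
  rw [Finset.sum_filter]
  have hc : r.succAbove c' ≠ r := Fin.succAbove_ne r c'
  have hiff : ∀ i, (Classical.choose (Fin.exists_succAbove_eq (hv i)) = c') ↔
      ((if f i = r then t else f i) = r.succAbove c') := by
    intro i
    constructor
    · intro h
      rw [← hg i, h]
    · intro h
      rw [← hg i] at h
      exact Fin.succAbove_right_injective h
  by_cases hct : r.succAbove c' = t
  · have e : ∀ i, (if Classical.choose (Fin.exists_succAbove_eq (hv i)) = c' then a i else 0) =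
        (if f i = r then a i else 0) + (if f i = t then a i else 0) := by
      intro i
      by_cases h1 : f i = r
      · have h2 : ¬ (f i = t) := by
          rw [h1]
          exact fun h => hrt h.symm
        have h3 : Classical.choose (Fin.exists_succAbove_eq (hv i)) = c' := by
          rw [hiff i, if_pos h1, hct]
        rw [if_pos h3, if_pos h1, if_neg h2, add_zero]
      · by_cases h2 : f i = t
        · have h3 : Classical.choose (Fin.exists_succAbove_eq (hv i)) = c' := by
            rw [hiff i, if_neg h1, hct, h2]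
          rw [if_pos h3, if_neg h1, if_pos h2, zero_add]
        · have h3 : ¬ (Classical.choose (Fin.exists_succAbove_eq (hv i)) = c') := by
            rw [hiff i, if_neg h1, hct]
            exact h2
          rw [if_neg h3, if_neg h1, if_neg h2, add_zero]
    rw [Finset.sum_congr rfl (fun i _ => e i), Finset.sum_add_distrib]
    exact hm
  · have e : ∀ i, (if Classical.choose (Fin.exists_succAbove_eq (hv i)) = c' then a i else 0) =
        (if f i = r.succAbove c' then a i else 0) := by
      intro i
      by_cases h1 : f i = r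
      · have h2 : ¬ (f i = r.succAbove c') := by
          rw [h1]
          exact fun h => hc h.symm
        have h3 : ¬ (Classical.choose (Fin.exists_succAbove_eq (hv i)) = c') := by
          rw [hiff i, if_pos h1]
          exact fun h => hct h.symm
        rw [if_neg h3, if_neg h2]
      · by_cases h2 : f i = r.succAbove c'
        · have h3 : Classical.choose (Fin.exists_succAbove_eq (hv i)) = c' := by
            rw [hiff i, if_neg h1, h2]
          rw [if_pos h3, if_pos h2]
        · have h3 : ¬ (Classical.choose (Fin.exists_succAbove_eq (hv i)) = c') := by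
            rw [hiff i, if_neg h1]
            exact h2
          rw [if_neg h3, if_neg h2]
    rw [Finset.sum_congr rfl (fun i _ => e i)]
    exact hsum _


/-- A packing of the padded instance into `K` bins gives a packing of `a` into one bin less. -/
theorem packing_of_pad {n K : ℕ} (a : Fin n → ℚ) (ha : ∀ i, 1 / 4 < a i ∧ a i ≤ 1 / 2)
    (F : Fin (n + 2) → Fin K) (hF : IsPacking (pad a) K F) :
    ∃ k, K = k + 1 ∧ ∃ g : Fin n → Fin k, IsPacking a k g := by
  have hK : K ≠ 0 := by
    intro h
    subst h
    exact (F (newA n)).elim0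
  obtain ⟨k, rfl⟩ := Nat.exists_eq_succ_of_ne_zero hK
  refine ⟨k, rfl, ?_⟩
  have key : ∀ c : Fin (k + 1),
      ∑ i : Fin n, (if F (oldIdx i) = c then a i else 0) +
        (if F (newA n) = c then (1 / 2 : ℚ) else 0) +
        (if F (newB n) = c then (1 / 2 : ℚ) else 0) ≤ 1 := by
    intro c
    have h := hF c
    rw [Finset.sum_filter, sum_pad] at h
    simp only [pad_old, pad_newA, pad_newB] at h
    exact h
  have hnn : ∀ c : Fin (k + 1), 0 ≤ ∑ i : Fin n, (if F (oldIdx i) = c then a i else 0) := by
    intro c
    apply Finset.sum_nonneg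
    intro i _
    split_ifs
    · have := (ha i).1
      linarith
    · exact le_refl _
  have hle : ∀ c : Fin (k + 1), ∑ i : Fin n, (if F (oldIdx i) = c then a i else 0) ≤ 1 := by
    intro c
    have h := key c
    have h1 : (0 : ℚ) ≤ (if F (newA n) = c then (1 / 2 : ℚ) else 0) := by
      split_ifs <;> norm_num
    have h2 : (0 : ℚ) ≤ (if F (newB n) = c then (1 / 2 : ℚ) else 0) := by
      split_ifs <;> norm_num
    linarith
  by_cases hAB : F (newA n) = F (newB n)
  · -- both new items in one bin: that bin holds no old item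
    have hb : ∑ i : Fin n, (if F (oldIdx i) = F (newB n) then a i else 0) ≤ 0 := by
      have h := key (F (newB n))
      rw [if_pos hAB, if_pos rfl] at h
      linarith
    by_cases hk : k = 0
    · subst hk
      have hn : n = 0 := by
        by_contra hn
        have i0 : Fin n := ⟨0, Nat.pos_of_ne_zero hn⟩
        have h1 : (if F (oldIdx i0) = F (newB n) then a i0 else 0) ≤
            ∑ i : Fin n, (if F (oldIdx i) = F (newB n) then a i else 0) := by
          apply Finset.single_le_sum (f := fun i => if F (oldIdx i) = F (newB n) then a i else 0)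
          · intro i _
            split_ifs
            · have := (ha i).1
              linarith
            · exact le_refl _
          · exact Finset.mem_univ i0
        rw [if_pos (Subsingleton.elim _ _)] at h1
        have := (ha i0).1
        linarith
      subst hn
      exact ⟨fun i => i.elim0, fun b => b.elim0⟩
    · have hnt : Nontrivial (Fin (k + 1)) := Fin.nontrivial_iff_two_le.mpr (by omega)
      obtain ⟨c0, hc0⟩ := exists_ne (F (newB n))
      exact packing_merge a (fun i => F (oldIdx i)) (F (newB n)) c0 hc0 hle (by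
        have := hle c0
        linarith)
  · -- the new items in different bins: each of the two bins holds old items of size at most 1/2
    have hA : ∑ i : Fin n, (if F (oldIdx i) = F (newA n) then a i else 0) ≤ 1 / 2 := by
      have h := key (F (newA n))
      rw [if_pos rfl, if_neg (fun h' => hAB h'.symm)] at h
      linarith
    have hB : ∑ i : Fin n, (if F (oldIdx i) = F (newB n) then a i else 0) ≤ 1 / 2 := by
      have h := key (F (newB n))
      rw [if_neg hAB, if_pos rfl] at h
      linarith
    exact packing_merge a (fun i => F (oldIdx i)) (F (newB n)) (F (newA n)) hAB hle (by linarith)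

/-- The optimum is attained: there is a packing into `opt a` bins. -/
theorem opt_mem {n : ℕ} (a : Fin n → ℚ) (ha1 : ∀ i, a i ≤ 1) :
    ∃ f : Fin n → Fin (opt a), IsPacking a (opt a) f := by
  have hne : {k : ℕ | ∃ f : Fin n → Fin k, IsPacking a k f}.Nonempty := by
    refine ⟨n, fun i => i, ?_⟩
    intro b
    have : univ.filter (fun i : Fin n => i = b) = {b} := by
      ext i; simp
    rw [this]
    simpa using ha1 b
  exact Nat.sInf_mem hne

/-- Padding raises the optimum by exactly one. -/
theorem opt_pad {n : ℕ} (a : Fin n → ℚ) (ha : ∀ i, 1 / 4 < a i ∧ a i ≤ 1 / 2) :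
    opt (pad a) = opt a + 1 := by
  have ha1 : ∀ i, a i ≤ 1 := fun i => le_trans (ha i).2 (by norm_num)
  have hp1 : ∀ i, pad a i ≤ 1 := fun i => le_trans (pad_range a ha i).2 (by norm_num)
  apply le_antisymm
  · obtain ⟨f, hf⟩ := opt_mem a ha1
    exact Nat.sInf_le ⟨padMap f, packing_pad a f hf⟩
  · obtain ⟨F, hF⟩ := opt_mem (pad a) hp1
    obtain ⟨k, hk, g, hg⟩ := packing_of_pad a ha F hF
    have h1 : opt a ≤ k := Nat.sInf_le ⟨g, hg⟩
    omega


/-- Every instance with sizes at most `1` has a fractional cover: one configuration per item. -/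
theorem exists_cover {n : ℕ} (a : Fin n → ℚ) (ha1 : ∀ i, a i ≤ 1) :
    ∃ (m : ℕ) (cfg : Fin m → ℚ → ℕ) (w : Fin m → ℝ), IsFracCover a m cfg w := by
  refine ⟨n, fun j σ => if σ = a j then 1 else 0, fun _ => 1, fun _ => zero_le_one, ?_, ?_⟩
  · intro j
    have hmem : a j ∈ sizes a := Finset.mem_image_of_mem a (Finset.mem_univ j)
    refine ⟨?_, ?_⟩
    · intro σ hσ
      have h : σ ≠ a j := by
        intro h
        apply hσ
        rw [h]
        exact hmem
      beta_reduce
      rw [if_neg h]
    · have e : ∀ σ ∈ sizes a, σ * (((if σ = a j then 1 else 0 : ℕ)) : ℚ) =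
          if σ = a j then a j else 0 := by
        intro σ _
        split_ifs with h
        · rw [h]
          simp
        · simp
      rw [Finset.sum_congr rfl e, Finset.sum_ite_eq' (sizes a) (a j) (fun _ => a j), if_pos hmem]
      exact ha1 j
  · intro σ _
    have e : (mult a σ : ℝ) = ∑ j : Fin n, (((if σ = a j then 1 else 0 : ℕ) : ℝ) * 1) := by
      unfold mult
      rw [Finset.card_filter, Nat.cast_sum]
      apply Finset.sum_congr rfl
      intro j _
      by_cases h : a j = σ
      · rw [if_pos h, if_pos h.symm]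
        simp
      · rw [if_neg h, if_neg (fun h' => h h'.symm)]
        simp
    rw [e]

/-- The configurations of a cover followed by the configuration of two items of size `1/2`. -/
def extCfg {m : ℕ} (cfg : Fin m → ℚ → ℕ) : Fin (m + 1) → ℚ → ℕ :=
  fun j => if h : (j : ℕ) < m then cfg ⟨j, h⟩ else fun σ => if σ = 1 / 2 then 2 else 0

/-- The weights of a cover followed by the weight `1`. -/
def extW {m : ℕ} (w : Fin m → ℝ) : Fin (m + 1) → ℝ :=
  fun j => if h : (j : ℕ) < m then w ⟨j, h⟩ else 1

theorem extCfg_castSucc {m : ℕ} (cfg : Fin m → ℚ → ℕ) (j : Fin m) :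
    extCfg cfg j.castSucc = cfg j := by
  unfold extCfg
  simp

theorem extCfg_last {m : ℕ} (cfg : Fin m → ℚ → ℕ) :
    extCfg cfg (Fin.last m) = fun σ => if σ = 1 / 2 then 2 else 0 := by
  unfold extCfg
  simp

theorem extW_castSucc {m : ℕ} (w : Fin m → ℝ) (j : Fin m) : extW w j.castSucc = w j := by
  unfold extW
  simp

theorem extW_last {m : ℕ} (w : Fin m → ℝ) : extW w (Fin.last m) = 1 := by
  unfold extW
  simp

/-- A fractional cover of `a` extends to a fractional cover of the padded instance with one
more unit of weight. -/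
theorem cover_pad {n : ℕ} (a : Fin n → ℚ) (m : ℕ) (cfg : Fin m → ℚ → ℕ) (w : Fin m → ℝ)
    (h : IsFracCover a m cfg w) : IsFracCover (pad a) (m + 1) (extCfg cfg) (extW w) := by
  have hsub : sizes a ⊆ sizes (pad a) := by
    intro σ hσ
    obtain ⟨i, _, rfl⟩ := Finset.mem_image.mp hσ
    rw [← pad_old a i]
    exact Finset.mem_image_of_mem (pad a) (Finset.mem_univ _)
  have hhalf : (1 / 2 : ℚ) ∈ sizes (pad a) := by
    rw [← pad_newA a]
    exact Finset.mem_image_of_mem (pad a) (Finset.mem_univ _)
  refine ⟨?_, ?_, ?_⟩
  · intro j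
    rcases Fin.eq_castSucc_or_eq_last j with ⟨j', rfl⟩ | rfl
    · rw [extW_castSucc]
      exact h.1 j'
    · rw [extW_last]
      exact zero_le_one
  · intro j
    rcases Fin.eq_castSucc_or_eq_last j with ⟨j', rfl⟩ | rfl
    · rw [extCfg_castSucc]
      obtain ⟨hs, hsum⟩ := h.2.1 j'
      refine ⟨fun σ hσ => hs σ (fun hh => hσ (hsub hh)), ?_⟩
      rw [← Finset.sum_subset hsub (fun σ _ hσ => by rw [hs σ hσ]; simp)]
      exact hsum
    · rw [extCfg_last]
      refine ⟨?_, ?_⟩
      · intro σ hσ
        have h1 : σ ≠ 1 / 2 := by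
          intro hh
          apply hσ
          rw [hh]
          exact hhalf
        beta_reduce
        rw [if_neg h1]
      · have e : ∀ σ ∈ sizes (pad a), σ * (((if σ = 1 / 2 then 2 else 0 : ℕ)) : ℚ) =
            if σ = 1 / 2 then 1 else 0 := by
          intro σ _
          split_ifs with hh
          · rw [hh]
            norm_num
          · simp
        rw [Finset.sum_congr rfl e, Finset.sum_ite_eq' (sizes (pad a)) (1 / 2) (fun _ => (1 : ℚ)),
          if_pos hhalf]
  · intro σ _
    rw [Fin.sum_univ_castSucc]
    simp only [extCfg_castSucc, extW_castSucc, extCfg_last, extW_last]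
    have hm : mult (pad a) σ = mult a σ + (if σ = 1 / 2 then 2 else 0) := by
      unfold mult
      rw [Finset.card_filter, Finset.card_filter, sum_pad_nat]
      simp only [pad_old, pad_newA, pad_newB]
      by_cases hσ : σ = 1 / 2
      · rw [if_pos hσ, if_pos hσ.symm]
      · rw [if_neg hσ, if_neg (fun hh => hσ hh.symm)]
    have hc : (mult a σ : ℝ) ≤ ∑ j, (cfg j σ : ℝ) * w j := by
      by_cases hs : σ ∈ sizes a
      · exact h.2.2 σ hs
      · have h0 : mult a σ = 0 := by
          unfold mult
          rw [Finset.card_eq_zero, Finset.filter_eq_empty_iff]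
          intro i _ hi
          apply hs
          rw [← hi]
          exact Finset.mem_image_of_mem a (Finset.mem_univ i)
        rw [h0, Nat.cast_zero]
        exact Finset.sum_nonneg (fun j _ => mul_nonneg (Nat.cast_nonneg _) (h.1 j))
    rw [hm]
    push_cast
    linarith

/-- Padding raises the value of the configuration linear program by at most one. -/
theorem lp_pad_le {n : ℕ} (a : Fin n → ℚ) (ha1 : ∀ i, a i ≤ 1) : lp (pad a) ≤ lp a + 1 := by
  have hkey : ∀ (m : ℕ) (cfg : Fin m → ℚ → ℕ) (w : Fin m → ℝ), IsFracCover a m cfg w →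
      lp (pad a) ≤ ∑ j, w j + 1 := by
    intro m cfg w h
    have h1 := lp_le_of_cover (pad a) (m + 1) (extCfg cfg) (extW w) (cover_pad a m cfg w h)
    rw [Fin.sum_univ_castSucc] at h1
    simp only [extW_castSucc, extW_last] at h1
    exact h1
  have hne : {v : ℝ | ∃ (m : ℕ) (cfg : Fin m → ℚ → ℕ) (w : Fin m → ℝ),
      IsFracCover a m cfg w ∧ v = ∑ j, w j}.Nonempty := by
    obtain ⟨m, cfg, w, h⟩ := exists_cover a ha1
    exact ⟨_, m, cfg, w, h, rfl⟩
  have h2 : lp (pad a) - 1 ≤ lp a := by
    change lp (pad a) - 1 ≤ sInf {v : ℝ | ∃ (m : ℕ) (cfg : Fin m → ℚ → ℕ) (w : Fin m → ℝ),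
      IsFracCover a m cfg w ∧ v = ∑ j, w j}
    apply le_csInf hne
    rintro v ⟨m, cfg, w, h, rfl⟩
    have := hkey m cfg w h
    linarith
  linarith


/-- From one instance with all sizes in `(1/4, 1/2]`: instances of the same kind with every
larger value of the optimum and at least the same difference between the optimum and the value
of the configuration linear program. -/
theorem exists_opt_eq {n : ℕ} (a : Fin n → ℚ) (ha : ∀ i, 1 / 4 < a i ∧ a i ≤ 1 / 2) (x : ℝ)
    (hx : x ≤ (opt a : ℝ) - lp a) (K : ℕ) (hK : opt a ≤ K) :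
    ∃ (n' : ℕ) (a' : Fin n' → ℚ), (∀ i, 1 / 4 < a' i ∧ a' i ≤ 1 / 2) ∧ opt a' = K ∧
      x ≤ (opt a' : ℝ) - lp a' := by
  induction K, hK using Nat.le_induction with
  | base => exact ⟨n, a, ha, rfl, hx⟩
  | succ K _ ih =>
    obtain ⟨n', a', ha', ho, hg⟩ := ih
    have h1 := lp_pad_le a' (fun i => le_trans (ha' i).2 (by norm_num))
    have h2 := opt_pad a' ha'
    refine ⟨n' + 2, pad a', pad_range a' ha', by rw [h2, ho], ?_⟩
    rw [h2]
    push_cast
    linarith

/-- Items of size at most `1/2` can be packed two per bin. -/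
theorem opt_le_half {n : ℕ} (a : Fin n → ℚ) (ha : ∀ i, a i ≤ 1 / 2) : opt a ≤ (n + 1) / 2 := by
  apply Nat.sInf_le
  refine ⟨fun i => ⟨(i : ℕ) / 2, by omega⟩, ?_⟩
  intro b
  have hcard : (univ.filter (fun i : Fin n =>
      (⟨(i : ℕ) / 2, by omega⟩ : Fin ((n + 1) / 2)) = b)).card ≤ 2 := by
    have hsub : ∀ i ∈ univ.filter (fun i : Fin n =>
        (⟨(i : ℕ) / 2, by omega⟩ : Fin ((n + 1) / 2)) = b),
        (i : ℕ) ∈ ({2 * (b : ℕ), 2 * (b : ℕ) + 1} : Finset ℕ) := by
      intro i hi
      rw [Finset.mem_filter] at hi
      have h := congrArg Fin.val hi.2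
      simp only at h
      rw [Finset.mem_insert, Finset.mem_singleton]
      omega
    have hinj : Set.InjOn (fun i : Fin n => (i : ℕ)) (univ.filter (fun i : Fin n =>
        (⟨(i : ℕ) / 2, by omega⟩ : Fin ((n + 1) / 2)) = b) : Finset (Fin n)) := by
      intro i _ j _ hij
      exact Fin.ext hij
    exact le_trans (Finset.card_le_card_of_injOn _ hsub hinj) Finset.card_le_two
  have h1 := Finset.sum_le_card_nsmul (univ.filter (fun i : Fin n =>
      (⟨(i : ℕ) / 2, by omega⟩ : Fin ((n + 1) / 2)) = b)) a (1 / 2) (fun i _ => ha i)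
  rw [nsmul_eq_mul] at h1
  have h2 : ((univ.filter (fun i : Fin n =>
      (⟨(i : ℕ) / 2, by omega⟩ : Fin ((n + 1) / 2)) = b)).card : ℚ) ≤ 2 := by
    exact_mod_cast hcard
  linarith

end Vale.Agent.Lib.Helper3.BinPacking
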