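import Vale.Agent.Lib.Helper3.P302Pad
import Vale.Agent.Lib.Helper2.P302.DoublingM

/-!
Bin packing instances with every prescribed value of the optimum.

`four_thirds_size j` gives an instance with `7 + 3 j (25 * 2^(j+1) - 1)` items, all of size in
`(1/4, 1/2]`, whose optimum exceeds the value of the configuration linear program by at least
`4/3 - (2/3)^j`.  Its optimum is at most half of the number of items, rounded up, hence at most
`100 * 4^j`.  Padding with pairs of items of size `1/2` then gives such an instance for every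
value `K ≥ 100 * 4^j` of the optimum, and choosing `j` for a given `K` gives the bound
`4/3 - 5 / K^(1/4)` for every `K ≥ 1`.
-/

namespace Vale.Agent.Lib.Helper3.P302Rate

open Vale.Agent.Lib.Helper3.BinPacking

/-- The size bound: half of the number of items is at most `100 * 4^j`. -/
theorem size_bound (j n : ℕ) (hn : n + 3 * j = 7 + 75 * j * 2 ^ (j + 1)) :
    (n + 1) / 2 ≤ 100 * 4 ^ j := by
  have h1 : j < 2 ^ j := Nat.lt_two_pow_self
  have h2 : (4 : ℕ) ^ j = 2 ^ j * 2 ^ j := by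
    rw [← mul_pow]
    norm_num
  have h4 : j * 2 ^ j ≤ 2 ^ j * 2 ^ j := Nat.mul_le_mul_right _ (le_of_lt h1)
  have h5 : 75 * j * 2 ^ (j + 1) = 150 * (j * 2 ^ j) := by
    rw [pow_succ]
    ring
  have h8 : 1 ≤ 2 ^ j * 2 ^ j := Nat.one_le_two_pow.trans (Nat.le_mul_of_pos_right _ (by omega))
  rw [h2]
  omega

/-- For every `j` and every `K ≥ 100 * 4^j`: an instance with all sizes in `(1/4, 1/2]`,
optimum exactly `K`, and difference at least `4/3 - (2/3)^j`. -/
theorem rate_pow (j K : ℕ) (hK : 100 * 4 ^ j ≤ K) : ∃ (n : ℕ) (a : Fin n → ℚ),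
    (∀ i, 1 / 4 < a i ∧ a i ≤ 1 / 2) ∧ opt a = K ∧
      4 / 3 - (2 / 3 : ℝ) ^ j ≤ (opt a : ℝ) - lp a := by
  obtain ⟨n, a, hn, ha, hgap⟩ := Vale.Agent.Lib.Helper2.DoublingM.four_thirds_size j
  have hopt : opt a ≤ K :=
    le_trans (opt_le_half a (fun i => (ha i).2)) (le_trans (size_bound j n hn) hK)
  exact exists_opt_eq a ha _ hgap K hopt

/-- The instance without items: optimum `0` and linear programming value at most `0`. -/
theorem empty_gap (a : Fin 0 → ℚ) : (0 : ℝ) ≤ (opt a : ℝ) - lp a := by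
  have h1 : lp a ≤ 0 := by
    have h := lp_le_of_cover a 0 (fun j => j.elim0) (fun j => j.elim0)
      ⟨fun j => j.elim0, fun j => j.elim0, fun σ hσ => by
        obtain ⟨i, _, _⟩ := Finset.mem_image.mp hσ
        exact i.elim0⟩
    simpa using h
  have h2 : (0 : ℝ) ≤ (opt a : ℝ) := Nat.cast_nonneg _
  linarith

/-- For every `K`: an instance with all sizes in `(1/4, 1/2]`, optimum exactly `K`, and the
optimum at least the value of the configuration linear program. -/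
theorem rate_zero (K : ℕ) : ∃ (n : ℕ) (a : Fin n → ℚ),
    (∀ i, 1 / 4 < a i ∧ a i ≤ 1 / 2) ∧ opt a = K ∧ (0 : ℝ) ≤ (opt a : ℝ) - lp a := by
  have a0 : Fin 0 → ℚ := fun i => i.elim0
  have h0 : opt a0 = 0 := by
    apply Nat.le_zero.mp
    exact Nat.sInf_le ⟨fun i => i.elim0, fun b => b.elim0⟩
  exact exists_opt_eq a0 (fun i => i.elim0) 0 (empty_gap a0) K (by omega)

/-- For every `K ≥ 1`: an instance with all sizes in `(1/4, 1/2]`, optimum exactly `K`, and
difference between the optimum and the value of the configuration linear program at least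
`4/3 - 5 / K^(1/4)`. -/
theorem rate (K : ℕ) (hK : 1 ≤ K) : ∃ (n : ℕ) (a : Fin n → ℚ),
    (∀ i, 1 / 4 < a i ∧ a i ≤ 1 / 2) ∧ opt a = K ∧
      4 / 3 - 5 / (K : ℝ) ^ ((1 : ℝ) / 4) ≤ (opt a : ℝ) - lp a := by
  have hKpos : (0 : ℝ) < (K : ℝ) := by exact_mod_cast hK
  have hK0 : (0 : ℝ) ≤ (K : ℝ) := le_of_lt hKpos
  set y : ℝ := (K : ℝ) ^ ((1 : ℝ) / 4) with hy
  have hypos : 0 < y := Real.rpow_pos_of_pos hKpos _
  have hy4 : y ^ 4 = (K : ℝ) := by
    rw [hy]
    have h := Real.rpow_inv_natCast_pow hK0 (by norm_num : (4 : ℕ) ≠ 0)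
    have e : ((4 : ℕ) : ℝ)⁻¹ = (1 : ℝ) / 4 := by norm_num
    rw [e] at h
    exact h
  by_cases hsmall : K < 100
  · -- the bound is negative
    obtain ⟨n, a, ha, ho, hg⟩ := rate_zero K
    refine ⟨n, a, ha, ho, ?_⟩
    have hyle : y ≤ 15 / 4 := by
      by_contra hcon
      rw [not_le] at hcon
      have h1 : (15 / 4 : ℝ) ^ 4 < y ^ 4 := pow_lt_pow_left₀ hcon (by norm_num) (by norm_num)
      rw [hy4] at h1
      have h2 : (K : ℝ) < 100 := by exact_mod_cast hsmall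
      norm_num at h1
      linarith
    have h3 : (4 / 3 : ℝ) ≤ 5 / y := by
      rw [le_div_iff₀ hypos]
      linarith
    linarith
  · -- choose `j` with `100 * 4^j ≤ K < 100 * 4^(j+1)`
    have hK100 : 100 ≤ K := by omega
    have hq : 1 ≤ K / 100 := by omega
    obtain ⟨j, hj⟩ : ∃ j : ℕ, j = Nat.log 4 (K / 100) := ⟨_, rfl⟩
    have hlo : 4 ^ j ≤ K / 100 := by
      rw [hj]
      exact Nat.pow_log_le_self 4 (by omega)
    have hhi : K / 100 < 4 ^ (j + 1) := by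
      rw [hj]
      exact Nat.lt_pow_succ_log_self (by norm_num) _
    have hlo' : 100 * 4 ^ j ≤ K := by
      have := Nat.div_mul_le_self K 100
      nlinarith
    have hhi' : K < 100 * 4 ^ (j + 1) := by
      have h1 : K / 100 + 1 ≤ 4 ^ (j + 1) := hhi
      have h2 : K < 100 * (K / 100 + 1) := by
        have := Nat.div_add_mod K 100
        have := Nat.mod_lt K (by norm_num : 0 < 100)
        omega
      nlinarith
    obtain ⟨n, a, ha, ho, hg⟩ := rate_pow j K hlo'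
    refine ⟨n, a, ha, ho, ?_⟩
    set x : ℝ := (2 / 3 : ℝ) ^ j with hx
    have hx0 : 0 ≤ x := by positivity
    have hKlt : (K : ℝ) < 100 * 4 ^ (j + 1) := by exact_mod_cast hhi'
    have hx4 : x ^ 4 * (100 * 4 ^ (j + 1)) = 400 * (64 / 81 : ℝ) ^ j := by
      have e1 : x ^ 4 = (16 / 81 : ℝ) ^ j := by
        rw [hx, ← pow_mul, mul_comm j 4, pow_mul]
        norm_num
      have e2 : (4 : ℝ) ^ (j + 1) = 4 ^ j * 4 := pow_succ 4 j
      have e3 : (64 / 81 : ℝ) ^ j = (16 / 81 : ℝ) ^ j * 4 ^ j := by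
        rw [← mul_pow]
        norm_num
      rw [e1, e2, e3]
      ring
    have h64 : (64 / 81 : ℝ) ^ j ≤ 1 := pow_le_one₀ (by norm_num) (by norm_num)
    have hxy : (x * y) ^ 4 ≤ 5 ^ 4 := by
      rw [mul_pow, hy4]
      have h1 : x ^ 4 * (K : ℝ) ≤ x ^ 4 * (100 * 4 ^ (j + 1)) :=
        mul_le_mul_of_nonneg_left (le_of_lt hKlt) (by positivity)
      rw [hx4] at h1
      norm_num
      linarith
    have hxy' : x * y ≤ 5 := by
      by_contra hcon
      rw [not_le] at hcon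
      have := pow_lt_pow_left₀ hcon (by norm_num) (by norm_num : (4 : ℕ) ≠ 0)
      linarith
    have hfin : x ≤ 5 / y := by
      rw [le_div_iff₀ hypos]
      exact hxy'
    linarith

/-- The sharper size bound: half of the number of items is at most `4 + 75 * j * 2^j`. -/
theorem size_bound' (j n : ℕ) (hn : n + 3 * j = 7 + 75 * j * 2 ^ (j + 1)) :
    (n + 1) / 2 ≤ 4 + 75 * j * 2 ^ j := by
  have h5 : 75 * j * 2 ^ (j + 1) = 2 * (75 * j * 2 ^ j) := by
    rw [pow_succ]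
    ring
  omega

/-- For every `j` and every `K ≥ 4 + 75 * j * 2^j`: an instance with all sizes in `(1/4, 1/2]`,
optimum exactly `K`, and difference at least `4/3 - (2/3)^j`. -/
theorem every_opt_pow (j K : ℕ) (hK : 4 + 75 * j * 2 ^ j ≤ K) : ∃ (n : ℕ) (a : Fin n → ℚ),
    (∀ i, 1 / 4 < a i ∧ a i ≤ 1 / 2) ∧ opt a = K ∧
      4 / 3 - (2 / 3 : ℝ) ^ j ≤ (opt a : ℝ) - lp a := by
  obtain ⟨n, a, hn, ha, hgap⟩ := Vale.Agent.Lib.Helper2.DoublingM.four_thirds_size j
  have hopt : opt a ≤ K :=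
    le_trans (opt_le_half a (fun i => (ha i).2)) (le_trans (size_bound' j n hn) hK)
  exact exists_opt_eq a ha _ hgap K hopt

/-- The arithmetic behind the square root rate. -/
theorem key_bound (j : ℕ) : (4 + 75 * (j + 1) * 2 ^ (j + 1)) * 4 ^ j ≤ 529 * 9 ^ j := by
  by_cases hj : j < 7
  · interval_cases j <;> norm_num
  · have h7 : 7 ≤ j := by omega
    induction j, h7 using Nat.le_induction with
    | base => norm_num
    | succ m hm ih =>
      have ih' := ih (by omega)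
      have e1 : (2 : ℕ) ^ (m + 1 + 1) = 2 * 2 ^ (m + 1) := by rw [pow_succ]; ring
      have e2 : (4 : ℕ) ^ (m + 1) = 4 * 4 ^ m := by rw [pow_succ]; ring
      have e3 : (9 : ℕ) ^ (m + 1) = 9 * 9 ^ m := by rw [pow_succ]; ring
      rw [e1, e2, e3]
      have hp : 0 < 2 ^ (m + 1) := by positivity
      have hq : 0 < 4 ^ m := by positivity
      have h1 : 600 * (m + 2) * 2 ^ (m + 1) ≤ 675 * (m + 1) * 2 ^ (m + 1) := by
        apply Nat.mul_le_mul_right
        omega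
      have h2 : (4 + 75 * (m + 1 + 1) * (2 * 2 ^ (m + 1))) * 4 ≤
          9 * (4 + 75 * (m + 1) * 2 ^ (m + 1)) := by
        nlinarith
      calc (4 + 75 * (m + 1 + 1) * (2 * 2 ^ (m + 1))) * (4 * 4 ^ m)
          = ((4 + 75 * (m + 1 + 1) * (2 * 2 ^ (m + 1))) * 4) * 4 ^ m := by ring
        _ ≤ (9 * (4 + 75 * (m + 1) * 2 ^ (m + 1))) * 4 ^ m := Nat.mul_le_mul_right _ h2
        _ = 9 * ((4 + 75 * (m + 1) * 2 ^ (m + 1)) * 4 ^ m) := by ring
        _ ≤ 9 * (529 * 9 ^ m) := Nat.mul_le_mul_left _ ih'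
        _ = 529 * (9 * 9 ^ m) := by ring

/-- For every `K ≥ 1`: an instance with all sizes in `(1/4, 1/2]`, optimum exactly `K`, and
difference between the optimum and the value of the configuration linear program at least
`4/3 - 23 / sqrt K`. -/
theorem rate_sqrt (K : ℕ) (hK : 1 ≤ K) : ∃ (n : ℕ) (a : Fin n → ℚ),
    (∀ i, 1 / 4 < a i ∧ a i ≤ 1 / 2) ∧ opt a = K ∧
      4 / 3 - 23 / Real.sqrt (K : ℝ) ≤ (opt a : ℝ) - lp a := by
  have hKpos : (0 : ℝ) < (K : ℝ) := by exact_mod_cast hK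
  have hK0 : (0 : ℝ) ≤ (K : ℝ) := le_of_lt hKpos
  set y : ℝ := Real.sqrt (K : ℝ) with hy
  have hypos : 0 < y := Real.sqrt_pos.mpr hKpos
  have hy2 : y ^ 2 = (K : ℝ) := Real.sq_sqrt hK0
  by_cases hsmall : K < 154
  · -- the bound is negative
    obtain ⟨n, a, ha, ho, hg⟩ := rate_zero K
    refine ⟨n, a, ha, ho, ?_⟩
    have hyle : y ≤ 13 := by
      by_contra hcon
      rw [not_le] at hcon
      have h1 : (13 : ℝ) ^ 2 < y ^ 2 := pow_lt_pow_left₀ hcon (by norm_num) (by norm_num)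
      rw [hy2] at h1
      have h2 : (K : ℝ) < 154 := by exact_mod_cast hsmall
      norm_num at h1
      linarith
    have h3 : (4 / 3 : ℝ) ≤ 23 / y := by
      rw [le_div_iff₀ hypos]
      linarith
    linarith
  · -- choose `j` with `4 + 75 * j * 2^j ≤ K < 4 + 75 * (j+1) * 2^(j+1)`
    have hex : ∃ j : ℕ, K < 4 + 75 * (j + 1) * 2 ^ (j + 1) := by
      refine ⟨K, ?_⟩
      have h1 : 1 ≤ 2 ^ (K + 1) := Nat.one_le_two_pow
      have h2 : 75 * (K + 1) * 1 ≤ 75 * (K + 1) * 2 ^ (K + 1) := Nat.mul_le_mul_left _ h1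
      omega
    classical
    obtain ⟨j, hj⟩ : ∃ j : ℕ, j = Nat.find hex := ⟨_, rfl⟩
    have hhi : K < 4 + 75 * (j + 1) * 2 ^ (j + 1) := by
      rw [hj]
      exact Nat.find_spec hex
    have hlo : 4 + 75 * j * 2 ^ j ≤ K := by
      rcases Nat.eq_zero_or_pos j with h0 | hpos
      · rw [h0]
        omega
      · obtain ⟨i, rfl⟩ : ∃ i, j = i + 1 := ⟨j - 1, by omega⟩
        have hmin : ¬ K < 4 + 75 * (i + 1) * 2 ^ (i + 1) := by
          apply Nat.find_min hex
          omega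
        omega
    obtain ⟨n, a, ha, ho, hg⟩ := every_opt_pow j K hlo
    refine ⟨n, a, ha, ho, ?_⟩
    set x : ℝ := (2 / 3 : ℝ) ^ j with hx
    have hx0 : 0 ≤ x := by positivity
    have hKlt : (K : ℝ) < ((4 + 75 * (j + 1) * 2 ^ (j + 1) : ℕ) : ℝ) := by exact_mod_cast hhi
    have hkey : (((4 + 75 * (j + 1) * 2 ^ (j + 1)) * 4 ^ j : ℕ) : ℝ) ≤ ((529 * 9 ^ j : ℕ) : ℝ) := by
      exact_mod_cast key_bound j
    have hx2 : x ^ 2 * (9 : ℝ) ^ j = (4 : ℝ) ^ j := by
      rw [hx, ← pow_mul, mul_comm j 2, pow_mul, ← mul_pow]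
      norm_num
    have h9 : (0 : ℝ) < (9 : ℝ) ^ j := by positivity
    have hxy : (x * y) ^ 2 ≤ 23 ^ 2 := by
      rw [mul_pow, hy2]
      have h1 : x ^ 2 * (K : ℝ) ≤ x ^ 2 * ((4 + 75 * (j + 1) * 2 ^ (j + 1) : ℕ) : ℝ) :=
        mul_le_mul_of_nonneg_left (le_of_lt hKlt) (by positivity)
      have h2 : x ^ 2 * ((4 + 75 * (j + 1) * 2 ^ (j + 1) : ℕ) : ℝ) * (9 : ℝ) ^ j ≤ 529 * (9 : ℝ) ^ j := by
        have e : x ^ 2 * ((4 + 75 * (j + 1) * 2 ^ (j + 1) : ℕ) : ℝ) * (9 : ℝ) ^ j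
            = (((4 + 75 * (j + 1) * 2 ^ (j + 1)) * 4 ^ j : ℕ) : ℝ) := by
          push_cast
          rw [← hx2]
          ring
        rw [e]
        have e' : ((529 * 9 ^ j : ℕ) : ℝ) = 529 * (9 : ℝ) ^ j := by push_cast; ring
        rw [← e']
        exact hkey
      have h3 : x ^ 2 * ((4 + 75 * (j + 1) * 2 ^ (j + 1) : ℕ) : ℝ) ≤ 529 :=
        le_of_mul_le_mul_right h2 h9
      norm_num
      linarith
    have hxy' : x * y ≤ 23 := by
      by_contra hcon
      rw [not_le] at hcon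
      have := pow_lt_pow_left₀ hcon (by norm_num) (by norm_num : (2 : ℕ) ≠ 0)
      linarith
    have hfin : x ≤ 23 / y := by
      rw [le_div_iff₀ hypos]
      exact hxy'
    linarith

/-- Both forms in one statement. -/
theorem every_opt :
    (∀ j K : ℕ, 4 + 75 * j * 2 ^ j ≤ K → ∃ (n : ℕ) (a : Fin n → ℚ),
      (∀ i, 1 / 4 < a i ∧ a i ≤ 1 / 2) ∧ opt a = K ∧
        4 / 3 - (2 / 3 : ℝ) ^ j ≤ (opt a : ℝ) - lp a) ∧
    (∀ K : ℕ, 1 ≤ K → ∃ (n : ℕ) (a : Fin n → ℚ),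
      (∀ i, 1 / 4 < a i ∧ a i ≤ 1 / 2) ∧ opt a = K ∧
        4 / 3 - 23 / Real.sqrt (K : ℝ) ≤ (opt a : ℝ) - lp a) :=
  ⟨every_opt_pow, rate_sqrt⟩

end Vale.Agent.Lib.Helper3.P302Rate
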